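import Crest.Agent.R149.Fill

/-! Row 149: packing numbers and the maximal bonded cluster. -/

set_option autoImplicit false

namespace Crest.Agent.R149

open MeasureTheory Filter Topology Crest.ProbabilityR.Continuum

lemma pk_card_le (L : ℝ) (X : Finset Pt) (hX : ∀ x ∈ X, x ∈ cube L)
    (hs : ∀ x ∈ X, ∀ y ∈ X, x ≠ y → 1 ≤ dist x y) : X.card ≤ (⌊2 * L⌋₊ + 1) ^ 3 := by
  classical
  have hcard : (Fintype.piFinset fun _ : Fin 3 => Finset.range (⌊2 * L⌋₊ + 1)).card =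
      (⌊2 * L⌋₊ + 1) ^ 3 := by
    simp [Fintype.card_piFinset]
  rw [← hcard]
  refine Finset.card_le_card_of_injOn (fun x k => ⌊2 * x k⌋₊) ?_ ?_
  · intro x hx
    have hx' := hX x (by simpa using hx)
    rw [Finset.mem_coe, Fintype.mem_piFinset]
    intro k
    rw [Finset.mem_range]
    have := Nat.floor_le_floor (show 2 * x k ≤ 2 * L by linarith [(hx' k).2])
    exact Nat.lt_succ_of_le this
  · intro x hx y hy hxy
    by_contra hne
    have hx' := hX x (by simpa using hx)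
    have hy' := hX y (by simpa using hy)
    have h1 := hs x (by simpa using hx) y (by simpa using hy) hne
    have h2 : dist x y ≤ 7 / 4 * (1 / 2) := by
      refine dist_le_of_coord fun k => ?_
      have hk : ⌊2 * x k⌋₊ = ⌊2 * y k⌋₊ := congrFun hxy k
      have a1 := Nat.floor_le (show 0 ≤ 2 * x k by linarith [(hx' k).1])
      have a2 := Nat.lt_floor_add_one (2 * x k)
      have b1 := Nat.floor_le (show 0 ≤ 2 * y k by linarith [(hy' k).1])
      have b2 := Nat.lt_floor_add_one (2 * y k)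
      rw [hk] at a1 a2
      rw [abs_le]
      constructor <;> linarith
    linarith

theorem pack_bdd (L : ℝ) : BddAbove (packingSet L) := by
  refine ⟨(⌊2 * L⌋₊ + 1) ^ 3, ?_⟩
  rintro n ⟨X, rfl, hX, hs⟩
  exact pk_card_le L X hX hs

theorem card_le_pack (L : ℝ) (X : Finset Pt) (hX : ∀ x ∈ X, x ∈ cube L)
    (hs : ∀ x ∈ X, ∀ y ∈ X, x ≠ y → 1 ≤ dist x y) : X.card ≤ packingNumber L :=
  le_csSup (pack_bdd L) ⟨X, rfl, hX, hs⟩

theorem exists_pack (L : ℝ) : ∃ X : Finset Pt, X.card = packingNumber L ∧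
    (∀ x ∈ X, x ∈ cube L) ∧ ∀ x ∈ X, ∀ y ∈ X, x ≠ y → 1 ≤ dist x y :=
  Nat.sSup_mem (s := packingSet L) ⟨0, ∅, rfl, by simp, by simp⟩ (pack_bdd L)

lemma pk_pack_le {L : ℝ} (hL : 0 ≤ L) : (packingNumber L : ℝ) ≤ 8 * (L + 1) ^ 3 := by
  obtain ⟨X, hc, hX, hs⟩ := exists_pack L
  have h := pk_card_le L X hX hs
  rw [hc] at h
  have h' : (packingNumber L : ℝ) ≤ ((⌊2 * L⌋₊ : ℝ) + 1) ^ 3 := by exact_mod_cast h
  have h2 : ((⌊2 * L⌋₊ : ℝ) + 1) ≤ 2 * (L + 1) := by
    have := Nat.floor_le (show 0 ≤ 2 * L by linarith)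
    linarith
  calc (packingNumber L : ℝ) ≤ ((⌊2 * L⌋₊ : ℝ) + 1) ^ 3 := h'
    _ ≤ (2 * (L + 1)) ^ 3 := by gcongr
    _ = 8 * (L + 1) ^ 3 := by ring

lemma pk_one_le_pack_zero : 1 ≤ packingNumber 0 := by
  have := card_le_pack 0 {0} (by
    intro x hx
    rw [Finset.mem_singleton] at hx
    subst hx
    intro k
    simp) (by
    intro x hx y hy hxy
    rw [Finset.mem_singleton] at hx hy
    exact absurd (hx.trans hy.symm) hxy)
  simpa using this

lemma pk_super {ℓ L : ℝ} (hℓ : 0 ≤ ℓ) {m : ℕ} (hL : m * (ℓ + 1) ≤ L) :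
    m ^ 3 * packingNumber ℓ ≤ packingNumber L := by
  classical
  obtain ⟨X, hc, hX, hs⟩ := exists_pack ℓ
  let f : (Fin 3 → Fin m) × Pt → Pt := fun z =>
    z.2 + (ℓ + 1) • latt (fun k => ((z.1 k : ℕ) : ℤ))
  let S : Finset ((Fin 3 → Fin m) × Pt) := Finset.univ ×ˢ X
  have hsep : ∀ z ∈ S, ∀ z' ∈ S, z ≠ z' → 1 ≤ dist (f z) (f z') := by
    rintro ⟨c, x⟩ hz ⟨c', x'⟩ hz' hne
    have hx : x ∈ X := (Finset.mem_product.1 hz).2
    have hx' : x' ∈ X := (Finset.mem_product.1 hz').2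
    by_cases hcc : c = c'
    · subst hcc
      have hxx : x ≠ x' := fun h => hne (by rw [h])
      simpa [f] using hs x hx x' hx' hxx
    · have hcc' : (fun k => ((c k : ℕ) : ℤ)) ≠ fun k => ((c' k : ℕ) : ℤ) := by
        intro h
        apply hcc
        funext k
        have := congrFun h k
        exact Fin.ext (by exact_mod_cast this)
      refine grid_sep (D := 1) (ℓ := ℓ) zero_le_one hℓ hcc' ?_ ?_
      · simpa [f] using hX x hx
      · simpa [f] using hX x' hx'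
  have hinj : Set.InjOn f S := by
    intro z hz z' hz' h
    by_contra hne
    have := hsep z hz z' hz' hne
    rw [h, dist_self] at this
    linarith
  have hcard : (S.image f).card = m ^ 3 * packingNumber ℓ := by
    rw [Finset.card_image_of_injOn hinj, Finset.card_product, hc]
    simp
  rw [← hcard]
  refine card_le_pack L _ ?_ ?_
  · intro y hy
    obtain ⟨⟨c, x⟩, hz, rfl⟩ := Finset.mem_image.1 hy
    have hx : x ∈ X := (Finset.mem_product.1 hz).2
    refine grid_in (D := 1) (ℓ := ℓ) zero_le_one hℓ hL c ?_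
    simpa [f] using hX x hx
  · intro y hy y' hy' hne
    obtain ⟨z, hz, rfl⟩ := Finset.mem_image.1 hy
    obtain ⟨z', hz', rfl⟩ := Finset.mem_image.1 hy'
    exact hsep z hz z' hz' fun h => hne (by rw [h])

theorem pack_limit : ∃ p : ℝ, 1 ≤ p ∧
    Tendsto (fun L : ℝ => (packingNumber L : ℝ) / L ^ 3) atTop (𝓝 p) := by
  set S : Set ℝ := {y | ∃ L : ℝ, 0 ≤ L ∧ y = (packingNumber L : ℝ) / (L + 1) ^ 3} with hS
  have hbdd : BddAbove S := by
    refine ⟨8, ?_⟩
    rintro y ⟨L, hL, rfl⟩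
    rw [div_le_iff₀ (by positivity)]
    exact pk_pack_le hL
  have hne : S.Nonempty := ⟨_, 0, le_rfl, rfl⟩
  have hle : ∀ L : ℝ, 0 ≤ L → (packingNumber L : ℝ) / (L + 1) ^ 3 ≤ sSup S := fun L hL =>
    le_csSup hbdd ⟨L, hL, rfl⟩
  refine ⟨sSup S, ?_, ?_⟩
  · have h := hle 0 le_rfl
    have h1 : (1 : ℝ) ≤ packingNumber 0 := by exact_mod_cast pk_one_le_pack_zero
    simp only [zero_add, one_pow, div_one] at h
    linarith
  · refine tendsto_order.2 ⟨fun a ha => ?_, fun a ha => ?_⟩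
    · obtain ⟨y, ⟨ℓ, hℓ, rfl⟩, hy⟩ := exists_lt_of_lt_csSup hne ha
      have hℓ1 : 0 < ℓ + 1 := by linarith
      have h1 : Tendsto (fun L : ℝ => (⌊L / (ℓ + 1)⌋₊ : ℝ) / (L / (ℓ + 1))) atTop (𝓝 1) :=
        tendsto_nat_floor_div_atTop.comp (tendsto_id.atTop_div_const hℓ1)
      have h2 : Tendsto (fun L : ℝ => (packingNumber ℓ : ℝ) / (ℓ + 1) ^ 3 *
          ((⌊L / (ℓ + 1)⌋₊ : ℝ) / (L / (ℓ + 1))) ^ 3) atTop
          (𝓝 ((packingNumber ℓ : ℝ) / (ℓ + 1) ^ 3)) := by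
        simpa using (h1.pow 3).const_mul ((packingNumber ℓ : ℝ) / (ℓ + 1) ^ 3)
      filter_upwards [h2.eventually (lt_mem_nhds hy), eventually_gt_atTop 0] with L hL hL0
      refine hL.trans_le ?_
      have hm : (⌊L / (ℓ + 1)⌋₊ : ℝ) * (ℓ + 1) ≤ L := by
        rw [← le_div_iff₀ hℓ1]
        exact Nat.floor_le (by positivity)
      have h3 : ((⌊L / (ℓ + 1)⌋₊ : ℝ)) ^ 3 * packingNumber ℓ ≤ packingNumber L := by
        exact_mod_cast pk_super hℓ hm
      calc (packingNumber ℓ : ℝ) / (ℓ + 1) ^ 3 * ((⌊L / (ℓ + 1)⌋₊ : ℝ) / (L / (ℓ + 1))) ^ 3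
          = ((⌊L / (ℓ + 1)⌋₊ : ℝ)) ^ 3 * packingNumber ℓ / L ^ 3 := by
            field_simp
        _ ≤ _ := by gcongr
    · have h1 : Tendsto (fun L : ℝ => 1 + L⁻¹) atTop (𝓝 1) := by
        simpa using tendsto_inv_atTop_zero.const_add (1 : ℝ)
      have h2 : Tendsto (fun L : ℝ => sSup S * (1 + L⁻¹) ^ 3) atTop (𝓝 (sSup S)) := by
        simpa using (h1.pow 3).const_mul (sSup S)
      filter_upwards [h2.eventually (gt_mem_nhds ha), eventually_gt_atTop 0] with L hL hL0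
      refine lt_of_le_of_lt ?_ hL
      have h3 := hle L hL0.le
      rw [div_le_iff₀ (by positivity)] at h3
      rw [div_le_iff₀ (by positivity)]
      calc (packingNumber L : ℝ) ≤ sSup S * (L + 1) ^ 3 := h3
        _ = sSup S * (1 + L⁻¹) ^ 3 * L ^ 3 := by field_simp

/-- The centre of the cube of side `16`. -/
noncomputable def pk_c8 : Pt := latt fun _ => 8

lemma pk_c8_apply (k : Fin 3) : pk_c8 k = 8 := by
  simp [pk_c8, latt]

lemma pk_clique_card (X : Finset Pt)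
    (h : ∀ p ∈ X, ∀ q ∈ X, p ≠ q → 4 ≤ dist p q ∧ dist p q ≤ 8) : X.card ≤ packingNumber 4 := by
  classical
  rcases X.eq_empty_or_nonempty with rfl | ⟨x₀, hx₀⟩
  · simp
  let f : Pt → Pt := fun x => (1 / 4 : ℝ) • (x - x₀ + pk_c8)
  have hd : ∀ x y, dist (f x) (f y) = dist x y / 4 := by
    intro x y
    simp only [f, dist_smul₀, dist_add_right, dist_sub_right, Real.norm_eq_abs]
    rw [abs_of_pos (by norm_num)]
    ring
  have hinj : Function.Injective f := by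
    intro x y hxy
    have := hd x y
    rw [hxy, dist_self] at this
    exact dist_eq_zero.1 (by linarith)
  rw [← Finset.card_image_of_injective X hinj]
  refine card_le_pack 4 _ ?_ ?_
  · intro y hy
    obtain ⟨x, hx, rfl⟩ := Finset.mem_image.1 hy
    intro k
    have h1 : dist x x₀ ≤ 8 := by
      by_cases hxx : x = x₀
      · rw [hxx, dist_self]; norm_num
      · exact (h x hx x₀ hx₀ hxx).2
    have h2 := (abs_sub_le_dist x x₀ k).trans h1
    rw [abs_le] at h2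
    simp only [f, PiLp.smul_apply, PiLp.add_apply, PiLp.sub_apply, pk_c8_apply, smul_eq_mul]
    constructor <;> linarith [h2.1, h2.2]
  · intro y hy y' hy' hne
    obtain ⟨x, hx, rfl⟩ := Finset.mem_image.1 hy
    obtain ⟨x', hx', rfl⟩ := Finset.mem_image.1 hy'
    have := (h x hx x' hx' fun h => hne (by rw [h])).1
    rw [hd]
    linarith

theorem exists_clique : ∃ (n : ℕ) (b₂ a₁ a₂ η : ℝ) (w : Fin n → Pt),
    2 ≤ n ∧ 4 < a₁ ∧ a₁ < a₂ ∧ a₂ < b₂ ∧ b₂ ≤ 8 ∧ 0 < η ∧ η ≤ 1 / 2 ∧ CliqueBd b₂ n ∧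
      (∀ i, w i ∈ cube 16) ∧
      ∀ i i', i ≠ i' → a₁ + 2 * η ≤ dist (w i) (w i') ∧ dist (w i) (w i') ≤ a₂ - 2 * η := by
  classical
  set K : Set ℕ := {n | ∃ t : ℝ, t < 2 ∧ ∃ X : Finset Pt, X.card = n ∧
    ∀ p ∈ X, ∀ q ∈ X, p ≠ q → 4 ≤ dist p q ∧ dist p q ≤ 4 * t} with hK
  have hbdd : BddAbove K := by
    refine ⟨packingNumber 4, ?_⟩
    rintro n ⟨t, ht, X, rfl, hX⟩
    exact pk_clique_card X fun p hp q hq hpq =>
      ⟨(hX p hp q hq hpq).1, by linarith [(hX p hp q hq hpq).2]⟩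
  have h2 : 2 ∈ K := by
    have hd : dist (0 : Pt) (EuclideanSpace.single 0 4) = 4 := by
      rw [dist_zero_left]; simp
    have hne : (0 : Pt) ≠ EuclideanSpace.single 0 4 := by
      intro h
      rw [← h, dist_self] at hd
      norm_num at hd
    refine ⟨1, by norm_num, {0, EuclideanSpace.single 0 4}, Finset.card_pair hne, ?_⟩
    intro p hp q hq hpq
    simp only [Finset.mem_insert, Finset.mem_singleton] at hp hq
    rcases hp with rfl | rfl <;> rcases hq with rfl | rfl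
    · exact absurd rfl hpq
    · rw [hd]; norm_num
    · rw [dist_comm, hd]; norm_num
    · exact absurd rfl hpq
  obtain ⟨t₁, ht₁, X, hXc, hX⟩ := Nat.sSup_mem ⟨2, h2⟩ hbdd
  have hn2 : 2 ≤ X.card := by rw [hXc]; exact le_csSup hbdd h2
  obtain ⟨x₀, hx₀, x₁, hx₁, hx01⟩ := Finset.one_lt_card.1 (show 1 < X.card by omega)
  have ht1 : 1 ≤ t₁ := by
    have := hX x₀ hx₀ x₁ hx₁ hx01
    linarith [this.1, this.2]
  set t₂ : ℝ := (t₁ + 2) / 2 with ht₂
  have ht12 : t₁ < t₂ := by rw [ht₂]; linarith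
  have ht22 : t₂ < 2 := by rw [ht₂]; linarith
  set σ : ℝ := (t₁ + t₂) / (2 * t₁) with hσ
  have hσ1 : 1 < σ := by
    rw [hσ, lt_div_iff₀ (by linarith)]; linarith
  have hσt : σ * t₁ = (t₁ + t₂) / 2 := by
    rw [hσ]; field_simp
  set g : ℝ := min (min (4 * σ - 4) (4 * t₂ - 4 * (σ * t₁))) 1 with hg
  have hg0 : 0 < g := by
    refine lt_min (lt_min (by linarith) (by rw [hσt]; linarith)) one_pos
  have hg1 : g ≤ 4 * σ - 4 := (min_le_left _ _).trans (min_le_left _ _)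
  have hg2 : g ≤ 4 * t₂ - 4 * (σ * t₁) := (min_le_left _ _).trans (min_le_right _ _)
  have hg3 : g ≤ 1 := min_le_right _ _
  let f : Pt → Pt := fun x => σ • (x - x₀) + pk_c8
  have hd : ∀ x y, dist (f x) (f y) = σ * dist x y := by
    intro x y
    simp only [f, dist_smul₀, dist_add_right, dist_sub_right, Real.norm_eq_abs]
    rw [abs_of_pos (by linarith)]
  have hfd : ∀ x ∈ X, ∀ y ∈ X, x ≠ y →
      4 + g ≤ dist (f x) (f y) ∧ dist (f x) (f y) ≤ 4 * t₂ - g := by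
    intro x hx y hy hxy
    obtain ⟨h1, h2⟩ := hX x hx y hy hxy
    rw [hd]
    constructor <;> nlinarith
  refine ⟨X.card, 4 * t₂, 4 + g / 3, 4 * t₂ - g / 3, g / 3,
    fun i => f (X.equivFin.symm i), hn2, by linarith, ?_, by linarith, by linarith, by linarith,
    by linarith, ?_, ?_, ?_⟩
  · have := hfd x₀ hx₀ x₁ hx₁ hx01
    linarith [this.1, this.2]
  · intro Y hY
    rw [hXc]
    exact le_csSup hbdd ⟨t₂, ht22, Y, rfl, hY⟩
  · intro i k
    have hx : ((X.equivFin.symm i : X) : Pt) ∈ X := (X.equivFin.symm i).2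
    beta_reduce
    generalize ((X.equivFin.symm i : X) : Pt) = x at hx
    have h1 : dist (f x) (f x₀) ≤ 8 := by
      by_cases hxx : x = x₀
      · rw [hxx, dist_self]; norm_num
      · linarith [(hfd x hx x₀ hx₀ hxx).2]
    have h2 := (abs_sub_le_dist (f x) (f x₀) k).trans h1
    rw [abs_le] at h2
    have h3 : f x₀ k = 8 := by simp [f, pk_c8_apply]
    rw [h3] at h2
    constructor <;> linarith [h2.1, h2.2]
  · intro i i' hii
    have hne : ((X.equivFin.symm i : X) : Pt) ≠ (X.equivFin.symm i' : X) := by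
      intro h
      exact hii (X.equivFin.symm.injective (Subtype.ext h))
    have := hfd _ (X.equivFin.symm i).2 _ (X.equivFin.symm i').2 hne
    constructor <;> linarith [this.1, this.2]

end Crest.Agent.R149
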