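import Crest.Agent.R149.Fill
import Crest.Agent.R149.Pack

/-! Row 149: lower bounds for the short-range potential. -/

set_option autoImplicit false

namespace Crest.Agent.R149

open MeasureTheory Filter Topology Crest.ProbabilityR.Continuum

lemma pk_dist_cube {ℓ : ℝ} {e e' : Pt} (he : e ∈ cube ℓ) (he' : e' ∈ cube ℓ) :
    dist e e' ≤ 7 / 4 * ℓ := by
  refine dist_le_of_coord fun k => ?_
  rw [abs_le]
  constructor <;> linarith [(he k).1, (he k).2, (he' k).1, (he' k).2]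

/-- Points near two centres: the distance differs from that of the centres by `≤ 7ℓ/4`. -/
lemma pk_dist_near {ℓ : ℝ} {p q y y' : Pt} (hp : p - y ∈ cube ℓ) (hq : q - y' ∈ cube ℓ) :
    |dist p q - dist y y'| ≤ 7 / 4 * ℓ := by
  refine le_trans ?_ (pk_dist_cube hp hq)
  rw [dist_eq_norm, dist_eq_norm, dist_eq_norm]
  have : p - y - (q - y') = (p - q) - (y - y') := by abel
  rw [this]
  exact abs_norm_sub_norm_le _ _

theorem base_lower {Φ : ℝ → ℝ} (hΦ : Adm Φ) {p : ℝ}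
    (hp : Tendsto (fun L : ℝ => (packingNumber L : ℝ) / L ^ 3) atTop (𝓝 p))
    {D D'' ℓ₀ : ℝ} (hD : 0 < D) (hneg : ∀ r, D ≤ r → Φ r ≤ 0) (hℓ₀ : 0 < ℓ₀)
    (hD'' : D + 2 * ℓ₀ ≤ D'') (μ : ℝ) (j : ℕ) :
    p / D'' ^ 3 * (μ * j + lZ Φ ℓ₀ j) ≤ press D Φ μ := by
  classical
  have hD''0 : 0 < D'' := by linarith
  have key : ∀ L : ℝ, 0 < L →
      (packingNumber L : ℝ) * (μ * j + lZ Φ ℓ₀ j) / (D'' * L + ℓ₀ + D) ^ 3 ≤ press D Φ μ := by
    intro L hL
    obtain ⟨X, hc, hX, hs⟩ := exists_pack L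
    have hL' : 0 < D'' * L + ℓ₀ := by positivity
    have hfill := fill_sep (C := X) hΦ hD hneg (D'' * L + ℓ₀) hℓ₀ (fun c => D'' • (c : Pt))
      (fun _ => j) (X.card * j) (by simp) ?_ ?_
    · have h1 := le_press hΦ hD.le μ hL' (X.card * j)
      refine le_trans ?_ h1
      rw [← hc]
      simp only [Finset.sum_const, Finset.card_univ, Fintype.card_coe, nsmul_eq_mul] at hfill
      refine div_le_div_of_nonneg_right ?_ (by positivity)
      push_cast
      nlinarith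
    · intro c q hq k
      have h1 := hq k
      have h2 := hX c c.2 k
      simp only [PiLp.sub_apply, PiLp.smul_apply, smul_eq_mul] at h1
      have h3 := mul_nonneg hD''0.le h2.1
      have h4 := mul_le_mul_of_nonneg_left h2.2 hD''0.le
      constructor <;> linarith [h1.1, h1.2]
    · intro c c' q q' hcc hq hq'
      have h1 := pk_dist_near hq hq'
      have h2 := hs c c.2 c' c'.2 fun h => hcc (Subtype.ext h)
      rw [dist_smul₀, Real.norm_eq_abs, abs_of_pos hD''0, abs_le] at h1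
      have h3 := mul_le_mul_of_nonneg_left h2 hD''0.le
      linarith [h1.1]
  have h1 : Tendsto (fun L : ℝ => (D'' + (ℓ₀ + D) * L⁻¹)⁻¹) atTop (𝓝 D''⁻¹) := by
    have : Tendsto (fun L : ℝ => D'' + (ℓ₀ + D) * L⁻¹) atTop (𝓝 D'') := by
      simpa using (tendsto_inv_atTop_zero.const_mul (ℓ₀ + D)).const_add D''
    exact this.inv₀ hD''0.ne'
  have h2 := (hp.mul (h1.pow 3)).mul_const (μ * j + lZ Φ ℓ₀ j)
  have h3 : p * D''⁻¹ ^ 3 * (μ * j + lZ Φ ℓ₀ j) = p / D'' ^ 3 * (μ * j + lZ Φ ℓ₀ j) := by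
    field_simp
  rw [h3] at h2
  refine le_of_tendsto h2 ?_
  filter_upwards [eventually_gt_atTop 0] with L hL
  refine le_of_eq_of_le ?_ (key L hL)
  have : 0 < D'' * L + ℓ₀ + D := by positivity
  have h4 : D'' + (ℓ₀ + D) * L⁻¹ = (D'' * L + ℓ₀ + D) / L := by
    field_simp
    ring
  rw [h4]
  field_simp

theorem cluster_lower {Φ : ℝ → ℝ} (hΦ : Adm Φ) {u a₁ a₂ η ℓ₀ : ℝ} {j M : ℕ} (hj : 1 ≤ j)
    (hM : 1 ≤ M) (hη : 0 < η) (hη' : η ≤ 1 / 2) (hMℓ : (M : ℝ) + 17 ≤ ℓ₀) (w : Fin j → Pt)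
    (hw : ∀ i, w i ∈ cube 16)
    (hww : ∀ i i', i ≠ i' → a₁ + 2 * η ≤ dist (w i) (w i') ∧ dist (w i) (w i') ≤ a₂ - 2 * η)
    (hΦu : ∀ r, a₁ ≤ r → r ≤ a₂ → Φ r ≤ -u) :
    u * ((j : ℝ) * ((j : ℝ) - 1) / 2) + 3 * Real.log M + 3 * j * Real.log η -
      Real.log (Nat.factorial j) ≤ lZ Φ ℓ₀ j := by
  classical
  set E : ℝ := u * ((j : ℝ) * ((j : ℝ) - 1) / 2) with hE
  let c : (Fin 3 → Fin M) → Pt := fun τ => latt fun k => ((τ k : ℕ) : ℤ)
  have hc : ∀ τ k, c τ k = ((τ k : ℕ) : ℝ) := by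
    intro τ k
    simp [c, latt]
  let A : (Fin 3 → Fin M) → Set (Fin j → Pt) := fun τ =>
    Set.pi Set.univ fun i => {p : Pt | p - (c τ + w i) ∈ cube η}
  have hAm : ∀ τ, MeasurableSet (A τ) := fun τ =>
    MeasurableSet.univ_pi fun i => measurableSet_cube_sub η _
  have hAv : ∀ τ, volume (A τ) = ENNReal.ofReal ((η ^ 3) ^ j) := by
    intro τ
    simp only [A]
    rw [volume_pi, Measure.pi_pi]
    simp only [volume_cube_sub hη.le, Finset.prod_const, Finset.card_univ, Fintype.card_fin]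
    exact (ENNReal.ofReal_pow (by positivity) j).symm
  have hAd : Pairwise (Function.onFun Disjoint A) := by
    intro τ τ' hne
    rw [Function.onFun, Set.disjoint_left]
    intro x hx hx'
    apply hne
    funext k
    have h1 := hx ⟨0, hj⟩ (Set.mem_univ _) k
    have h2 := hx' ⟨0, hj⟩ (Set.mem_univ _) k
    simp only [PiLp.sub_apply, PiLp.add_apply, hc] at h1 h2
    have h3 : ((τ k : ℕ) : ℝ) < (τ' k : ℕ) + 1 := by linarith [h1.1, h1.2, h2.1, h2.2]
    have h4 : ((τ' k : ℕ) : ℝ) < (τ k : ℕ) + 1 := by linarith [h1.1, h1.2, h2.1, h2.2]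
    have h3' : (τ k : ℕ) < (τ' k : ℕ) + 1 := by exact_mod_cast h3
    have h4' : (τ' k : ℕ) < (τ k : ℕ) + 1 := by exact_mod_cast h4
    exact Fin.ext (by omega)
  have hAsub : (⋃ τ, A τ) ⊆ Set.pi Set.univ fun _ : Fin j => cube ℓ₀ := by
    intro x hx
    obtain ⟨τ, hτ⟩ := Set.mem_iUnion.1 hx
    intro i _ k
    have h1 := hτ i (Set.mem_univ _) k
    simp only [PiLp.sub_apply, PiLp.add_apply, hc] at h1
    have h2 := hw i k
    have h3 : ((τ k : ℕ) : ℝ) ≤ M := by exact_mod_cast (τ k).2.le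
    have h4 : (0 : ℝ) ≤ (τ k : ℕ) := Nat.cast_nonneg _
    constructor <;> linarith [h1.1, h1.2, h2.1, h2.2]
  have hAE : ∀ x ∈ ⋃ τ, A τ, E ≤ -energy Φ x := by
    intro x hx
    obtain ⟨τ, hτ⟩ := Set.mem_iUnion.1 hx
    rw [energy_eq_EnOn, EnOn]
    have h1 : ∑ i : Fin j, ∑ i' : Fin j, (if i = i' then 0 else Φ (dist (x i) (x i'))) ≤
        ∑ i : Fin j, ∑ i' : Fin j, (-u + if i = i' then u else 0) := by
      refine Finset.sum_le_sum fun i _ => Finset.sum_le_sum fun i' _ => ?_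
      by_cases hii : i = i'
      · simp [hii]
      · have h2 := pk_dist_near (hτ i (Set.mem_univ _)) (hτ i' (Set.mem_univ _))
        rw [dist_add_left, abs_le] at h2
        have h3 := hww i i' hii
        simp only [hii, if_false, add_zero]
        exact hΦu _ (by linarith [h2.1, h3.1]) (by linarith [h2.2, h3.2])
    simp only [Finset.sum_add_distrib, Finset.sum_const, Finset.card_univ, Fintype.card_fin,
      nsmul_eq_mul, Finset.sum_ite_eq, Finset.mem_univ, if_true] at h1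
    rw [hE]
    linarith
  have hvol : volume (⋃ τ, A τ) = ENNReal.ofReal ((M : ℝ) ^ 3 * (η ^ 3) ^ j) := by
    rw [measure_iUnion hAd hAm, tsum_fintype]
    simp only [hAv, Finset.sum_const, Finset.card_univ, Fintype.card_fun, Fintype.card_fin,
      nsmul_eq_mul]
    rw [ENNReal.ofReal_mul (by positivity)]
    congr 1
    rw [← Nat.cast_pow, ENNReal.ofReal_natCast]
  have hmain : ENNReal.ofReal (Real.exp E * ((M : ℝ) ^ 3 * (η ^ 3) ^ j)) ≤
      ENNReal.ofReal ((Nat.factorial j : ℝ) * Zr Φ ℓ₀ j) := by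
    rw [ofReal_Zr hΦ, ENNReal.ofReal_mul (Real.exp_pos _).le, ← hvol]
    refine le_trans ?_ (lintegral_mono_set hAsub)
    rw [← setLIntegral_const]
    refine setLIntegral_mono' (MeasurableSet.iUnion hAm) fun x hx => ?_
    exact ENNReal.ofReal_le_ofReal (Real.exp_le_exp.2 (hAE x hx))
  have hℓ : 0 < ℓ₀ := by
    have : (0 : ℝ) ≤ M := Nat.cast_nonneg _
    linarith
  have hZ := Zr_pos hΦ hℓ j
  have hf : (0 : ℝ) < Nat.factorial j := by exact_mod_cast Nat.factorial_pos j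
  have hM0 : (0 : ℝ) < M := by exact_mod_cast hM
  rw [ENNReal.ofReal_le_ofReal_iff (by positivity)] at hmain
  have hlog := Real.log_le_log (by positivity) hmain
  rw [Real.log_mul (by positivity) (by positivity), Real.log_mul (by positivity) (by positivity),
    Real.log_mul hf.ne' hZ.ne', Real.log_exp, Real.log_pow, Real.log_pow, Real.log_pow] at hlog
  rw [lZ]
  push_cast at hlog
  linarith

end Crest.Agent.R149
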