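import Crest.Agent.R149.Decomp

/-! Row 149: filling a big cube by small cubes separated by corridors. -/

set_option autoImplicit false

namespace Crest.Agent.R149

open MeasureTheory Filter Topology Crest.ProbabilityR.Continuum

theorem fill_sep {C : Type} [Fintype C] {Φ : ℝ → ℝ} (hΦ : Adm Φ) {D : ℝ} (hD : 0 < D)
    (hneg : ∀ r, D ≤ r → Φ r ≤ 0) (L : ℝ) {ℓ : ℝ} (hℓ : 0 < ℓ) (y : C → Pt) (n : C → ℕ) (N : ℕ)
    (hN : ∑ c, n c = N) (hin : ∀ (c : C) (p : Pt), p - y c ∈ cube ℓ → p ∈ cube L)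
    (hsep : ∀ (c c' : C) (p q : Pt), c ≠ c' → p - y c ∈ cube ℓ → q - y c' ∈ cube ℓ →
      D ≤ dist p q) :
    ∑ c, lZ Φ ℓ (n c) ≤ lZ Φ L N := by
  classical
  have key := decomp_lower hΦ hΦ L hℓ y n N hN 0 hin ?_ ?_
  · simpa using key
  · intro c c' p hp hp'
    by_contra hne
    have h1 := hsep c c' p p hne hp hp'
    rw [dist_self] at h1
    linarith
  · intro κ x _ hx
    rw [energy_split Φ x κ]
    have h1 : (∑ i, ∑ j, if κ i = κ j then 0 else Φ (dist (x i) (x j))) ≤ 0 := by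
      refine Finset.sum_nonpos fun i _ => Finset.sum_nonpos fun j _ => ?_
      split_ifs with hij
      · exact le_rfl
      · exact hneg _ (hsep _ _ _ _ hij (hx i) (hx j))
    linarith

lemma th_coord (a : ℝ) (c : Fin 3 → ℤ) (p : Pt) (k : Fin 3) :
    (p - a • latt c) k = p k - a * (c k : ℝ) := by
  simp [latt]

/-- Points of different grid cells are at distance at least `D`. -/
theorem grid_sep {D ℓ : ℝ} (hD : 0 ≤ D) (hℓ : 0 ≤ ℓ) {c c' : Fin 3 → ℤ} (hcc : c ≠ c') {p q : Pt}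
    (hp : p - (ℓ + D) • latt c ∈ cube ℓ) (hq : q - (ℓ + D) • latt c' ∈ cube ℓ) :
    D ≤ dist p q := by
  obtain ⟨k, hk⟩ := Function.ne_iff.mp hcc
  have hpk := hp k
  have hqk := hq k
  rw [th_coord] at hpk hqk
  refine le_trans ?_ (abs_sub_le_dist p q k)
  have hs : 0 ≤ ℓ + D := add_nonneg hℓ hD
  rcases lt_or_gt_of_ne hk with h | h
  · have h1 : (c k : ℝ) + 1 ≤ (c' k : ℝ) := by exact_mod_cast h
    have h2 := mul_le_mul_of_nonneg_left h1 hs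
    rw [le_abs]
    right
    nlinarith [hpk.1, hpk.2, hqk.1, hqk.2]
  · have h1 : (c' k : ℝ) + 1 ≤ (c k : ℝ) := by exact_mod_cast h
    have h2 := mul_le_mul_of_nonneg_left h1 hs
    rw [le_abs]
    left
    nlinarith [hpk.1, hpk.2, hqk.1, hqk.2]

theorem grid_in {D ℓ L : ℝ} (hD : 0 ≤ D) (hℓ : 0 ≤ ℓ) {m : ℕ} (hL : m * (ℓ + D) ≤ L)
    (c : Fin 3 → Fin m) {p : Pt} (hp : p - (ℓ + D) • latt (fun k => ((c k : ℕ) : ℤ)) ∈ cube ℓ) :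
    p ∈ cube L := by
  intro k
  have hpk := hp k
  rw [th_coord] at hpk
  have hs : 0 ≤ ℓ + D := add_nonneg hℓ hD
  have h0 : (0 : ℝ) ≤ ((c k : ℕ) : ℝ) := Nat.cast_nonneg _
  have h1 : ((c k : ℕ) : ℝ) + 1 ≤ (m : ℝ) := by exact_mod_cast (c k).2
  have h2 := mul_le_mul_of_nonneg_left h1 hs
  have h3 := mul_nonneg hs h0
  simp only [Int.cast_natCast] at hpk
  constructor
  · linarith [hpk.1]
  · nlinarith [hpk.2]

theorem fill_grid {Φ : ℝ → ℝ} (hΦ : Adm Φ) {D : ℝ} (hD : 0 < D) (hneg : ∀ r, D ≤ r → Φ r ≤ 0)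
    {L ℓ : ℝ} (hℓ : 0 < ℓ) {m : ℕ} (hL : m * (ℓ + D) ≤ L) (n : (Fin 3 → Fin m) → ℕ) (N : ℕ)
    (hN : ∑ c, n c = N) : ∑ c, lZ Φ ℓ (n c) ≤ lZ Φ L N := by
  refine fill_sep hΦ hD hneg L hℓ
    (fun c : Fin 3 → Fin m => (ℓ + D) • latt (fun k => ((c k : ℕ) : ℤ))) n N hN ?_ ?_
  · intro c p hp
    exact grid_in hD.le hℓ.le hL c hp
  · intro c c' p q hcc hp hq
    refine grid_sep hD.le hℓ.le ?_ hp hq
    intro h
    apply hcc
    funext k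
    have := congrFun h k
    exact Fin.ext (by exact_mod_cast this)

/-- Constant filling of a grid. -/
lemma th_fill_const {Φ : ℝ → ℝ} (hΦ : Adm Φ) {D : ℝ} (hD : 0 < D) (hneg : ∀ r, D ≤ r → Φ r ≤ 0)
    {L ℓ : ℝ} (hℓ : 0 < ℓ) {m : ℕ} (hL : m * (ℓ + D) ≤ L) (n : ℕ) :
    (m : ℝ) ^ 3 * lZ Φ ℓ n ≤ lZ Φ L (m ^ 3 * n) := by
  have h := fill_grid hΦ hD hneg hℓ hL (fun _ => n) (m ^ 3 * n) (by simp)
  simpa using h

/-- The pressure is determined by large cubes. -/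
theorem press_le_of_large {Φ : ℝ → ℝ} (hΦ : Adm Φ) {D : ℝ} (hD : 0 < D)
    (hneg : ∀ r, D ≤ r → Φ r ≤ 0) (μ V : ℝ)
    (h : ∀ ε : ℝ, 0 < ε → ∃ L₁ : ℝ, ∀ L : ℝ, L₁ ≤ L → 0 < L → ∀ N : ℕ,
      μ * N + lZ Φ L N ≤ (V + ε) * L ^ 3) :
    press D Φ μ ≤ V := by
  refine press_le fun L₀ N₀ hL₀ => ?_
  refine le_of_forall_pos_le_add fun ε hε => ?_
  obtain ⟨L₁, hL₁⟩ := h ε hε
  have hs : 0 < L₀ + D := add_pos hL₀ hD
  obtain ⟨m₀, hm₀⟩ := exists_nat_ge (L₁ / (L₀ + D))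
  set m : ℕ := m₀ + 1 with hm
  have hmpos : (0 : ℝ) < m := by positivity
  have hmL : L₁ ≤ (m : ℝ) * (L₀ + D) := by
    rw [div_le_iff₀ hs] at hm₀
    have : (m₀ : ℝ) ≤ m := by rw [hm]; push_cast; linarith
    nlinarith
  have h1 := hL₁ (m * (L₀ + D)) hmL (mul_pos hmpos hs) (m ^ 3 * N₀)
  have h2 := th_fill_const hΦ hD hneg hL₀ (le_refl ((m : ℝ) * (L₀ + D))) N₀
  rw [div_le_iff₀ (pow_pos hs 3)]
  have hm3 : (0 : ℝ) < (m : ℝ) ^ 3 := pow_pos hmpos 3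
  have h3 : (m : ℝ) ^ 3 * (μ * N₀ + lZ Φ L₀ N₀) ≤ (m : ℝ) ^ 3 * ((V + ε) * (L₀ + D) ^ 3) := by
    push_cast at h1
    nlinarith
  exact le_of_mul_le_mul_left h3 hm3

end Crest.Agent.R149
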