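import Crest.Agent.R149.Count
import Crest.Agent.R149.Fill

/-! Row 149: the Kac attraction. -/

set_option autoImplicit false

namespace Crest.Agent.R149

open MeasureTheory Filter Topology Crest.ProbabilityR.Continuum

lemma psi_nonneg (t : ℝ) : 0 ≤ psi t := le_max_left _ _

lemma psi_le_one (t : ℝ) : psi t ≤ 1 := max_le zero_le_one (min_le_left _ _)

lemma psi_antitone : Antitone psi := by
  intro s t hst
  unfold psi
  exact max_le_max le_rfl (min_le_min le_rfl (by linarith))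

lemma psi_eq_zero {t : ℝ} (ht : 1 ≤ t) : psi t = 0 := by
  unfold psi
  exact max_eq_left ((min_le_right _ _).trans (by linarith))

lemma continuous_psi : Continuous psi := by
  unfold psi
  fun_prop

lemma ck_psi_lip {s t : ℝ} (h : s ≤ t) : psi s - psi t ≤ t - s := by
  unfold psi
  simp only [max_def, min_def]
  split_ifs <;> linarith

lemma ck_psi_half {t : ℝ} (h : t ≤ 1 / 2) : 1 / 2 ≤ psi t := by
  unfold psi
  simp only [max_def, min_def]
  split_ifs <;> linarith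

lemma ck_latt_apply (m : Fin 3 → ℤ) (k : Fin 3) : latt m k = (m k : ℝ) := rfl

lemma ck_latt_sub (a b : Fin 3 → ℤ) : latt (a - b) = latt a - latt b := by
  ext k
  simp [ck_latt_apply]

lemma ck_ibox_eq (w : ℕ) : ibox w = ck_box (w + 2) := by
  unfold ibox ck_box
  push_cast
  rfl

lemma ck_norm_latt_le {m : Fin 3 → ℤ} {d : ℝ} (h : ∀ k, |(m k : ℝ)| ≤ d) :
    ‖latt m‖ ≤ 7 / 4 * d := by
  have := dist_le_of_coord (p := latt m) (q := 0) (d := d) (by
    intro k; simpa [ck_latt_apply] using h k)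
  simpa using this

lemma ck_norm_latt_le_box {r : ℕ} {m : Fin 3 → ℤ} (h : m ∈ ck_box r) :
    ‖latt m‖ ≤ 7 / 4 * (r : ℝ) := by
  apply ck_norm_latt_le
  intro k
  have hk := ck_mem_box.1 h k
  rw [abs_le]
  constructor
  · exact_mod_cast hk.1
  · exact_mod_cast hk.2

lemma ck_abs_le_norm_latt (m : Fin 3 → ℤ) (k : Fin 3) : |(m k : ℝ)| ≤ ‖latt m‖ := by
  have := abs_sub_le_dist (latt m) 0 k
  simpa [ck_latt_apply] using this

lemma ck_cube_dist {ℓ : ℝ} (hℓ : 0 ≤ ℓ) {a b : Pt} (ha : a ∈ cube ℓ) (hb : b ∈ cube ℓ) :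
    ‖a - b‖ ≤ 2 * ℓ := by
  have : dist a b ≤ 7 / 4 * ℓ := by
    apply dist_le_of_coord
    intro k
    have h1 := ha k
    have h2 := hb k
    rw [abs_le]
    constructor <;> linarith [h1.1, h1.2, h2.1, h2.2]
  rw [dist_eq_norm] at this
  linarith

theorem kac_upper {w : ℕ} (hw : 1 ≤ w) {ℓ : ℝ} (hℓ : 0 < ℓ) {N : ℕ} (x : Fin N → Pt) (o : Pt)
    (k : Fin N → Fin 3 → ℤ) (h : ∀ i, x i - (o + ℓ • latt (k i)) ∈ cube ℓ) :
    energy (fun r => psi (r / (w * ℓ))) x ≤
      sumUp w / 2 * ∑ i, ∑ j, if k i = k j then (1 : ℝ) else 0 := by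
  classical
  have hw' : (1 : ℝ) ≤ w := by exact_mod_cast hw
  have hw0 : (0 : ℝ) < w := by linarith
  have key : ∀ i j, psi (dist (x i) (x j) / (w * ℓ)) ≤ psi ((‖latt (k i - k j)‖ - 2) / w) := by
    intro i j
    apply psi_antitone
    have h1 := ck_cube_dist hℓ.le (h i) (h j)
    have h2 : ℓ • latt (k i - k j) =
        (x i - x j) - ((x i - (o + ℓ • latt (k i))) - (x j - (o + ℓ • latt (k j)))) := by
      rw [ck_latt_sub, smul_sub]; abel
    have h3 : ℓ * ‖latt (k i - k j)‖ ≤ dist (x i) (x j) + 2 * ℓ := by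
      have : ‖ℓ • latt (k i - k j)‖ = ℓ * ‖latt (k i - k j)‖ := by
        rw [norm_smul, Real.norm_eq_abs, abs_of_pos hℓ]
      rw [← this, h2, dist_eq_norm]
      exact (norm_sub_le _ _).trans (by linarith)
    rw [div_le_div_iff₀ hw0 (mul_pos hw0 hℓ)]
    nlinarith
  have h1 : (∑ i, ∑ j, if i = j then (0 : ℝ) else psi (dist (x i) (x j) / (w * ℓ))) ≤
      ∑ i, ∑ j, ∑ m ∈ ibox w,
        psi ((‖latt m‖ - 2) / w) * if k i - k j = m then (1 : ℝ) else 0 := by
    refine Finset.sum_le_sum fun i _ => Finset.sum_le_sum fun j _ => ?_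
    have e : (∑ m ∈ ibox w, psi ((‖latt m‖ - 2) / w) * if k i - k j = m then (1 : ℝ) else 0) =
        if k i - k j ∈ ibox w then psi ((‖latt (k i - k j)‖ - 2) / w) else 0 := by
      simp only [mul_ite, mul_one, mul_zero]
      rw [Finset.sum_ite_eq]
    rw [e]
    have hle : (if i = j then (0 : ℝ) else psi (dist (x i) (x j) / (w * ℓ))) ≤
        psi ((‖latt (k i - k j)‖ - 2) / w) := by
      split_ifs
      · exact psi_nonneg _
      · exact key i j
    refine hle.trans ?_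
    split_ifs with hm
    · exact le_rfl
    · apply le_of_eq
      apply psi_eq_zero
      rw [ck_ibox_eq, ck_mem_box] at hm
      push Not at hm
      obtain ⟨c, hc⟩ := hm
      have h4 := ck_abs_le_norm_latt (k i - k j) c
      have h5 : ((w : ℤ) + 3 : ℤ) ≤ |(k i - k j) c| := by
        push_cast at hc
        rcases le_or_gt (-((w : ℤ) + 2)) ((k i - k j) c) with h6 | h6
        · have := hc h6
          exact le_abs.2 (Or.inl (by omega))
        · exact le_abs.2 (Or.inr (by omega))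
      have h6 : ((w : ℝ) + 3) ≤ |(((k i - k j) c : ℤ) : ℝ)| := by exact_mod_cast h5
      rw [le_div_iff₀ hw0]
      linarith
  have h2 : (∑ i, ∑ j, ∑ m ∈ ibox w,
        psi ((‖latt m‖ - 2) / w) * if k i - k j = m then (1 : ℝ) else 0) =
      ∑ m ∈ ibox w, psi ((‖latt m‖ - 2) / w) *
        ∑ i, ∑ j, if k i - k j = m then (1 : ℝ) else 0 := by
    simp only [Finset.mul_sum]
    rw [Finset.sum_comm (s := ibox w)]
    refine Finset.sum_congr rfl fun i _ => ?_
    rw [Finset.sum_comm]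
  have h3 : (∑ m ∈ ibox w, psi ((‖latt m‖ - 2) / w) *
        ∑ i, ∑ j, if k i - k j = m then (1 : ℝ) else 0) ≤
      ∑ m ∈ ibox w, psi ((‖latt m‖ - 2) / w) *
        ∑ i, ∑ j, if k i = k j then (1 : ℝ) else 0 :=
    Finset.sum_le_sum fun m _ =>
      mul_le_mul_of_nonneg_left (count_shift_le k Finset.univ m) (psi_nonneg _)
  rw [← Finset.sum_mul] at h3
  rw [energy_eq_EnOn]
  unfold EnOn sumUp
  linarith

/-- A grid index as an integer vector. -/
def ck_toZ {m : ℕ} (c : Fin 3 → Fin m) : Fin 3 → ℤ := fun k => ((c k : ℕ) : ℤ)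

lemma ck_toZ_inj {m : ℕ} : Function.Injective (ck_toZ (m := m)) := by
  intro a b h
  funext k
  have := congrFun h k
  simp only [ck_toZ] at this
  exact Fin.ext (by exact_mod_cast this)

/-- Interior grid indices. -/
def ck_int (m a : ℕ) : Finset (Fin 3 → Fin m) :=
  Fintype.piFinset fun _ : Fin 3 => Finset.univ.filter fun t : Fin m => a ≤ t.val ∧ t.val + a < m

lemma ck_card_int1 (m a : ℕ) :
    (Finset.univ.filter fun t : Fin m => a ≤ t.val ∧ t.val + a < m).card = m - 2 * a := by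
  have : (Finset.univ.filter fun t : Fin m => a ≤ t.val ∧ t.val + a < m).map Fin.valEmbedding =
      Finset.Ico a (m - a) := by
    ext t
    simp only [Finset.mem_map, Finset.mem_filter, Finset.mem_univ, true_and,
      Fin.valEmbedding_apply, Finset.mem_Ico]
    constructor
    · rintro ⟨s, hs, rfl⟩; omega
    · intro ht
      exact ⟨⟨t, by omega⟩, by simp; omega, rfl⟩
  have h2 := congrArg Finset.card this
  rw [Finset.card_map, Nat.card_Ico] at h2
  omega

lemma ck_card_int (m a : ℕ) :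
    (m : ℝ) ^ 3 - 6 * (a : ℝ) * (m : ℝ) ^ 2 ≤ ((ck_int m a).card : ℝ) := by
  unfold ck_int
  rw [Fintype.card_piFinset, Finset.prod_const, Finset.card_univ, Fintype.card_fin, ck_card_int1]
  have ha : (0 : ℝ) ≤ a := Nat.cast_nonneg _
  have hm : (0 : ℝ) ≤ m := Nat.cast_nonneg _
  rcases le_or_gt (2 * a) m with h | h
  · push_cast [Nat.cast_sub h]
    have h' : (2 * a : ℝ) ≤ m := by exact_mod_cast h
    nlinarith [mul_nonneg (sq_nonneg (a : ℝ)) (show (0 : ℝ) ≤ 3 * m - 2 * a by linarith)]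
  · have h' : (m : ℝ) ≤ 2 * a := by exact_mod_cast h.le
    have h0 : (0 : ℝ) ≤ (((m - 2 * a) ^ 3 : ℕ) : ℝ) := Nat.cast_nonneg _
    nlinarith [mul_nonneg (sq_nonneg (m : ℝ)) (show (0 : ℝ) ≤ 6 * a - m by linarith)]

lemma ck_sum_fib {N : ℕ} {C : Type} [DecidableEq C] (κ : Fin N → C) (c : C) :
    (∑ i, if κ i = c then (1 : ℝ) else 0) = (fib κ c).card := by
  rw [Finset.sum_boole]
  congr 2
  ext i
  rw [mem_fib]
  simp

theorem sumLo_nonneg (w : ℕ) (ℓ D : ℝ) : 0 ≤ sumLo w ℓ D :=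
  Finset.sum_nonneg fun _ _ => psi_nonneg _

theorem kac_lower {w : ℕ} (hw : 1 ≤ w) {ℓ D : ℝ} (hℓ : 0 < ℓ) (hD : 0 ≤ D) {m n N : ℕ}
    (x : Fin N → Pt) (κ : Fin N → Fin 3 → Fin m) (hκ : ∀ c, (fib κ c).card = n)
    (h : ∀ i, x i - (ℓ + D) • latt (fun k => ((κ i k : ℕ) : ℤ)) ∈ cube ℓ) :
    ((m : ℝ) ^ 3 - 6 * (w + 2) * (m : ℝ) ^ 2) * (n : ℝ) ^ 2 * sumLo w ℓ D / 2 ≤
      energy (fun r => psi (r / (w * ℓ))) x := by
  classical
  have hw' : (1 : ℝ) ≤ w := by exact_mod_cast hw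
  have hw0 : (0 : ℝ) < w := by linarith
  have hlD : 0 < ℓ + D := by linarith
  set lo : (Fin 3 → ℤ) → ℝ := fun m' => psi (((ℓ + D) * ‖latt m'‖ + 2 * ℓ) / (w * ℓ)) with hlo
  have key : ∀ i j, lo (ck_toZ (κ j) - ck_toZ (κ i)) ≤ psi (dist (x i) (x j) / (w * ℓ)) := by
    intro i j
    apply psi_antitone
    have h1 := ck_cube_dist hℓ.le (h j) (h i)
    have h2 : x j - x i = (ℓ + D) • latt (ck_toZ (κ j) - ck_toZ (κ i)) +
        ((x j - (ℓ + D) • latt (fun k => ((κ j k : ℕ) : ℤ))) -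
          (x i - (ℓ + D) • latt (fun k => ((κ i k : ℕ) : ℤ)))) := by
      rw [ck_latt_sub, smul_sub]
      unfold ck_toZ
      abel
    have h3 : dist (x i) (x j) ≤ (ℓ + D) * ‖latt (ck_toZ (κ j) - ck_toZ (κ i))‖ + 2 * ℓ := by
      have : ‖(ℓ + D) • latt (ck_toZ (κ j) - ck_toZ (κ i))‖ =
          (ℓ + D) * ‖latt (ck_toZ (κ j) - ck_toZ (κ i))‖ := by
        rw [norm_smul, Real.norm_eq_abs, abs_of_pos hlD]
      rw [← this, dist_comm, dist_eq_norm, h2]
      exact (norm_add_le _ _).trans (by linarith)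
    exact div_le_div_of_nonneg_right h3 (mul_pos hw0 hℓ).le
  have h1 : (∑ i, ∑ j, ∑ c ∈ ck_int m (w + 2), ∑ m' ∈ (ibox w).erase 0,
        (if κ i = c then (1 : ℝ) else 0) * (if ck_toZ (κ j) - ck_toZ c = m' then (1 : ℝ) else 0) *
          lo m') ≤
      ∑ i, ∑ j, if i = j then (0 : ℝ) else psi (dist (x i) (x j) / (w * ℓ)) := by
    refine Finset.sum_le_sum fun i _ => Finset.sum_le_sum fun j _ => ?_
    have e : (∑ c ∈ ck_int m (w + 2), ∑ m' ∈ (ibox w).erase 0,
        (if κ i = c then (1 : ℝ) else 0) * (if ck_toZ (κ j) - ck_toZ c = m' then (1 : ℝ) else 0) *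
          lo m') =
        if κ i ∈ ck_int m (w + 2) then
          (if ck_toZ (κ j) - ck_toZ (κ i) ∈ (ibox w).erase 0 then
            lo (ck_toZ (κ j) - ck_toZ (κ i)) else 0) else 0 := by
      rw [← Finset.sum_ite_eq (ck_int m (w + 2)) (κ i) (fun c =>
        if ck_toZ (κ j) - ck_toZ c ∈ (ibox w).erase 0 then
            lo (ck_toZ (κ j) - ck_toZ c) else 0)]
      refine Finset.sum_congr rfl fun c _ => ?_
      by_cases hc : κ i = c
      · rw [if_pos hc, if_pos hc]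
        simp only [one_mul, ite_mul, zero_mul]
        rw [Finset.sum_ite_eq]
      · rw [if_neg hc, if_neg hc]
        simp
    rw [e]
    have hnn : (0 : ℝ) ≤ if i = j then (0 : ℝ) else psi (dist (x i) (x j) / (w * ℓ)) := by
      split_ifs
      · exact le_rfl
      · exact psi_nonneg _
    by_cases h1 : κ i ∈ ck_int m (w + 2)
    · rw [if_pos h1]
      by_cases h2 : ck_toZ (κ j) - ck_toZ (κ i) ∈ (ibox w).erase 0
      · rw [if_pos h2]
        have hij : i ≠ j := by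
          rintro rfl
          simp at h2
        rw [if_neg hij]
        exact key i j
      · rw [if_neg h2]; exact hnn
    · rw [if_neg h1]; exact hnn
  have h2 : (∑ i, ∑ j, ∑ c ∈ ck_int m (w + 2), ∑ m' ∈ (ibox w).erase 0,
        (if κ i = c then (1 : ℝ) else 0) * (if ck_toZ (κ j) - ck_toZ c = m' then (1 : ℝ) else 0) *
          lo m') =
      ∑ c ∈ ck_int m (w + 2), ∑ m' ∈ (ibox w).erase 0,
        (∑ i, if κ i = c then (1 : ℝ) else 0) *
          (∑ j, if ck_toZ (κ j) - ck_toZ c = m' then (1 : ℝ) else 0) * lo m' := by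
    symm
    calc (∑ c ∈ ck_int m (w + 2), ∑ m' ∈ (ibox w).erase 0,
        (∑ i, if κ i = c then (1 : ℝ) else 0) *
          (∑ j, if ck_toZ (κ j) - ck_toZ c = m' then (1 : ℝ) else 0) * lo m')
        = ∑ c ∈ ck_int m (w + 2), ∑ m' ∈ (ibox w).erase 0, ∑ i, ∑ j,
          (if κ i = c then (1 : ℝ) else 0) *
            (if ck_toZ (κ j) - ck_toZ c = m' then (1 : ℝ) else 0) * lo m' := by
          refine Finset.sum_congr rfl fun c _ => Finset.sum_congr rfl fun m' _ => ?_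
          rw [Finset.sum_mul_sum, Finset.sum_mul]
          refine Finset.sum_congr rfl fun i _ => ?_
          rw [Finset.sum_mul]
      _ = ∑ c ∈ ck_int m (w + 2), ∑ i, ∑ j, ∑ m' ∈ (ibox w).erase 0,
          (if κ i = c then (1 : ℝ) else 0) *
            (if ck_toZ (κ j) - ck_toZ c = m' then (1 : ℝ) else 0) * lo m' := by
          refine Finset.sum_congr rfl fun c _ => ?_
          rw [Finset.sum_comm]
          refine Finset.sum_congr rfl fun i _ => ?_
          rw [Finset.sum_comm]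
      _ = _ := by
          rw [Finset.sum_comm]
          refine Finset.sum_congr rfl fun i _ => ?_
          rw [Finset.sum_comm]
  have h3 : ∀ c ∈ ck_int m (w + 2), ∀ m' ∈ (ibox w).erase 0,
      (∑ j, if ck_toZ (κ j) - ck_toZ c = m' then (1 : ℝ) else 0) = n := by
    intro c hc m' hm'
    have hm2 := Finset.mem_of_mem_erase hm'
    rw [ck_ibox_eq, ck_mem_box] at hm2
    unfold ck_int at hc
    rw [Fintype.mem_piFinset] at hc
    have hc' : ∀ k, w + 2 ≤ (c k).val ∧ (c k).val + (w + 2) < m := by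
      intro k
      have := hc k
      rw [Finset.mem_filter] at this
      exact this.2
    let c2 : Fin 3 → Fin m := fun k => ⟨(((c k : ℕ) : ℤ) + m' k).toNat, by
      have h1 := hc' k
      have h2 := hm2 k
      push_cast at h2
      omega⟩
    have hc2 : ck_toZ c2 = ck_toZ c + m' := by
      funext k
      have h1 := hc' k
      have h2 := hm2 k
      push_cast at h2
      simp only [ck_toZ, c2, Pi.add_apply]
      omega
    rw [← hκ c2, ← ck_sum_fib]
    refine Finset.sum_congr rfl fun j _ => ?_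
    have : (ck_toZ (κ j) - ck_toZ c = m') ↔ κ j = c2 := by
      constructor
      · intro h
        apply ck_toZ_inj
        rw [hc2, ← h]; abel
      · intro h
        rw [h, hc2]; abel
    simp only [this]
  have h4 : (∑ c ∈ ck_int m (w + 2), ∑ m' ∈ (ibox w).erase 0,
        (∑ i, if κ i = c then (1 : ℝ) else 0) *
          (∑ j, if ck_toZ (κ j) - ck_toZ c = m' then (1 : ℝ) else 0) * lo m') =
      ((ck_int m (w + 2)).card : ℝ) * ((n : ℝ) ^ 2 * sumLo w ℓ D) := by
    rw [← nsmul_eq_mul, ← Finset.sum_const]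
    refine Finset.sum_congr rfl fun c hc => ?_
    unfold sumLo
    rw [Finset.mul_sum]
    refine Finset.sum_congr rfl fun m' hm' => ?_
    rw [h3 c hc m' hm', ck_sum_fib, hκ c, sq]
  have h5 := ck_card_int m (w + 2)
  push_cast at h5
  have h6 : (0 : ℝ) ≤ (n : ℝ) ^ 2 * sumLo w ℓ D := mul_nonneg (sq_nonneg _) (sumLo_nonneg _ _ _)
  have h7 := mul_le_mul_of_nonneg_right h5 h6
  rw [energy_eq_EnOn]
  unfold EnOn
  rw [h2, h4] at h1
  linarith

theorem sumUp_ge {w : ℕ} (hw : 1 ≤ w) : (w : ℝ) ^ 3 / 128 ≤ sumUp w := by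
  have hw' : (1 : ℝ) ≤ w := by exact_mod_cast hw
  have hw0 : (0 : ℝ) < w := by linarith
  have hsub : ck_box (w / 4) ⊆ ibox w := by
    intro m hm
    rw [ck_ibox_eq]
    rw [ck_mem_box] at hm ⊢
    intro k
    have := hm k
    push_cast at this ⊢
    omega
  have hq : ((w / 4 : ℕ) : ℝ) ≤ w / 4 := by exact_mod_cast Nat.cast_div_le (α := ℝ)
  have hq2 : (w : ℝ) / 4 ≤ 2 * ((w / 4 : ℕ) : ℝ) + 1 := by
    have : w ≤ 4 * (2 * (w / 4) + 1) := by omega
    have : (w : ℝ) ≤ 4 * (2 * ((w / 4 : ℕ) : ℝ) + 1) := by exact_mod_cast this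
    linarith
  have h1 : ∑ m ∈ ck_box (w / 4), (1 / 2 : ℝ) ≤ ∑ m ∈ ck_box (w / 4), psi ((‖latt m‖ - 2) / w) := by
    refine Finset.sum_le_sum fun m hm => ck_psi_half ?_
    have := ck_norm_latt_le_box hm
    rw [div_le_iff₀ hw0]
    linarith
  have h2 : ∑ m ∈ ck_box (w / 4), psi ((‖latt m‖ - 2) / w) ≤ sumUp w :=
    Finset.sum_le_sum_of_subset_of_nonneg hsub fun _ _ _ => psi_nonneg _
  rw [Finset.sum_const, nsmul_eq_mul, ck_card_box] at h1
  push_cast at h1
  have h3 : ((w : ℝ) / 4) ^ 3 ≤ (2 * ((w / 4 : ℕ) : ℝ) + 1) ^ 3 :=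
    pow_le_pow_left₀ (by positivity) hq2 3
  have h4 : ((w : ℝ) / 4) ^ 3 = (w : ℝ) ^ 3 / 64 := by ring
  linarith

theorem sumUp_sub_sumLo {w : ℕ} (hw : 1 ≤ w) {ℓ D : ℝ} (hℓ : 0 < ℓ) (hD : 0 ≤ D) :
    sumUp w - sumLo w ℓ D ≤ 1 + (2 * (w : ℝ) + 5) ^ 3 * (6 * D / ℓ + 4 / w) := by
  classical
  have hw' : (1 : ℝ) ≤ w := by exact_mod_cast hw
  have hw0 : (0 : ℝ) < w := by linarith
  have h0 : (0 : Fin 3 → ℤ) ∈ ibox w := by
    rw [ck_ibox_eq, ck_mem_box]
    intro k
    simp only [Pi.zero_apply]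
    omega
  have h1 : sumUp w = psi ((‖latt 0‖ - 2) / w) +
      ∑ m ∈ (ibox w).erase 0, psi ((‖latt m‖ - 2) / w) := by
    unfold sumUp
    rw [Finset.add_sum_erase _ (fun m => psi ((‖latt m‖ - 2) / w)) h0]
  have hc : (0 : ℝ) ≤ 6 * D / ℓ + 4 / w := by positivity
  have h2 : ∑ m ∈ (ibox w).erase 0, psi ((‖latt m‖ - 2) / w) - sumLo w ℓ D ≤
      ∑ _m ∈ (ibox w).erase 0, (6 * D / ℓ + 4 / w) := by
    unfold sumLo
    rw [← Finset.sum_sub_distrib]
    refine Finset.sum_le_sum fun m hm => ?_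
    have hm2 := Finset.mem_of_mem_erase hm
    rw [ck_ibox_eq] at hm2
    have h3 := ck_norm_latt_le_box hm2
    push_cast at h3
    have h4 : ‖latt m‖ ≤ 6 * w := by linarith
    have e : ((ℓ + D) * ‖latt m‖ + 2 * ℓ) / (w * ℓ) - (‖latt m‖ - 2) / w =
        D / ℓ * (‖latt m‖ / w) + 4 / w := by
      field_simp
      ring
    have h5 : ‖latt m‖ / w ≤ 6 := by rw [div_le_iff₀ hw0]; exact h4
    have h6 : 0 ≤ D / ℓ := by positivity
    have h7 : 0 ≤ ‖latt m‖ / w := by positivity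
    have h8 : (0 : ℝ) ≤ 4 / w := by positivity
    have h9 : (‖latt m‖ - 2) / w ≤ ((ℓ + D) * ‖latt m‖ + 2 * ℓ) / (w * ℓ) := by
      have := mul_nonneg h6 h7
      linarith
    have h10 := ck_psi_lip h9
    have h11 : D / ℓ * (‖latt m‖ / w) ≤ D / ℓ * 6 := mul_le_mul_of_nonneg_left h5 h6
    have h12 : D / ℓ * 6 = 6 * D / ℓ := by ring
    linarith
  rw [Finset.sum_const, nsmul_eq_mul] at h2
  have h3 : (((ibox w).erase 0).card : ℝ) ≤ (2 * (w : ℝ) + 5) ^ 3 := by
    have : ((ibox w).erase 0).card ≤ (2 * (w + 2) + 1) ^ 3 := by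
      rw [← ck_card_box, ← ck_ibox_eq]; exact Finset.card_erase_le
    have : ((((ibox w).erase 0).card : ℕ) : ℝ) ≤ (((2 * (w + 2) + 1) ^ 3 : ℕ) : ℝ) := by
      exact_mod_cast this
    push_cast at this
    refine this.trans (le_of_eq ?_)
    ring
  have h4 := mul_le_mul_of_nonneg_right h3 hc
  have h5 := psi_le_one ((‖latt 0‖ - 2) / w)
  linarith

/-- Lower bound on the pressure after switching on a Kac attraction. -/
theorem kac_press_lower {Φ : ℝ → ℝ} (hΦ : Adm Φ) {b D ℓ : ℝ} {w : ℕ} (hw : 1 ≤ w) (hℓ : 0 < ℓ)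
    (hb : 0 ≤ b) (hD : 0 < D) (hneg : ∀ r, D ≤ r → Φ r ≤ 0)
    (hadm : Adm fun r => Φ r - b * psi (r / (w * ℓ))) (μ : ℝ) (n : ℕ) :
    (μ * n + lZ Φ ℓ n + b * sumLo w ℓ D * (n : ℝ) ^ 2 / 2) / (ℓ + D) ^ 3 ≤
      press D (fun r => Φ r - b * psi (r / (w * ℓ))) μ := by
  classical
  have hlD : 0 < ℓ + D := by linarith
  set A : ℝ := μ * n + lZ Φ ℓ n + b * sumLo w ℓ D * (n : ℝ) ^ 2 / 2 with hA
  set B : ℝ := b * (6 * (w + 2)) * (n : ℝ) ^ 2 * sumLo w ℓ D / 2 with hB
  have step : ∀ m : ℕ, 1 ≤ m → (A - B * (1 / (m : ℝ))) / ((ℓ + D) + D * (1 / (m : ℝ))) ^ 3 ≤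
      press D (fun r => Φ r - b * psi (r / (w * ℓ))) μ := by
    intro m hm
    have hm' : (0 : ℝ) < m := by exact_mod_cast hm
    have hL : (0 : ℝ) < m * (ℓ + D) := mul_pos hm' hlD
    have hcard : Fintype.card (Fin 3 → Fin m) = m ^ 3 := by simp
    have hdec := decomp_lower (C := Fin 3 → Fin m) hΦ hadm (m * (ℓ + D)) hℓ
      (fun c => (ℓ + D) • latt (fun k => ((c k : ℕ) : ℤ))) (fun _ => n) (m ^ 3 * n)
      (by rw [Finset.sum_const, Finset.card_univ, hcard, smul_eq_mul])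
      (b * (((m : ℝ) ^ 3 - 6 * (w + 2) * (m : ℝ) ^ 2) * (n : ℝ) ^ 2 * sumLo w ℓ D / 2))
      (fun c p hp => grid_in hD.le hℓ.le le_rfl c hp)
      (fun c c' p hp hp' => by
        by_contra hcc
        have hne : ck_toZ c ≠ ck_toZ c' := fun h => hcc (ck_toZ_inj h)
        have := grid_sep hD.le hℓ.le hne hp hp'
        rw [dist_self] at this
        linarith)
      (fun κ x hκ hx => by
        rw [energy_sub Φ (fun r => b * psi (r / (w * ℓ))) x,
          energy_const_mul b (fun r => psi (r / (w * ℓ))) x, energy_split Φ x κ]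
        have h1 := kac_lower hw hℓ hD.le x κ hκ hx
        have h2 := mul_le_mul_of_nonneg_left h1 hb
        have h3 : (∑ i, ∑ j, if κ i = κ j then 0 else Φ (dist (x i) (x j))) ≤ 0 := by
          refine Finset.sum_nonpos fun i _ => Finset.sum_nonpos fun j _ => ?_
          split_ifs with hij
          · exact le_rfl
          · have hne : ck_toZ (κ i) ≠ ck_toZ (κ j) := fun h => hij (ck_toZ_inj h)
            exact hneg _ (grid_sep hD.le hℓ.le hne (hx i) (hx j))
        linarith)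
    rw [Finset.sum_const, Finset.card_univ, hcard, nsmul_eq_mul] at hdec
    have hp := le_press hadm hD.le μ hL (m ^ 3 * n)
    refine le_trans ?_ hp
    have e1 : (A - B * (1 / (m : ℝ))) / ((ℓ + D) + D * (1 / (m : ℝ))) ^ 3 =
        ((m : ℝ) ^ 3 * A - B * (m : ℝ) ^ 2) / (m * (ℓ + D) + D) ^ 3 := by
      have : (ℓ + D) + D * (1 / (m : ℝ)) = (m * (ℓ + D) + D) / m := by
        field_simp
      rw [this]
      have hpos : (0 : ℝ) < m * (ℓ + D) + D := by linarith
      field_simp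
    rw [e1]
    apply div_le_div_of_nonneg_right _ (by positivity)
    push_cast at hdec ⊢
    rw [hA, hB]
    nlinarith
  have hlim : Tendsto (fun m : ℕ => (A - B * (1 / (m : ℝ))) / ((ℓ + D) + D * (1 / (m : ℝ))) ^ 3)
      atTop (𝓝 ((A - B * 0) / ((ℓ + D) + D * 0) ^ 3)) := by
    have h0 : Tendsto (fun m : ℕ => (1 / (m : ℝ))) atTop (𝓝 0) :=
      tendsto_one_div_atTop_nhds_zero_nat
    refine Tendsto.div ((h0.const_mul B).const_sub A) (((h0.const_mul D).const_add _).pow 3) ?_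
    have : (ℓ + D) + D * 0 = ℓ + D := by ring
    rw [this]
    positivity
  have hfin := le_of_tendsto hlim (Filter.eventually_atTop.2 ⟨1, step⟩)
  simpa using hfin

end Crest.Agent.R149
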