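import Crest.Agent.R149.BaseUp
import Crest.Agent.R149.BaseLow
import Crest.Agent.R149.Kac

/-! Row 149: the short-range potential and its normalised pressure (rounded triple point). -/

set_option autoImplicit false

namespace Crest.Agent.R149

open MeasureTheory Filter Topology Crest.ProbabilityR.Continuum

lemma bn_psi_one {t : ℝ} (ht : t ≤ 0) : psi t = 1 := by
  unfold psi
  rw [min_eq_left (by linarith), max_eq_right (by norm_num)]

/-- The core potential. -/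
noncomputable def bnPhi (K u a₁ a₂ b₂ D' D r : ℝ) : ℝ :=
  K * (psi ((r - 4) / (a₁ - 4)) + min (psi ((b₂ - r) / (b₂ - a₂))) (psi ((r - D') / (D - D')))) -
    u * psi (r - 8)

lemma bn_cont (K u a₁ a₂ b₂ D' D : ℝ) : Continuous (bnPhi K u a₁ a₂ b₂ D' D) := by
  unfold bnPhi
  have := continuous_psi
  fun_prop

lemma bn_ge {K u a₁ a₂ b₂ D' D : ℝ} (hK : 0 ≤ K) (r : ℝ) :
    -(u * psi (r - 8)) ≤ bnPhi K u a₁ a₂ b₂ D' D r := by
  unfold bnPhi
  have h1 := psi_nonneg ((r - 4) / (a₁ - 4))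
  have h2 : 0 ≤ min (psi ((b₂ - r) / (b₂ - a₂))) (psi ((r - D') / (D - D'))) :=
    le_min (psi_nonneg _) (psi_nonneg _)
  have := mul_nonneg hK (add_nonneg h1 h2)
  linarith

lemma bn_abs {K u a₁ a₂ b₂ D' D : ℝ} (hK : 0 ≤ K) (hu : 0 ≤ u) (r : ℝ) :
    |bnPhi K u a₁ a₂ b₂ D' D r| ≤ 2 * K + u := by
  have h0 := bn_ge (u := u) (a₁ := a₁) (a₂ := a₂) (b₂ := b₂) (D' := D') (D := D) hK r
  have h3 := psi_le_one (r - 8)
  have h4 := psi_nonneg (r - 8)
  rw [abs_le]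
  constructor
  · nlinarith
  · unfold bnPhi
    have h1 := psi_le_one ((r - 4) / (a₁ - 4))
    have h2 : min (psi ((b₂ - r) / (b₂ - a₂))) (psi ((r - D') / (D - D'))) ≤ 1 :=
      (min_le_left _ _).trans (psi_le_one _)
    have h5 : K * (psi ((r - 4) / (a₁ - 4)) +
        min (psi ((b₂ - r) / (b₂ - a₂))) (psi ((r - D') / (D - D')))) ≤ K * 2 :=
      mul_le_mul_of_nonneg_left (by linarith) hK
    nlinarith

lemma bn_far {K u a₁ a₂ b₂ D' D : ℝ} (ha : 4 < a₁) (haD : a₁ ≤ D) (hD : D' < D) (h9 : 9 ≤ D)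
    {r : ℝ} (hr : D ≤ r) : bnPhi K u a₁ a₂ b₂ D' D r = 0 := by
  unfold bnPhi
  have h1 : psi ((r - 4) / (a₁ - 4)) = 0 :=
    psi_eq_zero (by rw [le_div_iff₀ (by linarith)]; linarith)
  have h2 : psi ((r - D') / (D - D')) = 0 :=
    psi_eq_zero (by rw [le_div_iff₀ (by linarith)]; linarith)
  have h3 : psi (r - 8) = 0 := psi_eq_zero (by linarith)
  rw [h1, h2, h3, min_eq_right (psi_nonneg _)]
  ring

lemma bn_well {K u a₁ a₂ b₂ D' D : ℝ} (ha : 4 < a₁) (hab : a₂ < b₂) (hb : b₂ ≤ 8)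
    {r : ℝ} (h1 : a₁ ≤ r) (h2 : r ≤ a₂) : bnPhi K u a₁ a₂ b₂ D' D r = -u := by
  unfold bnPhi
  have e1 : psi ((r - 4) / (a₁ - 4)) = 0 :=
    psi_eq_zero (by rw [le_div_iff₀ (by linarith)]; linarith)
  have e2 : psi ((b₂ - r) / (b₂ - a₂)) = 0 :=
    psi_eq_zero (by rw [le_div_iff₀ (by linarith)]; linarith)
  have e3 : psi (r - 8) = 1 := bn_psi_one (by linarith)
  rw [e1, e2, e3, min_eq_left (psi_nonneg _)]
  ring

lemma bn_bad {K u a₁ a₂ b₂ D' D : ℝ} (hK : 0 ≤ K) (hu : 0 ≤ u) (ha : 4 < a₁) (hab : a₂ < b₂)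
    (hD : D' < D) {r : ℝ} (hr : r < 4 ∨ (b₂ < r ∧ r < D')) :
    K - u ≤ bnPhi K u a₁ a₂ b₂ D' D r := by
  unfold bnPhi
  have h3 := psi_le_one (r - 8)
  have h1 := psi_nonneg ((r - 4) / (a₁ - 4))
  have h2 : 0 ≤ min (psi ((b₂ - r) / (b₂ - a₂))) (psi ((r - D') / (D - D'))) :=
    le_min (psi_nonneg _) (psi_nonneg _)
  have h4 : 1 ≤ psi ((r - 4) / (a₁ - 4)) +
      min (psi ((b₂ - r) / (b₂ - a₂))) (psi ((r - D') / (D - D'))) := by
    rcases hr with hr | ⟨hr1, hr2⟩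
    · have : psi ((r - 4) / (a₁ - 4)) = 1 :=
        bn_psi_one (div_nonpos_of_nonpos_of_nonneg (by linarith) (by linarith))
      linarith
    · have e1 : psi ((b₂ - r) / (b₂ - a₂)) = 1 :=
        bn_psi_one (div_nonpos_of_nonpos_of_nonneg (by linarith) (by linarith))
      have e2 : psi ((r - D') / (D - D')) = 1 :=
        bn_psi_one (div_nonpos_of_nonpos_of_nonneg (by linarith) (by linarith))
      rw [e1, e2, min_self]
      linarith
  have h5 := mul_le_mul_of_nonneg_left h4 hK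
  have h6 := mul_le_mul_of_nonneg_left h3 hu
  linarith

lemma bn_ge_neg {K u a₁ a₂ b₂ D' D : ℝ} (hK : 0 ≤ K) (hu : 0 ≤ u) (r : ℝ) :
    -u ≤ bnPhi K u a₁ a₂ b₂ D' D r := by
  have h0 := bn_ge (u := u) (a₁ := a₁) (a₂ := a₂) (b₂ := b₂) (D' := D') (D := D) hK r
  have h6 := mul_le_mul_of_nonneg_left (psi_le_one (r - 8)) hu
  linarith

lemma bn_ge_zero {K u a₁ a₂ b₂ D' D : ℝ} (hK : 0 ≤ K) {r : ℝ} (hr : 9 ≤ r) :
    0 ≤ bnPhi K u a₁ a₂ b₂ D' D r := by
  have h0 := bn_ge (u := u) (a₁ := a₁) (a₂ := a₂) (b₂ := b₂) (D' := D') (D := D) hK r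
  rw [psi_eq_zero (by linarith : (1 : ℝ) ≤ r - 8)] at h0
  simpa using h0

/-- The chord inequality. -/
lemma bn_chord {n j β m : ℝ} (hn : 0 < n) (hj1 : 1 ≤ j) (hjn : j ≤ n) (hβ : 0 ≤ β) :
    (m - 1) * j + 1 + β * (j * (j - 1) / n) ≤ Vmax n (β - 1, m) := by
  have h1 : β * (j * (j - 1) / n) ≤ β * (j - 1) := by
    refine mul_le_mul_of_nonneg_left ?_ hβ
    rw [div_le_iff₀ hn]
    nlinarith
  unfold Vmax
  simp only
  rcases le_total 0 (m + β - 1) with hs | hs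
  · refine le_trans ?_ ((le_max_right _ _).trans (le_max_right _ _))
    nlinarith [mul_le_mul_of_nonneg_right hjn hs]
  · refine le_trans ?_ ((le_max_left _ _).trans (le_max_right _ _))
    nlinarith [mul_nonneg (sub_nonneg.mpr hj1) (neg_nonneg.mpr hs)]

lemma bn_V_nonneg (n : ℝ) (z : ℝ × ℝ) : 0 ≤ Vmax n z := le_max_left _ _

lemma bn_V_shift {n b m h : ℝ} (hn : 1 ≤ n) (hh : 0 ≤ h) :
    Vmax n (b, m + h) ≤ Vmax n (b, m) + n * h := by
  unfold Vmax
  simp only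
  have h1 : h ≤ n * h := by nlinarith
  have a := le_max_left 0 (max m ((n - 1) * b + n * m))
  have b1 := (le_max_left m ((n - 1) * b + n * m)).trans
    (le_max_right 0 (max m ((n - 1) * b + n * m)))
  have c := (le_max_right m ((n - 1) * b + n * m)).trans
    (le_max_right 0 (max m ((n - 1) * b + n * m)))
  refine max_le (by linarith) (max_le (by linarith) (by linarith))

lemma bn_V_le {n b m : ℝ} (hn : 1 ≤ n) (hb : b ≤ 1 / 2) (hm : m ≤ 1 / 2) :
    Vmax n (b, m) ≤ n := by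
  unfold Vmax
  simp only
  refine max_le (by linarith) (max_le (by linarith) ?_)
  nlinarith

/-- Upper bound, arithmetic part. -/
lemma bn_upper_arith {D D' lam p P V V' n h e δ : ℝ} (hD : 0 < D) (hlam : 0 < lam) (hp : 1 ≤ p)
    (he0 : 0 < e) (he : e ≤ 1 / 10) (hD' : D' = D * (1 - e)) (hexp : D ^ 3 = Real.exp lam)
    (hV0 : 0 ≤ V) (hVn : V ≤ n) (hV'0 : 0 ≤ V') (hV' : V' ≤ V + n * h) (hh : 0 ≤ h)
    (hen : 10 * n * e ≤ δ) (hl : 2 * (18 * n + 4) ≤ lam * δ)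
    (hP : P ≤ Real.exp (-lam) + Real.exp (-lam) + p / D' ^ 3 * (lam * V' + 9 * n + 1)) :
    D ^ 3 / (lam * p) * P ≤ V + δ + 2 * n * h := by
  have hn0 : 0 ≤ n := hV0.trans hVn
  have h1e : 0 < 1 - e := by linarith
  have hp0 : 0 < p := by linarith
  have hq : 1 / (1 - e) ^ 3 ≤ 1 + 5 * e := by
    rw [div_le_iff₀ (by positivity)]
    nlinarith [mul_pos he0 he0, mul_pos (mul_pos he0 he0) he0]
  have hq0 : 0 ≤ 1 / (1 - e) ^ 3 := by positivity
  have e1 : D ^ 3 / (lam * p) *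
      (Real.exp (-lam) + Real.exp (-lam) + p / D' ^ 3 * (lam * V' + 9 * n + 1)) =
      2 / (lam * p) + 1 / (1 - e) ^ 3 * (V' + (9 * n + 1) / lam) := by
    have : Real.exp (-lam) = (D ^ 3)⁻¹ := by rw [Real.exp_neg, hexp]
    rw [this, hD']
    field_simp
    ring
  have e2 : D ^ 3 / (lam * p) * P ≤ 2 / (lam * p) + 1 / (1 - e) ^ 3 * (V' + (9 * n + 1) / lam) := by
    rw [← e1]
    exact mul_le_mul_of_nonneg_left hP (by positivity)
  have e3 : 2 / (lam * p) ≤ 2 / lam := by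
    apply div_le_div_of_nonneg_left (by norm_num) hlam
    nlinarith
  have hc0 : 0 ≤ (9 * n + 1) / lam := by positivity
  have e4 : 1 / (1 - e) ^ 3 * (V' + (9 * n + 1) / lam) ≤
      (1 + 5 * e) * (V + n * h + (9 * n + 1) / lam) :=
    mul_le_mul hq (by linarith) (by positivity) (by positivity)
  have e5 : 2 / lam + 2 * ((9 * n + 1) / lam) ≤ δ / 2 := by
    have : 2 / lam + 2 * ((9 * n + 1) / lam) = (18 * n + 4) / lam := by ring
    rw [this, div_le_iff₀ hlam]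
    linarith
  have hnh : 0 ≤ n * h := mul_nonneg hn0 hh
  have e6 : e * V ≤ e * n := mul_le_mul_of_nonneg_left hVn he0.le
  have e7 : e * (n * h) ≤ 1 / 10 * (n * h) := mul_le_mul_of_nonneg_right he hnh
  have e8 : e * ((9 * n + 1) / lam) ≤ 1 / 10 * ((9 * n + 1) / lam) :=
    mul_le_mul_of_nonneg_right he hc0
  nlinarith

/-- Lower bound, arithmetic part. -/
lemma bn_lower_arith {D D'' lam p P v n C e δ X : ℝ} (hD : 0 < D) (hlam : 0 < lam) (hp : 1 ≤ p)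
    (he0 : 0 < e) (hD'' : D'' = D * (1 + e)) (hn0 : 0 ≤ n) (hvn : v ≤ n) (hC : 0 ≤ C)
    (hen : 10 * n * e ≤ δ) (hl : 2 * C ≤ lam * δ) (hX : lam * v - C ≤ X)
    (hP : p / D'' ^ 3 * X ≤ P) :
    v - δ ≤ D ^ 3 / (lam * p) * P := by
  have hp0 : 0 < p := by linarith
  have hq1 : 1 / (1 + e) ^ 3 ≤ 1 := by
    rw [div_le_one (by positivity)]
    exact one_le_pow₀ (by linarith)
  have hq2 : 1 - 3 * e ≤ 1 / (1 + e) ^ 3 := by
    rw [le_div_iff₀ (by positivity)]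
    nlinarith [mul_pos he0 he0, mul_pos (mul_pos he0 he0) he0,
      mul_pos (mul_pos (mul_pos he0 he0) he0) he0]
  have hq0 : 0 ≤ 1 / (1 + e) ^ 3 := by positivity
  have e1 : D ^ 3 / (lam * p) * (p / D'' ^ 3 * (lam * v - C)) =
      1 / (1 + e) ^ 3 * (v - C / lam) := by
    rw [hD'']
    field_simp
  have hD''0 : 0 < D'' := by rw [hD'']; positivity
  have e2 : D ^ 3 / (lam * p) * (p / D'' ^ 3 * (lam * v - C)) ≤ D ^ 3 / (lam * p) * P :=
    mul_le_mul_of_nonneg_left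
      ((mul_le_mul_of_nonneg_left hX (by positivity)).trans hP) (by positivity)
  have e3 : C / lam ≤ δ / 2 := by
    rw [div_le_iff₀ hlam]; linarith
  have hc0 : 0 ≤ C / lam := by positivity
  have e4 : 1 / (1 + e) ^ 3 * (C / lam) ≤ C / lam := by nlinarith
  have e5 : v - 3 * e * n ≤ 1 / (1 + e) ^ 3 * v := by
    rcases le_total 0 v with hv | hv
    · have a := mul_le_mul_of_nonneg_right hq2 hv
      have b := mul_le_mul_of_nonneg_left hvn he0.le
      nlinarith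
    · have a := mul_le_mul_of_nonneg_right hq1 (neg_nonneg.mpr hv)
      have b := mul_nonneg he0.le hn0
      nlinarith
  rw [e1] at e2
  have b := mul_nonneg he0.le hn0
  nlinarith

set_option maxHeartbeats 1600000 in
theorem base_norm {σ : ℝ → ℝ} (hσm : Measurable σ) (hσ0 : ∀ r, 0 ≤ σ r)
    (hσ1 : ∀ r, 1 ≤ r → σ r = 0) {p : ℝ} (hp1 : 1 ≤ p)
    (hp : Tendsto (fun L : ℝ => (packingNumber L : ℝ) / L ^ 3) atTop (𝓝 p)) :
    ∃ n : ℕ, 2 ≤ n ∧ ∀ δ : ℝ, 0 < δ → ∃ D lam : ℝ, 1 ≤ D ∧ 1 ≤ lam ∧ ∀ κ₀ : ℝ, 0 ≤ κ₀ →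
      ∃ φb : ℝ → ℝ, Continuous φb ∧ (∃ M : ℝ, ∀ r, |φb r| ≤ M) ∧ (∀ r, D ≤ r → φb r = 0) ∧
        (∃ r₁ r₂ a : ℝ, 1 ≤ r₁ ∧ r₁ < r₂ ∧ 0 < a ∧ ∀ r, r₁ ≤ r → r ≤ r₂ → φb r ≤ -a) ∧
        SStable (fun r => φb r + σ r) κ₀ lam ∧
        (∀ r, 0 ≤ r → -(lam * indLe 9 r) ≤ φb r + σ r) ∧
        (∀ z : ℝ × ℝ, dist z (1, 0) ≤ 1 / 2 →
          |D ^ 3 / (lam * p) * press D (fun r => z.1 * (φb r + σ r)) (lam * (z.2 - 1)) -
            Vmax n (z - (1, 0))| ≤ δ) ∧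
        (∀ z : ℝ × ℝ, dist z (1, 0) ≤ 1 / 2 → ∀ h : ℝ, 0 ≤ h → h ≤ 48 * D ^ 3 →
          D ^ 3 / (lam * p) * press D (fun r => z.1 * (φb r + σ r)) (lam * (z.2 + h - 1)) ≤
            Vmax n (z - (1, 0)) + δ + 2 * n * h) := by
  obtain ⟨n, b₂, a₁, a₂, η, w, hn2, ha₁, ha₁₂, hab, hb8, hη0, hη1, hcl, hw, hww⟩ := exists_clique
  refine ⟨n, hn2, fun δ hδ => ?_⟩
  have hn2' : (2 : ℝ) ≤ n := by exact_mod_cast hn2
  have hn0 : (0 : ℝ) < n := by linarith
  -- the small parameter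
  obtain ⟨e, he0, he1, hen⟩ : ∃ e : ℝ, 0 < e ∧ e ≤ 1 / 10 ∧ 10 * n * e ≤ δ := by
    refine ⟨min (1 / 10) (δ / (10 * n)), lt_min (by norm_num) (by positivity), min_le_left _ _, ?_⟩
    have : min (1 / 10) (δ / (10 * n)) ≤ δ / (10 * n) := min_le_right _ _
    rw [le_div_iff₀ (by positivity)] at this
    linarith
  have hlogη : Real.log η ≤ 0 := Real.log_nonpos hη0.le (by linarith)
  have hloge : Real.log (e / 4) ≤ 0 := Real.log_nonpos (by positivity) (by linarith)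
  have hfac : 0 ≤ Real.log (Nat.factorial n) :=
    Real.log_nonneg (by exact_mod_cast Nat.factorial_pos n)
  obtain ⟨C, hC⟩ : ∃ C : ℝ, C = -3 * Real.log (e / 4) - 3 * n * Real.log η +
    Real.log (Nat.factorial n) := ⟨_, rfl⟩
  have hC0 : 0 ≤ C := by
    have := mul_nonneg hn0.le (neg_nonneg.mpr hlogη)
    rw [hC]; nlinarith
  obtain ⟨lam, hl1, hl2, hl3⟩ : ∃ lam : ℝ, 1 ≤ lam ∧ 216 / e ≤ lam ∧
      2 * (18 * n + 4 + C) ≤ lam * δ := by
    refine ⟨max 1 (max (216 / e) (2 * (18 * n + 4 + C) / δ)), le_max_left _ _,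
      (le_max_left _ _).trans (le_max_right _ _), ?_⟩
    have : 2 * (18 * n + 4 + C) / δ ≤ max 1 (max (216 / e) (2 * (18 * n + 4 + C) / δ)) :=
      (le_max_right _ _).trans (le_max_right _ _)
    rwa [div_le_iff₀ hδ] at this
  have hl0 : 0 < lam := by linarith
  obtain ⟨D, hDdef⟩ : ∃ D : ℝ, D = Real.exp (lam / 3) := ⟨_, rfl⟩
  have hD3 : D ^ 3 = Real.exp lam := by
    rw [hDdef, ← Real.exp_nat_mul]; congr 1; push_cast; ring
  have hDl : lam / 3 ≤ D := by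
    rw [hDdef]; linarith [Real.add_one_le_exp (lam / 3)]
  have hDe : 72 ≤ e * D := by
    rw [div_le_iff₀ he0] at hl2
    nlinarith
  have hD0 : 0 < D := by rw [hDdef]; exact Real.exp_pos _
  have hD720 : 720 ≤ D := by nlinarith
  obtain ⟨D', hD'⟩ : ∃ D' : ℝ, D' = D * (1 - e) := ⟨_, rfl⟩
  have hD'17 : 17 ≤ D' := by rw [hD']; nlinarith
  have hD'D : D' < D := by rw [hD']; nlinarith
  refine ⟨D, lam, by linarith, hl1, fun κ₀ hκ₀ => ?_⟩
  obtain ⟨u, hu⟩ : ∃ u : ℝ, u = 2 * lam / n := ⟨_, rfl⟩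
  have hu0 : 0 < u := by rw [hu]; positivity
  have hun : u * n = 2 * lam := by rw [hu]; field_simp
  have hul : u ≤ lam := by nlinarith
  obtain ⟨K, hK⟩ : ∃ K : ℝ, K = κ₀ + u + 2 * 21 ^ 3 * u + 2 * (48 * lam * D ^ 3 + lam) :=
    ⟨_, rfl⟩
  have hT0 : 0 ≤ 48 * lam * D ^ 3 + lam := by positivity
  have hK0 : 0 ≤ K := by rw [hK]; positivity
  set φ := bnPhi K u a₁ a₂ b₂ D' D with hφ
  have hφc : Continuous φ := bn_cont _ _ _ _ _ _ _
  have hφfar : ∀ r, D ≤ r → φ r = 0 := fun r hr =>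
    bn_far ha₁ (by linarith) hD'D (by linarith) hr
  have hφwell : ∀ r, a₁ ≤ r → r ≤ a₂ → φ r = -u := fun r h1 h2 => bn_well ha₁ hab hb8 h1 h2
  have hφbad : ∀ r, (r < 4 ∨ (b₂ < r ∧ r < D')) → K - u ≤ φ r := fun r hr =>
    bn_bad hK0 hu0.le ha₁ hab hD'D hr
  have hφlow : ∀ r, -u ≤ φ r := fun r => bn_ge_neg hK0 hu0.le r
  have hφ9 : ∀ r, 9 ≤ r → 0 ≤ φ r := fun r hr => bn_ge_zero hK0 hr
  have hφabs : ∀ r, |φ r| ≤ 2 * K + u := fun r => bn_abs hK0 hu0.le r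
  clear_value φ
  clear hφ
  -- hypotheses for the scaled potential
  have hBH : ∀ β : ℝ, 0 ≤ β →
      BaseHyp (fun r => β * (φ r + σ r)) (β * u) (β * (K - u)) b₂ D' n := by
    intro β hβ
    refine ⟨(hφc.measurable.add hσm).const_mul β, by positivity, hb8, hD'17, fun r _ => ?_,
      fun r hr => ?_, fun r _ hr => ?_, ?_, hcl⟩
    · have := mul_le_mul_of_nonneg_left (show -u ≤ φ r + σ r by linarith [hφlow r, hσ0 r]) hβ
      linarith
    · exact mul_nonneg hβ (add_nonneg (hφ9 r hr) (hσ0 r))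
    · exact mul_le_mul_of_nonneg_left (by linarith [hφbad r hr, hσ0 r]) hβ
    · have : 2 * 21 ^ 3 * u ≤ K - u := by rw [hK]; linarith
      have := mul_le_mul_of_nonneg_left this hβ
      linarith
  have hAdm : ∀ β : ℝ, 0 ≤ β → Adm (fun r => β * (φ r + σ r)) := fun β hβ =>
    ⟨(hBH β hβ).meas, _, base_stable (hBH β hβ)⟩
  have hneg : ∀ β : ℝ, ∀ r, D ≤ r → β * (φ r + σ r) ≤ 0 := by
    intro β r hr
    rw [hφfar r hr, hσ1 r (by linarith)]
    simp
  have hz : ∀ z : ℝ × ℝ, dist z (1, 0) ≤ 1 / 2 →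
      (1 / 2 ≤ z.1 ∧ z.1 ≤ 3 / 2) ∧ (-(1 / 2) ≤ z.2 ∧ z.2 ≤ 1 / 2) := by
    intro z hz
    rw [Prod.dist_eq, max_le_iff, Real.dist_eq, Real.dist_eq, abs_le, abs_le] at hz
    simp only at hz
    obtain ⟨⟨h1, h2⟩, h3, h4⟩ := hz
    exact ⟨⟨by linarith, by linarith⟩, by linarith, by linarith⟩
  have hzsub : ∀ z : ℝ × ℝ, z - (1, 0) = (z.1 - 1, z.2) := by
    intro z; ext <;> simp
  -- upper bound
  have hup : ∀ z : ℝ × ℝ, dist z (1, 0) ≤ 1 / 2 → ∀ h : ℝ, 0 ≤ h → h ≤ 48 * D ^ 3 →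
      D ^ 3 / (lam * p) * press D (fun r => z.1 * (φ r + σ r)) (lam * (z.2 + h - 1)) ≤
        Vmax n (z - (1, 0)) + δ + 2 * n * h := by
    intro z hzz h hh0 hh1
    obtain ⟨⟨hb1, hb2⟩, hm1, hm2⟩ := hz z hzz
    have hβ : 0 ≤ z.1 := by linarith
    have hU := base_upper (hBH z.1 hβ) hp hD0 (hneg z.1) (lam * (z.2 + h - 1)) lam
      (lam * Vmax n (z.1 - 1, z.2 + h)) (mul_nonneg hl0.le (bn_V_nonneg _ _)) (by
        intro j hj1 hjn
        have hj1' : (1 : ℝ) ≤ j := by exact_mod_cast hj1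
        have hjn' : (j : ℝ) ≤ n := by exact_mod_cast hjn
        have hch := bn_chord (m := z.2 + h) hn0 hj1' hjn' hβ
        have := mul_le_mul_of_nonneg_left hch hl0.le
        have e1 : z.1 * u * ((j : ℝ) * ((j : ℝ) - 1) / 2) =
            lam * (z.1 * ((j : ℝ) * ((j : ℝ) - 1) / n)) := by
          rw [hu]; field_simp
        rw [e1]
        linarith)
    have hE : lam * (z.2 + h - 1) - (z.1 * (K - u) - 2 * 21 ^ 3 * (z.1 * u)) ≤ -lam := by
      have e1 : z.1 * (K - u) - 2 * 21 ^ 3 * (z.1 * u) =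
          z.1 * (κ₀ + 2 * (48 * lam * D ^ 3 + lam)) := by rw [hK]; ring
      have e2 : 1 / 2 * (κ₀ + 2 * (48 * lam * D ^ 3 + lam)) ≤
          z.1 * (κ₀ + 2 * (48 * lam * D ^ 3 + lam)) :=
        mul_le_mul_of_nonneg_right hb1 (by positivity)
      have e3 : lam * (z.2 + h - 1) ≤ lam * (48 * D ^ 3) :=
        mul_le_mul_of_nonneg_left (by linarith) hl0.le
      rw [e1]
      linarith
    rw [hzsub]
    refine bn_upper_arith (V' := Vmax n (z.1 - 1, z.2 + h)) hD0 hl0 hp1 he0 he1 hD' hD3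
      (bn_V_nonneg _ _) (bn_V_le (by linarith) (by linarith) hm2) (bn_V_nonneg _ _)
      (bn_V_shift (by linarith) hh0) hh0 hen (by linarith) ?_
    exact hU.trans (add_le_add (add_le_add (Real.exp_le_exp.mpr hE) le_rfl) le_rfl)
  refine ⟨φ, hφc, ⟨2 * K + u, hφabs⟩, hφfar,
    ⟨a₁, a₂, u, by linarith, ha₁₂, hu0, fun r h1 h2 => (hφwell r h1 h2).le⟩, ?_, ?_, ?_, hup⟩
  · -- superstability
    have hB : BaseHyp (fun r => (φ r + σ r) - κ₀ * chi r) u (K - u - κ₀) b₂ D' n := by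
      have hchi1 : ∀ r, κ₀ * chi r ≤ κ₀ := by
        intro r
        have : chi r ≤ 1 := by unfold chi; split_ifs <;> norm_num
        nlinarith
      have hbig : 2 * 21 ^ 3 * u ≤ K - u - κ₀ := by rw [hK]; linarith
      refine ⟨(hφc.measurable.add hσm).sub (measurable_chi.const_mul κ₀), hu0.le, hb8, hD'17,
        fun r _ => ?_, fun r hr => ?_, fun r _ hr => ?_, hbig, hcl⟩
      · by_cases h2 : r < 2
        · have := hφbad r (Or.inl (by linarith))
          have := hchi1 r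
          have := hσ0 r
          nlinarith
        · have : chi r = 0 := by unfold chi; rw [if_neg h2]
          rw [this]
          linarith [hφlow r, hσ0 r]
      · have : chi r = 0 := by unfold chi; rw [if_neg (by linarith)]
        rw [this]
        linarith [hφ9 r hr, hσ0 r]
      · linarith [hφbad r hr, hchi1 r, hσ0 r]
    intro N x
    have h1 := base_stable hB N x
    rw [energy_sub, energy_const_mul, hun] at h1
    have : 2 * lam / 2 = lam := by ring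
    rw [this] at h1
    linarith
  · intro r _
    unfold indLe
    split_ifs with h9
    · linarith [hφlow r, hσ0 r]
    · have := hφ9 r (by linarith)
      have := hσ0 r
      linarith
  · intro z hzz
    obtain ⟨⟨hb1, hb2⟩, hm1, hm2⟩ := hz z hzz
    have hβ : 0 ≤ z.1 := by linarith
    rw [abs_le]
    constructor
    swap
    · have := hup z hzz 0 le_rfl (by positivity)
      simp only [add_zero, mul_zero] at this
      linarith
    -- lower bound
    have hℓ₀ : 0 < e * D / 2 := by positivity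
    obtain ⟨M, hM1, hMℓ, hMe⟩ : ∃ M : ℕ, 1 ≤ M ∧ (M : ℝ) + 17 ≤ e * D / 2 ∧ e * D / 4 ≤ M := by
      have h0 : 0 ≤ e * D / 2 - 17 := by linarith
      have h1 := Nat.floor_le h0
      have h2 := Nat.lt_floor_add_one (e * D / 2 - 17)
      refine ⟨⌊e * D / 2 - 17⌋₊, Nat.le_floor (by push_cast; linarith), by linarith, by linarith⟩
    have hlogM : lam + 3 * Real.log (e / 4) ≤ 3 * Real.log M := by
      have h1 : Real.log (e / 4 * D) ≤ Real.log M :=
        Real.log_le_log (by positivity) (by linarith)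
      rw [Real.log_mul (by positivity) hD0.ne', hDdef, Real.log_exp] at h1
      linarith
    have hΦu : ∀ r, a₁ ≤ r → r ≤ a₂ → z.1 * (φ r + σ r) ≤ -(z.1 * u) := by
      intro r h1 h2
      rw [hφwell r h1 h2, hσ1 r (by linarith)]
      linarith
    have key : ∀ j : ℕ, 1 ≤ j → j ≤ n → ∀ w' : Fin j → Pt, (∀ i, w' i ∈ cube 16) →
        (∀ i i', i ≠ i' → a₁ + 2 * η ≤ dist (w' i) (w' i') ∧ dist (w' i) (w' i') ≤ a₂ - 2 * η) →
        ∀ v : ℝ, v ≤ n → v = (z.2 - 1) * j + 1 + z.1 * ((j : ℝ) * ((j : ℝ) - 1) / n) →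
        v - δ ≤ D ^ 3 / (lam * p) * press D (fun r => z.1 * (φ r + σ r)) (lam * (z.2 - 1)) := by
      intro j hj1 hjn w' hw' hww' v hvn hv
      have hjn' : (j : ℝ) ≤ n := by exact_mod_cast hjn
      have hL := base_lower (hAdm z.1 hβ) hp (D'' := D * (1 + e)) hD0 (hneg z.1) hℓ₀
        (by linarith) (lam * (z.2 - 1)) j
      have hc := cluster_lower (hAdm z.1 hβ) hj1 hM1 hη0 hη1 hMℓ w' hw' hww' hΦu
      refine bn_lower_arith (C := C) hD0 hl0 hp1 he0 rfl hn0.le hvn hC0 hen (by nlinarith) ?_ hL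
      have e1 : z.1 * u * ((j : ℝ) * ((j : ℝ) - 1) / 2) =
          lam * (z.1 * ((j : ℝ) * ((j : ℝ) - 1) / n)) := by
        rw [hu]; field_simp
      have e2 : Real.log (Nat.factorial j) ≤ Real.log (Nat.factorial n) :=
        Real.log_le_log (by exact_mod_cast Nat.factorial_pos j)
          (by exact_mod_cast Nat.factorial_le hjn)
      have e3 : (n : ℝ) * Real.log η ≤ j * Real.log η := mul_le_mul_of_nonpos_right hjn' hlogη
      rw [e1] at hc
      rw [hv, hC]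
      linarith
    have hP0 : 0 ≤ D ^ 3 / (lam * p) * press D (fun r => z.1 * (φ r + σ r)) (lam * (z.2 - 1)) :=
      mul_nonneg (by positivity) (press_nonneg (hAdm z.1 hβ) hD0.le _)
    have k1 := key 1 le_rfl (by omega) (fun _ => 0) (fun _ k => ⟨le_rfl, show (0 : ℝ) ≤ 16 by norm_num⟩)
      (fun i i' h => absurd (Subsingleton.elim i i') h) z.2 (by linarith) (by simp)
    have k2 := key n (by omega) le_rfl w hw hww ((n - 1) * (z.1 - 1) + n * z.2) (by nlinarith)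
      (by field_simp; ring)
    rw [hzsub]
    have : Vmax n (z.1 - 1, z.2) ≤
        D ^ 3 / (lam * p) * press D (fun r => z.1 * (φ r + σ r)) (lam * (z.2 - 1)) + δ := by
      unfold Vmax
      simp only
      exact max_le (by linarith) (max_le (by linarith) (by linarith))
    linarith

end Crest.Agent.R149
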