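import Crest.Agent.R149.Count
import Crest.Agent.R149.Fill
import Crest.Agent.R149.Pack

/-! Row 149: stability and the upper bound for the short-range potential. -/

set_option autoImplicit false

namespace Crest.Agent.R149

open MeasureTheory Filter Topology Crest.ProbabilityR.Continuum

lemma bu_cell_dist {p q : Pt} (h : cellOf p = cellOf q) : dist p q ≤ 7 / 4 := by
  have : dist p q ≤ 7 / 4 * 1 := by
    apply dist_le_of_coord
    intro k
    have hk : ⌊p k⌋ = ⌊q k⌋ := congrFun h k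
    have h1 := Int.floor_le (p k)
    have h2 := Int.lt_floor_add_one (p k)
    have h3 := Int.floor_le (q k)
    have h4 := Int.lt_floor_add_one (q k)
    rw [hk] at h1 h2
    rw [abs_le]
    constructor <;> linarith
  linarith

/-- Lower bound for the interaction of one particle with the others. -/
lemma bu_one_lower {Φ : ℝ → ℝ} {u Kb b₂ D' : ℝ} {n : ℕ} (h : BaseHyp Φ u Kb b₂ D' n)
    {N : ℕ} (x : Fin N → Pt) (S : Finset (Fin N)) (i : Fin N) (T : Finset (Fin N))
    (hT : T ⊆ S.erase i) (hTK : ∀ j ∈ T, Kb ≤ Φ (dist (x i) (x j))) (M : ℕ)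
    (hM : ∀ c : Fin 3 → ℤ, (S.filter fun j => cellOf (x j) = c).card ≤ M) :
    Kb * T.card - u * (21 ^ 3 * M) ≤ ∑ j ∈ S.erase i, Φ (dist (x i) (x j)) := by
  classical
  have hu := h.u_nonneg
  have hnear := card_near_le (ρ := 9) (by norm_num) x S M hM (x i)
  have h1 : ∑ j ∈ S.erase i, ((if j ∈ T then Kb else 0) -
      (if dist (x i) (x j) ≤ 9 then u else 0)) ≤ ∑ j ∈ S.erase i, Φ (dist (x i) (x j)) := by
    apply Finset.sum_le_sum
    intro j _
    by_cases hj : j ∈ T
    · have := hTK j hj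
      simp only [hj, if_true]
      split_ifs <;> linarith
    · simp only [hj, if_false]
      split_ifs with hd
      · have := h.lower _ (dist_nonneg (x := x i) (y := x j))
        linarith
      · have := h.far _ (le_of_lt (not_le.1 hd))
        linarith
  refine le_trans ?_ h1
  rw [Finset.sum_sub_distrib, ← Finset.sum_filter, ← Finset.sum_filter, Finset.sum_const,
    Finset.sum_const, nsmul_eq_mul, nsmul_eq_mul]
  have e1 : (S.erase i).filter (fun j => j ∈ T) = T := by
    ext j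
    simp only [Finset.mem_filter]
    exact ⟨fun hj => hj.2, fun hj => ⟨hT hj, hj⟩⟩
  have e2 : (((S.erase i).filter fun j => dist (x i) (x j) ≤ 9).card : ℝ) ≤
      (S.filter fun j => dist (x i) (x j) ≤ 9).card := by
    exact_mod_cast Finset.card_le_card
      (Finset.filter_subset_filter _ (Finset.erase_subset i S))
  rw [e1]
  have e3 : (((S.erase i).filter fun j => dist (x i) (x j) ≤ 9).card : ℝ) ≤ 21 ^ 3 * M := by
    refine e2.trans (hnear.trans (le_of_eq ?_))
    norm_num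
  nlinarith [mul_le_mul_of_nonneg_left e3 hu]

/-- If there is a bad pair, some particle has a large interaction with the others. -/
lemma bu_exists_bad {Φ : ℝ → ℝ} {u Kb b₂ D' : ℝ} {n : ℕ} (h : BaseHyp Φ u Kb b₂ D' n)
    {N : ℕ} (x : Fin N → Pt) (S : Finset (Fin N)) {a b : Fin N} (ha : a ∈ S) (hb : b ∈ S)
    (hab : a ≠ b)
    (hbad : dist (x a) (x b) < 4 ∨ (b₂ < dist (x a) (x b) ∧ dist (x a) (x b) < D')) :
    ∃ i ∈ S, Kb - 2 * 21 ^ 3 * u ≤ ∑ j ∈ S.erase i, Φ (dist (x i) (x j)) := by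
  classical
  have hu := h.u_nonneg
  have hbig := h.big
  obtain ⟨i, hi, hmax⟩ := Finset.exists_max_image S
    (fun i => (S.filter fun j => cellOf (x j) = cellOf (x i)).card) ⟨a, ha⟩
  set M := (S.filter fun j => cellOf (x j) = cellOf (x i)).card with hMdef
  have hM : ∀ c : Fin 3 → ℤ, (S.filter fun j => cellOf (x j) = c).card ≤ M := by
    intro c
    rcases (S.filter fun j => cellOf (x j) = c).eq_empty_or_nonempty with he | ⟨j, hj⟩
    · simp [he]
    · rw [Finset.mem_filter] at hj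
      rw [← hj.2]
      exact hmax j hj.1
  by_cases hM2 : 2 ≤ M
  · refine ⟨i, hi, ?_⟩
    have key := bu_one_lower h x S i ((S.filter fun j => cellOf (x j) = cellOf (x i)).erase i)
      (Finset.erase_subset_erase i (Finset.filter_subset _ _)) (by
        intro j hj
        rw [Finset.mem_erase, Finset.mem_filter] at hj
        apply h.bad _ dist_nonneg
        left
        have := bu_cell_dist hj.2.2.symm
        linarith) M hM
    have hc : (((S.filter fun j => cellOf (x j) = cellOf (x i)).erase i).card : ℝ) = M - 1 := by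
      rw [Finset.card_erase_of_mem (by simp [hi]), ← hMdef, Nat.cast_sub (by omega)]
      simp
    rw [hc] at key
    have hM' : (2 : ℝ) ≤ M := by exact_mod_cast hM2
    have : 0 ≤ ((M : ℝ) - 2) * (Kb - 21 ^ 3 * u) :=
      mul_nonneg (by linarith) (by nlinarith)
    nlinarith
  · refine ⟨a, ha, ?_⟩
    have key := bu_one_lower h x S a {b}
      (by simp [hb, hab.symm]) (by
        intro j hj
        rw [Finset.mem_singleton] at hj
        subst hj
        exact h.bad _ dist_nonneg hbad) 1 (fun c => (hM c).trans (by omega))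
    simp only [Finset.card_singleton, Nat.cast_one, mul_one] at key
    nlinarith

/-- Removal of bad particles: what is left has only bonds and far pairs. -/
theorem base_removal {Φ : ℝ → ℝ} {u Kb b₂ D' : ℝ} {n : ℕ} (h : BaseHyp Φ u Kb b₂ D' n)
    {N : ℕ} (x : Fin N → Pt) (S : Finset (Fin N)) :
    ∃ G : Finset (Fin N), G ⊆ S ∧
      (∀ i ∈ G, ∀ j ∈ G, i ≠ j →
        (4 ≤ dist (x i) (x j) ∧ dist (x i) (x j) ≤ b₂) ∨ D' ≤ dist (x i) (x j)) ∧
      EnOn Φ x G + (Kb - 2 * 21 ^ 3 * u) * ((S.card : ℝ) - G.card) ≤ EnOn Φ x S := by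
  classical
  induction' hm : S.card with m ih generalizing S
  · refine ⟨S, le_rfl, ?_, by simp [hm]⟩
    intro i hi
    rw [Finset.card_eq_zero] at hm
    simp [hm] at hi
  · by_cases hgood : ∀ i ∈ S, ∀ j ∈ S, i ≠ j →
        (4 ≤ dist (x i) (x j) ∧ dist (x i) (x j) ≤ b₂) ∨ D' ≤ dist (x i) (x j)
    · exact ⟨S, le_rfl, hgood, by simp [hm]⟩
    · push Not at hgood
      obtain ⟨a, ha, b, hb, hab, h1, h2⟩ := hgood
      have hbad : dist (x a) (x b) < 4 ∨ (b₂ < dist (x a) (x b) ∧ dist (x a) (x b) < D') := by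
        by_cases h4 : 4 ≤ dist (x a) (x b)
        · exact Or.inr ⟨h1 h4, h2⟩
        · exact Or.inl (not_le.1 h4)
      obtain ⟨i, hi, hsum⟩ := bu_exists_bad h x S ha hb hab hbad
      have hc : (S.erase i).card = m := by
        rw [Finset.card_erase_of_mem hi, hm]; simp
      obtain ⟨G, hG, hGgood, hE⟩ := ih (S.erase i) hc
      refine ⟨G, hG.trans (Finset.erase_subset _ _), hGgood, ?_⟩
      rw [EnOn_erase Φ x S hi]
      push_cast
      linarith

/-- The bonded class of a particle in a good set. -/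
noncomputable def buCls (b₂ : ℝ) {N : ℕ} (x : Fin N → Pt) (G : Finset (Fin N)) (i : Fin N) :
    Finset (Fin N) := by
  classical exact G.filter fun j => i = j ∨ dist (x i) (x j) ≤ b₂

lemma bu_mem_cls {b₂ : ℝ} {N : ℕ} {x : Fin N → Pt} {G : Finset (Fin N)} {i j : Fin N} :
    j ∈ buCls b₂ x G i ↔ j ∈ G ∧ (i = j ∨ dist (x i) (x j) ≤ b₂) := by
  classical
  unfold buCls
  simp only [Finset.mem_filter]

/-- The good sets. -/
def BuGood (b₂ D' : ℝ) {N : ℕ} (x : Fin N → Pt) (G : Finset (Fin N)) : Prop :=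
  ∀ i ∈ G, ∀ j ∈ G, i ≠ j →
    (4 ≤ dist (x i) (x j) ∧ dist (x i) (x j) ≤ b₂) ∨ D' ≤ dist (x i) (x j)

lemma bu_cls_dist {b₂ : ℝ} (hb : b₂ ≤ 8) {N : ℕ} {x : Fin N → Pt} {G : Finset (Fin N)}
    {i j : Fin N} (hj : j ∈ buCls b₂ x G i) : dist (x i) (x j) ≤ 8 := by
  rcases (bu_mem_cls.1 hj).2 with rfl | hd
  · simp
  · linarith

lemma bu_cls_pair {b₂ D' : ℝ} (hb : b₂ ≤ 8) (hD : 17 ≤ D') {N : ℕ} {x : Fin N → Pt}
    {G : Finset (Fin N)} (hG : BuGood b₂ D' x G) {i j k : Fin N} (hj : j ∈ buCls b₂ x G i)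
    (hk : k ∈ buCls b₂ x G i) (hjk : j ≠ k) :
    4 ≤ dist (x j) (x k) ∧ dist (x j) (x k) ≤ b₂ := by
  rcases hG j (bu_mem_cls.1 hj).1 k (bu_mem_cls.1 hk).1 hjk with h1 | h1
  · exact h1
  · exfalso
    have h2 := bu_cls_dist hb hj
    have h3 := bu_cls_dist hb hk
    have h4 := dist_triangle_left (x j) (x k) (x i)
    linarith

lemma bu_cls_eq {b₂ D' : ℝ} (hb : b₂ ≤ 8) (hD : 17 ≤ D') {N : ℕ} {x : Fin N → Pt}
    {G : Finset (Fin N)} (hG : BuGood b₂ D' x G) {i j : Fin N} (hi : i ∈ G)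
    (hj : j ∈ buCls b₂ x G i) : buCls b₂ x G j = buCls b₂ x G i := by
  have hjG := (bu_mem_cls.1 hj).1
  have hii : i ∈ buCls b₂ x G i := bu_mem_cls.2 ⟨hi, Or.inl rfl⟩
  have hij : i ∈ buCls b₂ x G j := by
    refine bu_mem_cls.2 ⟨hi, ?_⟩
    rcases (bu_mem_cls.1 hj).2 with h1 | h1
    · exact Or.inl h1.symm
    · exact Or.inr (by rwa [dist_comm])
  ext k
  constructor
  · intro hk
    refine bu_mem_cls.2 ⟨(bu_mem_cls.1 hk).1, ?_⟩
    by_cases hik : i = k
    · exact Or.inl hik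
    · exact Or.inr (bu_cls_pair hb hD hG hij hk hik).2
  · intro hk
    refine bu_mem_cls.2 ⟨(bu_mem_cls.1 hk).1, ?_⟩
    by_cases hjk : j = k
    · exact Or.inl hjk
    · exact Or.inr (bu_cls_pair hb hD hG hj hk hjk).2

lemma bu_cls_card {Φ : ℝ → ℝ} {u Kb b₂ D' : ℝ} {n : ℕ} (h : BaseHyp Φ u Kb b₂ D' n)
    {N : ℕ} {x : Fin N → Pt} {G : Finset (Fin N)} (hG : BuGood b₂ D' x G) (i : Fin N) :
    (buCls b₂ x G i).card ≤ n := by
  classical
  have hinj : Set.InjOn x (buCls b₂ x G i : Set (Fin N)) := by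
    intro j hj k hk hjk
    by_contra hne
    have := (bu_cls_pair h.b₂_le h.D'_ge hG hj hk hne).1
    rw [hjk, dist_self] at this
    norm_num at this
  rw [← Finset.card_image_of_injOn hinj]
  apply h.clique
  intro p hp q hq hpq
  rw [Finset.mem_image] at hp hq
  obtain ⟨j, hj, rfl⟩ := hp
  obtain ⟨k, hk, rfl⟩ := hq
  exact bu_cls_pair h.b₂_le h.D'_ge hG hj hk (fun hjk => hpq (by rw [hjk]))

lemma bu_EnOn_lower {Φ : ℝ → ℝ} {u Kb b₂ D' : ℝ} {n : ℕ} (h : BaseHyp Φ u Kb b₂ D' n)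
    {N : ℕ} {x : Fin N → Pt} {G : Finset (Fin N)} (hG : BuGood b₂ D' x G) :
    -(∑ i ∈ G, u * (((buCls b₂ x G i).card : ℝ) - 1) / 2) ≤ EnOn Φ x G := by
  classical
  unfold EnOn
  rw [Finset.sum_div, ← Finset.sum_neg_distrib]
  apply Finset.sum_le_sum
  intro i hi
  have hii : i ∈ buCls b₂ x G i := bu_mem_cls.2 ⟨hi, Or.inl rfl⟩
  have h1 : ∑ j ∈ G, -(if j ∈ (buCls b₂ x G i).erase i then u else 0) ≤
      ∑ j ∈ G, if i = j then 0 else Φ (dist (x i) (x j)) := by
    apply Finset.sum_le_sum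
    intro j hj
    by_cases hij : i = j
    · subst hij
      simp
    · simp only [hij, if_false]
      split_ifs with hc
      · exact h.lower _ dist_nonneg
      · rw [neg_zero]
        apply h.far
        rcases hG i hi j hj hij with h2 | h2
        · exact absurd (Finset.mem_erase.2 ⟨Ne.symm hij, bu_mem_cls.2 ⟨hj, Or.inr h2.2⟩⟩) hc
        · linarith [h.D'_ge]
  rw [Finset.sum_neg_distrib, ← Finset.sum_filter, Finset.sum_const, nsmul_eq_mul] at h1
  have e1 : G.filter (fun j => j ∈ (buCls b₂ x G i).erase i) = (buCls b₂ x G i).erase i := by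
    ext j
    simp only [Finset.mem_filter]
    exact ⟨fun hj => hj.2, fun hj => ⟨(bu_mem_cls.1 (Finset.mem_of_mem_erase hj)).1, hj⟩⟩
  rw [e1, Finset.card_erase_of_mem hii,
    Nat.cast_sub (Finset.card_pos.2 ⟨i, hii⟩)] at h1
  push_cast at h1
  linarith

theorem base_stable {Φ : ℝ → ℝ} {u Kb b₂ D' : ℝ} {n : ℕ} (h : BaseHyp Φ u Kb b₂ D' n) :
    Stable Φ (u * n / 2) := by
  intro N x
  obtain ⟨G, hGS, hG, hE⟩ := base_removal h x Finset.univ
  have hu := h.u_nonneg
  have h1 := bu_EnOn_lower h (x := x) (G := G) hG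
  have hcard : (G.card : ℝ) ≤ N := by
    have := Finset.card_le_univ G
    rw [Fintype.card_fin] at this
    exact_mod_cast this
  have h2 : ∑ i ∈ G, u * (((buCls b₂ x G i).card : ℝ) - 1) / 2 ≤ G.card * (u * n / 2) := by
    rw [← nsmul_eq_mul]
    apply Finset.sum_le_card_nsmul
    intro i _
    have : ((buCls b₂ x G i).card : ℝ) ≤ n := by exact_mod_cast bu_cls_card h hG i
    nlinarith
  rw [energy_eq_EnOn]
  simp only [Finset.card_univ, Fintype.card_fin] at hE
  have h3 : 0 ≤ (Kb - 2 * 21 ^ 3 * u) * ((N : ℝ) - G.card) :=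
    mul_nonneg (by linarith [h.big]) (by linarith)
  have h4 : (G.card : ℝ) * (u * n / 2) ≤ N * (u * n / 2) :=
    mul_le_mul_of_nonneg_right hcard (by positivity)
  linarith

/-- The box that contains a class whose representative lies in the unit cell `m`. -/
def buBox (m : Fin 3 → ℤ) : Set Pt :=
  {p : Pt | ∀ k, ((m k : ℝ) - 8) ≤ p k ∧ p k ≤ ((m k : ℝ) + 9)}

/-- One-particle weight for a given set of occupied cells. -/
noncomputable def buW (t L : ℝ) (O : Finset (Fin 3 → ℤ)) (p : Pt) : ℝ :=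
  (cube L).indicator (fun _ => Real.exp t) p +
    ∑ m ∈ O, (buBox m).indicator (fun _ => Real.exp (-9)) p

lemma bu_W_nonneg (t L : ℝ) (O : Finset (Fin 3 → ℤ)) (p : Pt) : 0 ≤ buW t L O p := by
  unfold buW
  exact add_nonneg (Set.indicator_nonneg (fun _ _ => (Real.exp_pos _).le) _)
    (Finset.sum_nonneg fun _ _ => Set.indicator_nonneg (fun _ _ => (Real.exp_pos _).le) _)

lemma bu_W_cube (t L : ℝ) (O : Finset (Fin 3 → ℤ)) {p : Pt} (hp : p ∈ cube L) :
    Real.exp t ≤ buW t L O p := by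
  unfold buW
  rw [Set.indicator_of_mem hp]
  exact le_add_of_nonneg_right
    (Finset.sum_nonneg fun _ _ => Set.indicator_nonneg (fun _ _ => (Real.exp_pos _).le) _)

lemma bu_W_box (t L : ℝ) {O : Finset (Fin 3 → ℤ)} {m : Fin 3 → ℤ} (hm : m ∈ O) {p : Pt}
    (hp : p ∈ buBox m) : Real.exp (-9) ≤ buW t L O p := by
  unfold buW
  refine le_add_of_nonneg_of_le (Set.indicator_nonneg (fun _ _ => (Real.exp_pos _).le) _) ?_
  refine le_trans ?_ (Finset.single_le_sum
    (f := fun m => (buBox m).indicator (fun _ => Real.exp (-9)) p)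
    (fun _ _ => Set.indicator_nonneg (fun _ _ => (Real.exp_pos _).le) _) hm)
  simp only [Set.indicator_of_mem hp, le_refl]

lemma bu_measurableSet_box (m : Fin 3 → ℤ) : MeasurableSet (buBox m) :=
  measurableSet_box (fun k => (m k : ℝ) - 8) (fun k => (m k : ℝ) + 9)

lemma bu_volume_box (m : Fin 3 → ℤ) : volume (buBox m) = ENNReal.ofReal (17 ^ 3) := by
  have := volume_box (fun k => (m k : ℝ) - 8) (fun k => (m k : ℝ) + 9)
  unfold buBox
  rw [this]
  have e : ∀ k : Fin 3, (m k : ℝ) + 9 - ((m k : ℝ) - 8) = 17 := fun k => by ring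
  simp only [e, Finset.prod_const, Finset.card_univ, Fintype.card_fin]
  rw [ENNReal.ofReal_pow (by norm_num)]

lemma bu_integrable_cube (t : ℝ) {L : ℝ} (hL : 0 ≤ L) :
    Integrable ((cube L).indicator fun _ : Pt => Real.exp t) := by
  rw [integrable_indicator_iff (measurableSet_cube L)]
  exact integrableOn_const (by rw [volume_cube hL]; exact ENNReal.ofReal_ne_top)

lemma bu_integrable_box (m : Fin 3 → ℤ) :
    Integrable ((buBox m).indicator fun _ : Pt => Real.exp (-9)) := by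
  rw [integrable_indicator_iff (bu_measurableSet_box m)]
  exact integrableOn_const (by rw [bu_volume_box]; exact ENNReal.ofReal_ne_top)

lemma bu_integrable_W (t : ℝ) {L : ℝ} (hL : 0 ≤ L) (O : Finset (Fin 3 → ℤ)) :
    Integrable (buW t L O) := by
  unfold buW
  exact (bu_integrable_cube t hL).add (integrable_finsetSum _ fun m _ => bu_integrable_box m)

lemma bu_exp_nine : (17 : ℝ) ^ 3 * Real.exp (-9) ≤ 1 := by
  have h1 : (2.7 : ℝ) ≤ Real.exp 1 := by
    have := Real.exp_one_gt_d9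
    linarith
  have h2 : (17 : ℝ) ^ 3 ≤ Real.exp 9 := by
    have : Real.exp 9 = Real.exp 1 ^ 9 := by
      rw [← Real.exp_nat_mul]; norm_num
    rw [this]
    calc (17 : ℝ) ^ 3 ≤ 2.7 ^ 9 := by norm_num
      _ ≤ _ := pow_le_pow_left₀ (by norm_num) h1 9
  rw [Real.exp_neg, ← div_eq_mul_inv, div_le_one (Real.exp_pos _)]
  exact h2

lemma bu_integral_W (t : ℝ) {L : ℝ} (hL : 0 ≤ L) (O : Finset (Fin 3 → ℤ)) :
    ∫ p, buW t L O p ≤ L ^ 3 * Real.exp t + O.card := by
  unfold buW
  rw [integral_add (bu_integrable_cube t hL)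
      (integrable_finsetSum _ fun m _ => bu_integrable_box m),
    integral_finsetSum _ fun m _ => bu_integrable_box m,
    integral_indicator_const _ (measurableSet_cube L)]
  apply add_le_add
  · rw [Measure.real, volume_cube hL, ENNReal.toReal_ofReal (by positivity), smul_eq_mul]
  · calc _ ≤ ∑ m ∈ O, (1 : ℝ) := by
          apply Finset.sum_le_sum
          intro m _
          rw [integral_indicator_const _ (bu_measurableSet_box m), Measure.real, bu_volume_box,
            ENNReal.toReal_ofReal (by positivity), smul_eq_mul]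
          exact bu_exp_nine
      _ = O.card := by simp

/-- The unit cells that meet the cube. -/
noncomputable def buCells (L : ℝ) : Finset (Fin 3 → ℤ) :=
  Fintype.piFinset fun _ : Fin 3 => Finset.Icc 0 ⌊L⌋

lemma bu_cells_card {L : ℝ} (hL : 0 ≤ L) : ((buCells L).card : ℝ) ≤ (L + 1) ^ 3 := by
  unfold buCells
  rw [Fintype.card_piFinset]
  simp only [Int.card_Icc, Finset.prod_const, Finset.card_univ, Fintype.card_fin, sub_zero]
  push_cast
  apply pow_le_pow_left₀ (by positivity)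
  have h0 : 0 ≤ ⌊L⌋ := Int.floor_nonneg.2 hL
  have h1 : (((⌊L⌋ + 1).toNat : ℤ) : ℝ) = (⌊L⌋ : ℝ) + 1 := by
    rw [Int.toNat_of_nonneg (by omega)]; push_cast; ring
  have h2 := Int.floor_le L
  have h3 : (((⌊L⌋ + 1).toNat : ℕ) : ℝ) = (((⌊L⌋ + 1).toNat : ℤ) : ℝ) := by push_cast; rfl
  rw [h3, h1]
  linarith

lemma bu_cell_mem {L : ℝ} {p : Pt} (hp : p ∈ cube L) : cellOf p ∈ buCells L := by
  unfold buCells
  rw [Fintype.mem_piFinset]
  intro k
  rw [Finset.mem_Icc]
  exact ⟨Int.floor_nonneg.2 (hp k).1, Int.floor_le_floor (hp k).2⟩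

/-- The pointwise bound. -/
lemma bu_pointwise {Φ : ℝ → ℝ} {u Kb b₂ D' : ℝ} {n : ℕ} (h : BaseHyp Φ u Kb b₂ D' n)
    (μ lam A : ℝ)
    (hA : ∀ j : ℕ, 1 ≤ j → j ≤ n → μ * j + lam + u * ((j : ℝ) * ((j : ℝ) - 1) / 2) ≤ A)
    (L : ℝ) {N : ℕ} (x : Fin N → Pt) (hx : ∀ i, x i ∈ cube L) :
    ∃ O : Finset (Fin 3 → ℤ), O ⊆ buCells L ∧ O.card ≤ packingNumber (L / D') ∧
      Real.exp (μ * N - energy Φ x) ≤ Real.exp (O.card * (A - lam + 9 * n)) *
        ∏ i, buW (μ - (Kb - 2 * 21 ^ 3 * u)) L O (x i) := by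
  classical
  obtain ⟨G, -, hG, hE⟩ := base_removal h x Finset.univ
  have hG' : BuGood b₂ D' x G := hG
  have hb := h.b₂_le
  have hD := h.D'_ge
  have hD0 : 0 < D' := by linarith
  have hself : ∀ i ∈ G, i ∈ buCls b₂ x G i := fun i hi => bu_mem_cls.2 ⟨hi, Or.inl rfl⟩
  -- representatives
  let rep : Fin N → Fin N := fun i =>
    @Classical.epsilon _ ⟨i⟩ fun r => r ∈ buCls b₂ x G i
  have hrep : ∀ i ∈ G, rep i ∈ buCls b₂ x G i := fun i hi =>
    Classical.epsilon_spec_aux ⟨i⟩ (fun r => r ∈ buCls b₂ x G i) ⟨i, hself i hi⟩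
  have hrep_eq : ∀ i j, buCls b₂ x G i = buCls b₂ x G j → rep i = rep j := by
    intro i j hij
    simp only [rep, hij]
  have hrepG : ∀ i ∈ G, rep i ∈ G := fun i hi => (bu_mem_cls.1 (hrep i hi)).1
  have hcls : ∀ i ∈ G, buCls b₂ x G (rep i) = buCls b₂ x G i := fun i hi =>
    bu_cls_eq hb hD hG' hi (hrep i hi)
  set R := G.image rep with hR
  have hRG : ∀ r ∈ R, r ∈ G := by
    intro r hr
    obtain ⟨i, hi, rfl⟩ := Finset.mem_image.1 hr
    exact hrepG i hi
  have hRrep : ∀ r ∈ R, rep r = r := by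
    intro r hr
    obtain ⟨i, hi, rfl⟩ := Finset.mem_image.1 hr
    exact hrep_eq _ _ (hcls i hi)
  have hfib : ∀ r ∈ R, G.filter (fun i => rep i = r) = buCls b₂ x G r := by
    intro r hr
    ext i
    rw [Finset.mem_filter]
    constructor
    · rintro ⟨hi, rfl⟩
      rw [hcls i hi]
      exact hself i hi
    · intro hi
      refine ⟨(bu_mem_cls.1 hi).1, ?_⟩
      rw [← hRrep r hr]
      exact hrep_eq _ _ (bu_cls_eq hb hD hG' (hRG r hr) hi)
  have hsep : ∀ r ∈ R, ∀ s ∈ R, r ≠ s → D' ≤ dist (x r) (x s) := by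
    intro r hr s hs hrs
    rcases hG r (hRG r hr) s (hRG s hs) hrs with h1 | h1
    · exfalso
      apply hrs
      rw [← hRrep r hr, ← hRrep s hs]
      exact (hrep_eq _ _ (bu_cls_eq hb hD hG' (hRG r hr)
        (bu_mem_cls.2 ⟨hRG s hs, Or.inr h1.2⟩))).symm
    · exact h1
  have hinj : Set.InjOn (fun r => cellOf (x r)) (R : Set (Fin N)) := by
    intro r hr s hs hrs
    by_contra hne
    have h1 := hsep r hr s hs hne
    have h2 := bu_cell_dist hrs
    linarith
  have hdist : ∀ r s, dist (D'⁻¹ • x r) (D'⁻¹ • x s) = dist (x r) (x s) / D' := by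
    intro r s
    rw [dist_smul₀, Real.norm_eq_abs, abs_of_pos (inv_pos.2 hD0), div_eq_inv_mul]
  have hinj2 : Set.InjOn (fun r => D'⁻¹ • x r) (R : Set (Fin N)) := by
    intro r hr s hs hrs
    by_contra hne
    have h1 := hsep r hr s hs hne
    have h2 := hdist r s
    simp only at hrs
    rw [hrs, dist_self] at h2
    have h3 : 0 < dist (x r) (x s) / D' := div_pos (by linarith) hD0
    linarith
  have hRcard : R.card ≤ packingNumber (L / D') := by
    rw [← Finset.card_image_of_injOn hinj2]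
    apply card_le_pack
    · intro p hp
      obtain ⟨r, -, rfl⟩ := Finset.mem_image.1 hp
      intro k
      have := hx r k
      simp only [PiLp.smul_apply, smul_eq_mul]
      constructor
      · exact mul_nonneg (inv_pos.2 hD0).le this.1
      · rw [div_eq_inv_mul]
        exact mul_le_mul_of_nonneg_left this.2 (inv_pos.2 hD0).le
    · intro p hp q hq hpq
      obtain ⟨r, hr, rfl⟩ := Finset.mem_image.1 hp
      obtain ⟨s, hs, rfl⟩ := Finset.mem_image.1 hq
      rw [hdist, le_div_iff₀ hD0, one_mul]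
      exact hsep r hr s hs (fun hrs => hpq (by rw [hrs]))
  set O := R.image (fun r => cellOf (x r)) with hO
  have hOcard : O.card = R.card := Finset.card_image_of_injOn hinj
  refine ⟨O, ?_, hOcard ▸ hRcard, ?_⟩
  · intro m hm
    obtain ⟨r, -, rfl⟩ := Finset.mem_image.1 hm
    exact bu_cell_mem (hx r)
  -- the class sum
  have hsum : ∑ i ∈ G, (μ + 9 + u * (((buCls b₂ x G i).card : ℝ) - 1) / 2) ≤
      R.card * (A - lam + 9 * n) := by
    rw [← Finset.sum_fiberwise_of_maps_to (s := G) (t := R) (g := rep)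
      (fun i hi => Finset.mem_image_of_mem _ hi), ← nsmul_eq_mul]
    apply Finset.sum_le_card_nsmul
    intro r hr
    rw [hfib r hr]
    have e : ∑ i ∈ buCls b₂ x G r, (μ + 9 + u * (((buCls b₂ x G i).card : ℝ) - 1) / 2) =
        ∑ i ∈ buCls b₂ x G r, (μ + 9 + u * (((buCls b₂ x G r).card : ℝ) - 1) / 2) := by
      apply Finset.sum_congr rfl
      intro i hi
      rw [bu_cls_eq hb hD hG' (hRG r hr) hi]
    rw [e, Finset.sum_const, nsmul_eq_mul]
    have h1 : 1 ≤ (buCls b₂ x G r).card := Finset.card_pos.2 ⟨r, hself r (hRG r hr)⟩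
    have h2 := bu_cls_card h hG' r
    have h3 := hA _ h1 h2
    have h4 : ((buCls b₂ x G r).card : ℝ) ≤ n := by exact_mod_cast h2
    nlinarith
  have hlow := bu_EnOn_lower h hG'
  set c := Kb - 2 * 21 ^ 3 * u with hc
  have hexp : μ * N - energy Φ x ≤ O.card * (A - lam + 9 * n) +
      ∑ i, if i ∈ G then (-9 : ℝ) else μ - c := by
    rw [energy_eq_EnOn, hOcard]
    simp only [Finset.card_univ, Fintype.card_fin] at hE
    have e1 : ∑ i, (if i ∈ G then (-9 : ℝ) else μ - c) =
        N * (μ - c) + G.card * (-9 - (μ - c)) := by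
      have : ∀ i, (if i ∈ G then (-9 : ℝ) else μ - c) =
          (μ - c) + (if i ∈ G then -9 - (μ - c) else 0) := by
        intro i; split_ifs <;> ring
      simp only [this, Finset.sum_add_distrib, Finset.sum_const, Finset.card_univ,
        Fintype.card_fin, nsmul_eq_mul, Finset.sum_ite_mem, Finset.univ_inter]
    rw [Finset.sum_add_distrib, Finset.sum_const, nsmul_eq_mul] at hsum
    rw [e1]
    nlinarith
  refine (Real.exp_le_exp.2 hexp).trans ?_
  rw [Real.exp_add, Real.exp_sum]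
  apply mul_le_mul_of_nonneg_left _ (Real.exp_pos _).le
  apply Finset.prod_le_prod (fun _ _ => (Real.exp_pos _).le)
  intro i _
  split_ifs with hi
  · have hmem : cellOf (x (rep i)) ∈ O :=
      Finset.mem_image_of_mem (fun r => cellOf (x r)) (Finset.mem_image_of_mem rep hi)
    apply bu_W_box _ _ hmem
    intro k
    have h1 := bu_cls_dist hb (hrep i hi)
    have h2 := abs_sub_le_dist (x i) (x (rep i)) k
    have h3 := Int.floor_le (x (rep i) k)
    have h4 := Int.lt_floor_add_one (x (rep i) k)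
    rw [abs_le] at h2
    simp only [cellOf]
    constructor <;> linarith [h2.1, h2.2]
  · exact bu_W_cube _ _ _ (hx i)

/-- The finite-volume bound. -/
lemma bu_finite {Φ : ℝ → ℝ} {u Kb b₂ D' : ℝ} {n : ℕ} (h : BaseHyp Φ u Kb b₂ D' n)
    (μ lam A : ℝ) (hA0 : 0 ≤ A)
    (hA : ∀ j : ℕ, 1 ≤ j → j ≤ n → μ * j + lam + u * ((j : ℝ) * ((j : ℝ) - 1) / 2) ≤ A)
    {L : ℝ} (hL : 0 < L) (N : ℕ) :
    μ * N + lZ Φ L N ≤ L ^ 3 * Real.exp (μ - (Kb - 2 * 21 ^ 3 * u)) +
      (L + 1) ^ 3 * Real.exp (-lam) + packingNumber (L / D') * (A + 9 * n + 1) := by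
  classical
  have hAdm : Adm Φ := ⟨h.meas, _, base_stable h⟩
  set t := μ - (Kb - 2 * 21 ^ 3 * u) with ht
  set Mx := packingNumber (L / D') with hMx
  set 𝒪 := (buCells L).powerset.filter (fun O => O.card ≤ Mx) with h𝒪
  set y : ℝ := L ^ 3 * Real.exp t + Mx with hy
  have hy0 : 0 ≤ y := by positivity
  let F : (Fin N → Pt) → ℝ := fun x =>
    ∑ O ∈ 𝒪, Real.exp (O.card * (A - lam + 9 * n)) * ∏ i, buW t L O (x i)
  have hint : ∀ O : Finset (Fin 3 → ℤ), Integrable (fun x : Fin N → Pt =>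
      Real.exp (O.card * (A - lam + 9 * n)) * ∏ i, buW t L O (x i)) := fun O =>
    (Integrable.fintype_prod (f := fun _ : Fin N => buW t L O)
      (μ := fun _ => volume) (fun _ => bu_integrable_W t hL.le O)).const_mul _
  have hFint : Integrable F := integrable_finsetSum _ fun O _ => hint O
  have hterm : ∀ (O : Finset (Fin 3 → ℤ)) (x : Fin N → Pt),
      0 ≤ Real.exp (O.card * (A - lam + 9 * n)) * ∏ i, buW t L O (x i) := fun O x =>
    mul_nonneg (Real.exp_pos _).le (Finset.prod_nonneg fun i _ => bu_W_nonneg _ _ _ _)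
  have hF0 : ∀ x, 0 ≤ F x := fun x => Finset.sum_nonneg fun O _ => hterm O x
  have hmeas : MeasurableSet (Set.pi Set.univ fun _ : Fin N => cube L) :=
    MeasurableSet.univ_pi fun _ => measurableSet_cube L
  have h1 : ∫ x in Set.pi Set.univ (fun _ : Fin N => cube L),
      Real.exp (μ * N) * Real.exp (-energy Φ x) ≤ ∫ x, F x := by
    refine le_trans (setIntegral_mono_on ((integrableOn_boltz hAdm L N).const_mul _)
      hFint.integrableOn hmeas ?_) (setIntegral_le_integral hFint (Eventually.of_forall hF0))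
    intro x hx
    obtain ⟨O, hO1, hO2, hO3⟩ := bu_pointwise h μ lam A hA L x (fun i => hx i (Set.mem_univ i))
    rw [← Real.exp_add, ← sub_eq_add_neg]
    refine hO3.trans ?_
    exact Finset.single_le_sum (f := fun O : Finset (Fin 3 → ℤ) =>
      Real.exp (O.card * (A - lam + 9 * n)) * ∏ i, buW t L O (x i)) (fun O _ => hterm O x)
      (Finset.mem_filter.2 ⟨Finset.mem_powerset.2 hO1, hO2⟩)
  have h2 : ∫ x, F x ≤ Real.exp (Mx * (A + 9 * n)) * y ^ N *
      Real.exp ((L + 1) ^ 3 * Real.exp (-lam)) := by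
    rw [integral_finsetSum _ fun O _ => hint O]
    calc _ ≤ ∑ O ∈ 𝒪, Real.exp (Mx * (A + 9 * n)) * y ^ N * ∏ _m ∈ O, Real.exp (-lam) := by
          apply Finset.sum_le_sum
          intro O hO
          have hOc : (O.card : ℝ) ≤ Mx := by exact_mod_cast (Finset.mem_filter.1 hO).2
          rw [integral_const_mul, integral_fintype_prod_volume_eq_pow, Fintype.card_fin,
            Finset.prod_const, ← Real.exp_nat_mul, mul_right_comm, ← Real.exp_add]
          apply mul_le_mul
          · apply Real.exp_le_exp.2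
            have : (O.card : ℝ) * (A + 9 * n) ≤ Mx * (A + 9 * n) :=
              mul_le_mul_of_nonneg_right hOc (by positivity)
            nlinarith
          · apply pow_le_pow_left₀ (integral_nonneg fun p => bu_W_nonneg _ _ _ _)
            refine (bu_integral_W t hL.le O).trans ?_
            rw [hy]
            linarith
          · exact pow_nonneg (integral_nonneg fun p => bu_W_nonneg _ _ _ _) _
          · exact (Real.exp_pos _).le
      _ ≤ ∑ O ∈ (buCells L).powerset,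
            Real.exp (Mx * (A + 9 * n)) * y ^ N * ∏ _m ∈ O, Real.exp (-lam) := by
          apply Finset.sum_le_sum_of_subset_of_nonneg (Finset.filter_subset _ _)
          intro O _ _
          positivity
      _ = Real.exp (Mx * (A + 9 * n)) * y ^ N * ∏ _m ∈ buCells L, (1 + Real.exp (-lam)) := by
          rw [← Finset.mul_sum, Finset.prod_one_add]
      _ ≤ _ := by
          apply mul_le_mul_of_nonneg_left _ (by positivity)
          refine (Real.prod_one_add_le_exp_sum _ fun _ => (Real.exp_pos _).le).trans ?_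
          apply Real.exp_le_exp.2
          rw [Finset.sum_const, nsmul_eq_mul]
          exact mul_le_mul_of_nonneg_right (bu_cells_card hL.le) (Real.exp_pos _).le
  rw [integral_const_mul] at h1
  have h3 := Real.pow_div_factorial_le_exp y hy0 N
  have hfac : (0 : ℝ) < Nat.factorial N := by exact_mod_cast Nat.factorial_pos N
  rw [← Real.exp_le_exp, Real.exp_add, exp_lZ hAdm hL, Zr_eq]
  calc _ = (Real.exp (μ * N) * ∫ x in Set.pi Set.univ (fun _ : Fin N => cube L),
        Real.exp (-energy Φ x)) / Nat.factorial N := by ring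
    _ ≤ (Real.exp (Mx * (A + 9 * n)) * y ^ N * Real.exp ((L + 1) ^ 3 * Real.exp (-lam))) /
        Nat.factorial N := div_le_div_of_nonneg_right (h1.trans h2) hfac.le
    _ = Real.exp (Mx * (A + 9 * n)) * Real.exp ((L + 1) ^ 3 * Real.exp (-lam)) *
        (y ^ N / Nat.factorial N) := by ring
    _ ≤ Real.exp (Mx * (A + 9 * n)) * Real.exp ((L + 1) ^ 3 * Real.exp (-lam)) * Real.exp y :=
        mul_le_mul_of_nonneg_left h3 (by positivity)
    _ = _ := by
        rw [← Real.exp_add, ← Real.exp_add, hy]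
        congr 1
        ring

theorem base_upper {Φ : ℝ → ℝ} {u Kb b₂ D' : ℝ} {n : ℕ} (h : BaseHyp Φ u Kb b₂ D' n) {p : ℝ}
    (hp : Tendsto (fun L : ℝ => (packingNumber L : ℝ) / L ^ 3) atTop (𝓝 p))
    {D : ℝ} (hD : 0 < D) (hneg : ∀ r, D ≤ r → Φ r ≤ 0) (μ lam A : ℝ) (hA0 : 0 ≤ A)
    (hA : ∀ j : ℕ, 1 ≤ j → j ≤ n → μ * j + lam + u * ((j : ℝ) * ((j : ℝ) - 1) / 2) ≤ A) :
    press D Φ μ ≤ Real.exp (μ - (Kb - 2 * 21 ^ 3 * u)) + Real.exp (-lam) +
      p / D' ^ 3 * (A + 9 * n + 1) := by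
  have hAdm : Adm Φ := ⟨h.meas, _, base_stable h⟩
  have hD' : 0 < D' := by linarith [h.D'_ge]
  apply press_le_of_large hAdm hD hneg
  intro ε hε
  have t1 : Tendsto (fun L : ℝ => (packingNumber (L / D') : ℝ) / (L / D') ^ 3 / D' ^ 3) atTop
      (𝓝 (p / D' ^ 3)) :=
    (hp.comp (tendsto_id.atTop_div_const hD')).div_const _
  have t2 : Tendsto (fun L : ℝ => (1 + L⁻¹) ^ 3) atTop (𝓝 ((1 + 0) ^ 3)) :=
    (tendsto_const_nhds.add tendsto_inv_atTop_zero).pow 3
  have t3 : Tendsto (fun L : ℝ => Real.exp (μ - (Kb - 2 * 21 ^ 3 * u)) +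
      (1 + L⁻¹) ^ 3 * Real.exp (-lam) +
      (packingNumber (L / D') : ℝ) / (L / D') ^ 3 / D' ^ 3 * (A + 9 * n + 1)) atTop
      (𝓝 (Real.exp (μ - (Kb - 2 * 21 ^ 3 * u)) + (1 + 0) ^ 3 * Real.exp (-lam) +
        p / D' ^ 3 * (A + 9 * n + 1))) :=
    (tendsto_const_nhds.add (t2.mul_const _)).add (t1.mul_const _)
  have hev := t3.eventually (eventually_le_nhds (b := Real.exp (μ - (Kb - 2 * 21 ^ 3 * u)) +
    Real.exp (-lam) + p / D' ^ 3 * (A + 9 * n + 1) + ε) (by norm_num; exact hε))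
  obtain ⟨L₁, hL₁⟩ := eventually_atTop.1 hev
  refine ⟨L₁, fun L hL hL0 N => (bu_finite h μ lam A hA0 hA hL0 N).trans ?_⟩
  refine le_trans (le_of_eq ?_) (mul_le_mul_of_nonneg_right (hL₁ L hL) (pow_pos hL0 3).le)
  field_simp

end Crest.Agent.R149
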