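import Crest.Agent.R149.Defs

/-! Row 149: elementary facts on energies, partition functions and the pressure. -/

set_option autoImplicit false

namespace Crest.Agent.R149

open MeasureTheory Filter Topology Crest.ProbabilityR.Continuum

lemma mem_fib {N : ℕ} {C : Type} (κ : Fin N → C) (c : C) (i : Fin N) :
    i ∈ fib κ c ↔ κ i = c := by
  simp [fib]

lemma energy_eq_EnOn (Φ : ℝ → ℝ) {N : ℕ} (x : Fin N → Pt) :
    energy Φ x = EnOn Φ x Finset.univ := by
  classical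
  unfold energy EnOn
  have h1 : ∑ p : {p : Fin N × Fin N // p.1 < p.2}, Φ (dist (x p.1.1) (x p.1.2)) =
      ∑ i, ∑ j, if i < j then Φ (dist (x i) (x j)) else 0 := by
    rw [← Finset.sum_product', Finset.univ_product_univ, ← Finset.sum_filter]
    symm
    exact Finset.sum_subtype _ (by simp) (fun p : Fin N × Fin N => Φ (dist (x p.1) (x p.2)))
  have h2 : (∑ i, ∑ j, if i < j then Φ (dist (x i) (x j)) else 0) =
      ∑ i, ∑ j, if j < i then Φ (dist (x i) (x j)) else 0 := by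
    rw [Finset.sum_comm]
    refine Finset.sum_congr rfl fun i _ => Finset.sum_congr rfl fun j _ => ?_
    rw [dist_comm]
  have h3 : (∑ i, ∑ j, if i = j then 0 else Φ (dist (x i) (x j))) =
      (∑ i, ∑ j, if i < j then Φ (dist (x i) (x j)) else 0) +
        ∑ i, ∑ j, if j < i then Φ (dist (x i) (x j)) else 0 := by
    rw [← Finset.sum_add_distrib]
    refine Finset.sum_congr rfl fun i _ => ?_
    rw [← Finset.sum_add_distrib]
    refine Finset.sum_congr rfl fun j _ => ?_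
    rcases lt_trichotomy i j with h | h | h
    · simp [h, h.ne, not_lt.mpr h.le]
    · simp [h]
    · simp [h, h.ne', not_lt.mpr h.le]
  rw [h1, h3, ← h2]; ring

lemma EnOn_eq_energy (Φ : ℝ → ℝ) {N : ℕ} (x : Fin N → Pt) (S : Finset (Fin N)) :
    EnOn Φ x S = energy Φ (fun i : Fin S.card => x (S.orderEmbOfFin rfl i)) := by
  rw [energy_eq_EnOn]
  unfold EnOn
  congr 1
  have hs : ∀ f : Fin N → ℝ, ∑ i ∈ S, f i = ∑ i : Fin S.card, f (S.orderEmbOfFin rfl i) := by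
    intro f
    conv_lhs => rw [← Finset.map_orderEmbOfFin_univ S rfl]
    rw [Finset.sum_map]
    rfl
  rw [hs]
  refine Finset.sum_congr rfl fun i _ => ?_
  rw [hs]
  refine Finset.sum_congr rfl fun j _ => ?_
  simp

lemma EnOn_sub_const (Φ : ℝ → ℝ) {N : ℕ} (x : Fin N → Pt) (S : Finset (Fin N)) (v : Pt) :
    EnOn Φ (fun i => x i - v) S = EnOn Φ x S := by
  simp [EnOn]

lemma EnOn_add (Φ Ψ : ℝ → ℝ) {N : ℕ} (x : Fin N → Pt) (S : Finset (Fin N)) :
    EnOn (fun r => Φ r + Ψ r) x S = EnOn Φ x S + EnOn Ψ x S := by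
  unfold EnOn
  rw [← add_div, ← Finset.sum_add_distrib]
  congr 1
  refine Finset.sum_congr rfl fun i _ => ?_
  rw [← Finset.sum_add_distrib]
  refine Finset.sum_congr rfl fun j _ => ?_
  split_ifs <;> simp

lemma EnOn_const_mul (c : ℝ) (Φ : ℝ → ℝ) {N : ℕ} (x : Fin N → Pt) (S : Finset (Fin N)) :
    EnOn (fun r => c * Φ r) x S = c * EnOn Φ x S := by
  unfold EnOn
  rw [← mul_div_assoc, Finset.mul_sum]
  congr 1
  refine Finset.sum_congr rfl fun i _ => ?_
  rw [Finset.mul_sum]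
  refine Finset.sum_congr rfl fun j _ => ?_
  split_ifs <;> simp

lemma EnOn_sub (Φ Ψ : ℝ → ℝ) {N : ℕ} (x : Fin N → Pt) (S : Finset (Fin N)) :
    EnOn (fun r => Φ r - Ψ r) x S = EnOn Φ x S - EnOn Ψ x S := by
  have h := EnOn_add Φ (fun r => (-1) * Ψ r) x S
  rw [EnOn_const_mul] at h
  simp only [neg_mul, one_mul, ← sub_eq_add_neg] at h
  exact h

lemma EnOn_mono {Φ Ψ : ℝ → ℝ} (h : ∀ r, 0 ≤ r → Φ r ≤ Ψ r) {N : ℕ} (x : Fin N → Pt)
    (S : Finset (Fin N)) : EnOn Φ x S ≤ EnOn Ψ x S := by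
  unfold EnOn
  gcongr with i _ j _
  split_ifs
  · exact le_rfl
  · exact h _ dist_nonneg

lemma EnOn_nonneg {Φ : ℝ → ℝ} (h : ∀ r, 0 ≤ r → 0 ≤ Φ r) {N : ℕ} (x : Fin N → Pt)
    (S : Finset (Fin N)) : 0 ≤ EnOn Φ x S := by
  unfold EnOn
  refine div_nonneg (Finset.sum_nonneg fun i _ => Finset.sum_nonneg fun j _ => ?_) (by norm_num)
  split_ifs
  · exact le_rfl
  · exact h _ dist_nonneg

/-- Removing one particle. -/
lemma EnOn_erase (Φ : ℝ → ℝ) {N : ℕ} (x : Fin N → Pt) (S : Finset (Fin N)) {i : Fin N}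
    (hi : i ∈ S) :
    EnOn Φ x S = EnOn Φ x (S.erase i) + ∑ j ∈ S.erase i, Φ (dist (x i) (x j)) := by
  unfold EnOn
  rw [← Finset.add_sum_erase S _ hi, ← Finset.add_sum_erase S _ hi]
  have h1 : ∑ j ∈ S.erase i, (if i = j then 0 else Φ (dist (x i) (x j))) =
      ∑ j ∈ S.erase i, Φ (dist (x i) (x j)) := by
    refine Finset.sum_congr rfl fun j hj => ?_
    rw [if_neg (Finset.ne_of_mem_erase hj).symm]
  have h2 : ∑ k ∈ S.erase i, ∑ j ∈ S, (if k = j then 0 else Φ (dist (x k) (x j))) =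
      ∑ k ∈ S.erase i, Φ (dist (x i) (x k)) +
        ∑ k ∈ S.erase i, ∑ j ∈ S.erase i, (if k = j then 0 else Φ (dist (x k) (x j))) := by
    rw [← Finset.sum_add_distrib]
    refine Finset.sum_congr rfl fun k hk => ?_
    rw [← Finset.add_sum_erase S _ hi, if_neg (Finset.ne_of_mem_erase hk), dist_comm]
  rw [h1, h2]
  simp only [if_true]
  ring

lemma energy_add (Φ Ψ : ℝ → ℝ) {N : ℕ} (x : Fin N → Pt) :
    energy (fun r => Φ r + Ψ r) x = energy Φ x + energy Ψ x := by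
  simp only [energy_eq_EnOn, EnOn_add]

lemma energy_sub (Φ Ψ : ℝ → ℝ) {N : ℕ} (x : Fin N → Pt) :
    energy (fun r => Φ r - Ψ r) x = energy Φ x - energy Ψ x := by
  simp only [energy_eq_EnOn, EnOn_sub]

lemma energy_const_mul (c : ℝ) (Φ : ℝ → ℝ) {N : ℕ} (x : Fin N → Pt) :
    energy (fun r => c * Φ r) x = c * energy Φ x := by
  simp only [energy_eq_EnOn, EnOn_const_mul]

lemma energy_mono {Φ Ψ : ℝ → ℝ} (h : ∀ r, 0 ≤ r → Φ r ≤ Ψ r) {N : ℕ} (x : Fin N → Pt) :
    energy Φ x ≤ energy Ψ x := by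
  simp only [energy_eq_EnOn]; exact EnOn_mono h x _

lemma energy_nonneg {Φ : ℝ → ℝ} (h : ∀ r, 0 ≤ r → 0 ≤ Φ r) {N : ℕ} (x : Fin N → Pt) :
    0 ≤ energy Φ x := by
  simp only [energy_eq_EnOn]; exact EnOn_nonneg h x _

/-- Splitting the energy along the fibres of a labelling. -/
lemma energy_split {N : ℕ} {C : Type} [Fintype C] [DecidableEq C] (Φ : ℝ → ℝ) (x : Fin N → Pt)
    (κ : Fin N → C) :
    energy Φ x = ∑ c, EnOn Φ x (fib κ c) +
      (∑ i, ∑ j, if κ i = κ j then 0 else Φ (dist (x i) (x j))) / 2 := by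
  rw [energy_eq_EnOn]
  unfold EnOn
  rw [← Finset.sum_div, ← add_div]
  congr 1
  have hfib : ∀ c, fib κ c = Finset.univ.filter fun i => κ i = c := by
    intro c; ext i; simp [mem_fib]
  have h1 : ∑ c, ∑ i ∈ fib κ c, ∑ j ∈ fib κ c, (if i = j then 0 else Φ (dist (x i) (x j))) =
      ∑ i, ∑ j, if κ i = κ j then (if i = j then 0 else Φ (dist (x i) (x j))) else 0 := by
    rw [← Finset.sum_fiberwise (s := Finset.univ) (g := κ)]
    refine Finset.sum_congr rfl fun c _ => ?_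
    rw [hfib]
    refine Finset.sum_congr rfl fun i hi => ?_
    have hi' : κ i = c := (Finset.mem_filter.mp hi).2
    rw [Finset.sum_filter]
    refine Finset.sum_congr rfl fun j _ => ?_
    rw [hi']
    simp only [eq_comm]
  rw [h1, ← Finset.sum_add_distrib]
  refine Finset.sum_congr rfl fun i _ => ?_
  rw [← Finset.sum_add_distrib]
  refine Finset.sum_congr rfl fun j _ => ?_
  by_cases h : κ i = κ j
  · simp [h]
  · have : i ≠ j := fun e => h (by rw [e])
    simp [h, this]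

lemma measurable_EnOn {Φ : ℝ → ℝ} (hΦ : Measurable Φ) {N : ℕ} (S : Finset (Fin N)) :
    Measurable fun x : Fin N → Pt => EnOn Φ x S := by
  unfold EnOn
  refine Measurable.div_const (Finset.measurable_sum _ fun i _ => Finset.measurable_sum _ fun j _ => ?_) _
  split_ifs
  · exact measurable_const
  · exact hΦ.comp ((measurable_pi_apply i).dist (measurable_pi_apply j))

lemma measurable_energy {Φ : ℝ → ℝ} (hΦ : Measurable Φ) (N : ℕ) :
    Measurable fun x : Fin N → Pt => energy Φ x := by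
  simp only [energy_eq_EnOn]; exact measurable_EnOn hΦ _

lemma measurable_chi : Measurable chi := by
  unfold chi
  exact Measurable.ite measurableSet_Iio measurable_const measurable_const

lemma chi_nonneg (r : ℝ) : 0 ≤ chi r := by
  unfold chi; split_ifs <;> norm_num

lemma SStable.stable {Φ : ℝ → ℝ} {κ B : ℝ} (h : SStable Φ κ B) (hκ : 0 ≤ κ) : Stable Φ B := by
  intro N x
  have h1 := h N x
  have h2 : 0 ≤ energy chi x := energy_nonneg (fun r _ => chi_nonneg r) x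
  nlinarith [mul_nonneg hκ h2]

lemma measurableSet_box (a b : Fin 3 → ℝ) :
    MeasurableSet {p : Pt | ∀ k, a k ≤ p k ∧ p k ≤ b k} := by
  have : {p : Pt | ∀ k, a k ≤ p k ∧ p k ≤ b k} =
      (WithLp.ofLp : Pt → Fin 3 → ℝ) ⁻¹' (Set.pi Set.univ fun k => Set.Icc (a k) (b k)) := by
    ext p; simp only [Set.mem_ofPred_eq, Set.mem_preimage, Set.mem_pi, Set.mem_univ, true_implies, Set.mem_Icc]
  rw [this]
  exact (PiLp.volume_preserving_ofLp (Fin 3)).measurable
    (MeasurableSet.univ_pi fun k => measurableSet_Icc)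

lemma volume_box (a b : Fin 3 → ℝ) :
    volume {p : Pt | ∀ k, a k ≤ p k ∧ p k ≤ b k} = ∏ k, ENNReal.ofReal (b k - a k) := by
  have : {p : Pt | ∀ k, a k ≤ p k ∧ p k ≤ b k} =
      (WithLp.ofLp : Pt → Fin 3 → ℝ) ⁻¹' (Set.pi Set.univ fun k => Set.Icc (a k) (b k)) := by
    ext p; simp only [Set.mem_ofPred_eq, Set.mem_preimage, Set.mem_pi, Set.mem_univ, true_implies, Set.mem_Icc]
  rw [this, (PiLp.volume_preserving_ofLp (Fin 3)).measure_preimage
    (MeasurableSet.univ_pi fun k => measurableSet_Icc).nullMeasurableSet, volume_pi_pi]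
  simp

lemma measurableSet_cube (L : ℝ) : MeasurableSet (cube L) :=
  measurableSet_box (fun _ => 0) (fun _ => L)

lemma volume_cube {L : ℝ} (hL : 0 ≤ L) : volume (cube L) = ENNReal.ofReal (L ^ 3) := by
  have := volume_box (fun _ => 0) (fun _ => L)
  simp only [sub_zero, Finset.prod_const, Finset.card_univ, Fintype.card_fin] at this
  rw [ENNReal.ofReal_pow hL]
  exact this

lemma measurableSet_cube_sub (L : ℝ) (y : Pt) : MeasurableSet {p : Pt | p - y ∈ cube L} :=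
  (measurable_id.sub_const y) (measurableSet_cube L)

lemma volume_cube_sub {L : ℝ} (hL : 0 ≤ L) (y : Pt) :
    volume {p : Pt | p - y ∈ cube L} = ENNReal.ofReal (L ^ 3) := by
  rw [← volume_cube hL]
  have := measure_preimage_add_right (volume : Measure Pt) (-y) (cube L)
  simp only [sub_eq_add_neg]
  exact this

/-- A coordinate difference is at most the distance. -/
lemma abs_sub_le_dist (p q : Pt) (k : Fin 3) : |p k - q k| ≤ dist p q := by
  have := PiLp.dist_apply_le p q k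
  rwa [Real.dist_eq] at this

/-- If all coordinate differences are at most `d` the distance is at most `7 d / 4`. -/
lemma dist_le_of_coord {p q : Pt} {d : ℝ} (h : ∀ k, |p k - q k| ≤ d) : dist p q ≤ 7 / 4 * d := by
  have hd : 0 ≤ d := (abs_nonneg _).trans (h 0)
  rw [EuclideanSpace.dist_eq, Fin.sum_univ_three]
  apply Real.sqrt_le_iff.mpr
  refine ⟨by positivity, ?_⟩
  have h0 := sq_le_sq' (by linarith [abs_nonneg (p 0 - q 0)]) (h 0)
  have h1 := sq_le_sq' (by linarith [abs_nonneg (p 1 - q 1)]) (h 1)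
  have h2 := sq_le_sq' (by linarith [abs_nonneg (p 2 - q 2)]) (h 2)
  simp only [Real.dist_eq]
  nlinarith [sq_nonneg d]


lemma Zr_eq (Φ : ℝ → ℝ) (L : ℝ) (N : ℕ) :
    Zr Φ L N = (1 / (Nat.factorial N : ℝ)) *
      ∫ x in Set.pi Set.univ (fun _ : Fin N => cube L), Real.exp (-energy Φ x) := by
  simp [Zr, partitionFn]

lemma partitionFn_eq_Zr (φ : ℝ → ℝ) (L : ℝ) (N : ℕ) (β : ℝ) :
    partitionFn φ L N β = Zr (fun r => β * φ r) L N := by
  rw [Zr_eq]
  simp only [partitionFn, energy_const_mul, neg_mul]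

lemma measurableSet_piCube (L : ℝ) (N : ℕ) :
    MeasurableSet (Set.pi Set.univ (fun _ : Fin N => cube L)) :=
  MeasurableSet.univ_pi fun _ => measurableSet_cube L

lemma volume_cube_lt_top (L : ℝ) : volume (cube L) < ⊤ := by
  have := volume_box (fun _ => 0) (fun _ => L)
  change volume (cube L) = _ at this
  rw [this]
  exact ENNReal.prod_lt_top fun _ _ => ENNReal.ofReal_lt_top

lemma volume_piCube_lt_top (L : ℝ) (N : ℕ) :
    volume (Set.pi Set.univ (fun _ : Fin N => cube L)) < ⊤ := by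
  rw [volume_pi_pi]
  exact ENNReal.prod_lt_top fun _ _ => volume_cube_lt_top L

lemma volume_piCube {L : ℝ} (hL : 0 ≤ L) (N : ℕ) :
    volume (Set.pi Set.univ (fun _ : Fin N => cube L)) = ENNReal.ofReal ((L ^ 3) ^ N) := by
  rw [volume_pi_pi, ENNReal.ofReal_pow (by positivity)]
  simp [volume_cube hL]

lemma volume_real_piCube {L : ℝ} (hL : 0 ≤ L) (N : ℕ) :
    (volume : Measure (Fin N → Pt)).real (Set.pi Set.univ (fun _ : Fin N => cube L)) =
      (L ^ 3) ^ N := by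
  rw [Measure.real, volume_piCube hL, ENNReal.toReal_ofReal (by positivity)]

lemma integrableOn_boltz {Φ : ℝ → ℝ} (hΦ : Adm Φ) (L : ℝ) (N : ℕ) :
    IntegrableOn (fun x : Fin N → Pt => Real.exp (-energy Φ x))
      (Set.pi Set.univ (fun _ : Fin N => cube L)) := by
  obtain ⟨hm, B, hB⟩ := hΦ
  refine Measure.integrableOn_of_bounded (M := Real.exp (B * N)) (volume_piCube_lt_top L N).ne
    (Real.measurable_exp.comp (measurable_energy hm N).neg).aestronglyMeasurable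
    (Eventually.of_forall fun x => ?_)
  rw [Real.norm_eq_abs, abs_of_pos (Real.exp_pos _)]
  have := hB N x
  exact Real.exp_le_exp.mpr (by linarith)

lemma Zr_nonneg (Φ : ℝ → ℝ) (L : ℝ) (N : ℕ) : 0 ≤ Zr Φ L N := by
  rw [Zr_eq]
  exact mul_nonneg (by positivity) (integral_nonneg fun x => (Real.exp_pos _).le)

lemma ofReal_Zr {Φ : ℝ → ℝ} (hΦ : Adm Φ) (L : ℝ) (N : ℕ) :
    ENNReal.ofReal ((Nat.factorial N : ℝ) * Zr Φ L N) =
      ∫⁻ x in Set.pi Set.univ (fun _ : Fin N => cube L),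
        ENNReal.ofReal (Real.exp (-energy Φ x)) := by
  rw [Zr_eq, ← mul_assoc, mul_one_div_cancel (by positivity), one_mul]
  exact ofReal_integral_eq_lintegral_ofReal (integrableOn_boltz hΦ L N)
    (Eventually.of_forall fun x => (Real.exp_pos _).le)

lemma Zr_pos {Φ : ℝ → ℝ} (hΦ : Adm Φ) {L : ℝ} (hL : 0 < L) (N : ℕ) : 0 < Zr Φ L N := by
  rw [Zr_eq]
  refine mul_pos (by positivity) ?_
  rw [setIntegral_pos_iff_support_of_nonneg_ae (Eventually.of_forall fun x => (Real.exp_pos _).le)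
    (integrableOn_boltz hΦ L N)]
  have : Function.support (fun x : Fin N → Pt => Real.exp (-energy Φ x)) = Set.univ := by
    ext x; simp
  rw [this, Set.univ_inter, volume_piCube hL.le]
  exact ENNReal.ofReal_pos.mpr (by positivity)

lemma Zr_zero (Φ : ℝ → ℝ) (L : ℝ) : Zr Φ L 0 = 1 := by
  rw [Zr_eq]
  have h1 : (Set.pi Set.univ (fun _ : Fin 0 => cube L)) = Set.univ := by
    ext x; simp
  have h2 : ∀ x : Fin 0 → Pt, energy Φ x = 0 := by
    intro x; simp [energy_eq_EnOn, EnOn]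
  simp [h1, h2, Measure.real, volume_pi]

lemma lZ_zero (Φ : ℝ → ℝ) (L : ℝ) : lZ Φ L 0 = 0 := by
  simp [lZ, Zr_zero]

lemma exp_lZ {Φ : ℝ → ℝ} (hΦ : Adm Φ) {L : ℝ} (hL : 0 < L) (N : ℕ) :
    Real.exp (lZ Φ L N) = Zr Φ L N :=
  Real.exp_log (Zr_pos hΦ hL N)

/-- Comparison of partition functions from a comparison of energies. -/
lemma lZ_le_of_energy {Φ Φ' : ℝ → ℝ} (hΦ : Adm Φ) (hΦ' : Adm Φ') {L : ℝ} (hL : 0 < L) (N : ℕ)
    (s : ℝ) (h : ∀ x : Fin N → Pt, (∀ i, x i ∈ cube L) → energy Φ x - s ≤ energy Φ' x) :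
    lZ Φ' L N ≤ lZ Φ L N + s := by
  have key : Zr Φ' L N ≤ Zr Φ L N * Real.exp s := by
    rw [Zr_eq, Zr_eq, mul_assoc, ← integral_mul_const]
    refine mul_le_mul_of_nonneg_left ?_ (by positivity)
    refine setIntegral_mono_on (integrableOn_boltz hΦ' L N)
      ((integrableOn_boltz hΦ L N).mul_const _) (measurableSet_piCube L N) fun x hx => ?_
    rw [← Real.exp_add]
    have := h x (fun i => hx i (Set.mem_univ i))
    exact Real.exp_le_exp.mpr (by linarith)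
  have := Real.log_le_log (Zr_pos hΦ' hL N) key
  rwa [Real.log_mul (Zr_pos hΦ hL N).ne' (Real.exp_pos s).ne', Real.log_exp] at this

/-- Ideal-gas bound. -/
lemma lZ_le_of_lower {Φ : ℝ → ℝ} (hΦ : Adm Φ) {L : ℝ} (hL : 0 < L) (N : ℕ) (E : ℝ)
    (h : ∀ x : Fin N → Pt, (∀ i, x i ∈ cube L) → -E ≤ energy Φ x) :
    lZ Φ L N ≤ E + N * Real.log (L ^ 3) - Real.log (Nat.factorial N) := by
  have key : Zr Φ L N ≤ (1 / (Nat.factorial N : ℝ)) * ((L ^ 3) ^ N * Real.exp E) := by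
    rw [Zr_eq]
    refine mul_le_mul_of_nonneg_left ?_ (by positivity)
    have h1 : ∫ _x in Set.pi Set.univ (fun _ : Fin N => cube L), Real.exp E =
        (L ^ 3) ^ N * Real.exp E := by
      rw [setIntegral_const, volume_real_piCube hL.le, smul_eq_mul]
    rw [← h1]
    refine setIntegral_mono_on (integrableOn_boltz hΦ L N)
      (integrableOn_const (volume_piCube_lt_top L N).ne) (measurableSet_piCube L N) fun x hx => ?_
    have := h x (fun i => hx i (Set.mem_univ i))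
    exact Real.exp_le_exp.mpr (by linarith)
  have := Real.log_le_log (Zr_pos hΦ hL N) key
  rw [Real.log_mul (by positivity) (by positivity), Real.log_mul (by positivity) (by positivity),
    Real.log_exp, Real.log_pow, one_div, Real.log_inv] at this
  unfold lZ
  linarith

/-- `N log V - log N! + t N ≤ V exp t`. -/
lemma ideal_le {V : ℝ} (hV : 0 < V) (t : ℝ) (N : ℕ) :
    t * N + N * Real.log V - Real.log (Nat.factorial N) ≤ V * Real.exp t := by
  have h := Real.pow_div_factorial_le_exp (V * Real.exp t) (by positivity) N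
  have h2 := Real.log_le_log (by positivity) h
  rw [Real.log_exp, Real.log_div (by positivity) (by positivity), Real.log_pow,
    Real.log_mul hV.ne' (Real.exp_pos t).ne', Real.log_exp] at h2
  linarith

lemma cube_mono {L L' : ℝ} (h : L ≤ L') : cube L ⊆ cube L' :=
  fun _ hp k => ⟨(hp k).1, (hp k).2.trans h⟩

lemma lZ_mono_len {Φ : ℝ → ℝ} (hΦ : Adm Φ) {L L' : ℝ} (hL : 0 < L) (hLL : L ≤ L') (N : ℕ) :
    lZ Φ L N ≤ lZ Φ L' N := by
  refine Real.log_le_log (Zr_pos hΦ hL N) ?_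
  rw [Zr_eq, Zr_eq]
  refine mul_le_mul_of_nonneg_left ?_ (by positivity)
  refine setIntegral_mono_set (integrableOn_boltz hΦ L' N)
    (Eventually.of_forall fun x => (Real.exp_pos _).le) (Eventually.of_forall ?_)
  exact Set.pi_mono fun _ _ => cube_mono hLL

lemma Adm.convex_comb {Φ₀ Φ₁ : ℝ → ℝ} (h₀ : Adm Φ₀) (h₁ : Adm Φ₁) {s t : ℝ} (hs : 0 ≤ s)
    (ht : 0 ≤ t) : Adm fun r => s * Φ₀ r + t * Φ₁ r := by
  obtain ⟨m₀, B₀, hB₀⟩ := h₀
  obtain ⟨m₁, B₁, hB₁⟩ := h₁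
  refine ⟨(m₀.const_mul s).add (m₁.const_mul t), s * B₀ + t * B₁, fun N x => ?_⟩
  rw [energy_add, energy_const_mul, energy_const_mul]
  have a := mul_le_mul_of_nonneg_left (hB₀ N x) hs
  have b := mul_le_mul_of_nonneg_left (hB₁ N x) ht
  nlinarith

/-- Hölder: `lZ` is convex in the potential. -/
lemma lZ_holder {Φ₀ Φ₁ : ℝ → ℝ} (h₀ : Adm Φ₀) (h₁ : Adm Φ₁) {L : ℝ} (hL : 0 < L) (N : ℕ)
    {s t : ℝ} (hs : 0 ≤ s) (ht : 0 ≤ t) (hst : s + t = 1) :
    lZ (fun r => s * Φ₀ r + t * Φ₁ r) L N ≤ s * lZ Φ₀ L N + t * lZ Φ₁ L N := by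
  have hc := h₀.convex_comb h₁ hs ht
  set a := lZ Φ₀ L N with ha
  set b := lZ Φ₁ L N with hb
  have key : Zr (fun r => s * Φ₀ r + t * Φ₁ r) L N ≤ Real.exp (s * a + t * b) := by
    have hZ₀ := exp_lZ h₀ hL N
    have hZ₁ := exp_lZ h₁ hL N
    rw [← ha] at hZ₀
    rw [← hb] at hZ₁
    have hpt : ∀ x : Fin N → Pt, Real.exp (-energy (fun r => s * Φ₀ r + t * Φ₁ r) x) ≤
        Real.exp (s * a + t * b) * (s * Real.exp (-a) * Real.exp (-energy Φ₀ x) +
          t * Real.exp (-b) * Real.exp (-energy Φ₁ x)) := by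
      intro x
      rw [energy_add, energy_const_mul, energy_const_mul]
      have hcv := convexOn_exp.2 (Set.mem_univ (-a - energy Φ₀ x))
        (Set.mem_univ (-b - energy Φ₁ x)) hs ht hst
      simp only [smul_eq_mul] at hcv
      have e1 : -(s * energy Φ₀ x + t * energy Φ₁ x) =
          (s * a + t * b) + (s * (-a - energy Φ₀ x) + t * (-b - energy Φ₁ x)) := by ring
      rw [e1, Real.exp_add, mul_assoc s, mul_assoc t, ← Real.exp_add (-a), ← Real.exp_add (-b)]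
      refine mul_le_mul_of_nonneg_left ?_ (Real.exp_pos _).le
      simpa only [sub_eq_add_neg] using hcv
    have hi₀ := (integrableOn_boltz h₀ L N).const_mul (s * Real.exp (-a))
    have hi₁ := (integrableOn_boltz h₁ L N).const_mul (t * Real.exp (-b))
    have hint := setIntegral_mono_on (integrableOn_boltz hc L N)
      ((hi₀.add hi₁).const_mul (Real.exp (s * a + t * b))) (measurableSet_piCube L N)
      fun x _ => hpt x
    rw [Zr_eq]
    refine (mul_le_mul_of_nonneg_left hint (by positivity)).trans (le_of_eq ?_)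
    simp only [Pi.add_apply]
    rw [integral_const_mul, integral_add hi₀ hi₁, integral_const_mul, integral_const_mul]
    rw [Zr_eq] at hZ₀ hZ₁
    have ea : Real.exp (-a) * Real.exp a = 1 := by rw [← Real.exp_add]; simp
    have eb : Real.exp (-b) * Real.exp b = 1 := by rw [← Real.exp_add]; simp
    calc _ = Real.exp (s * a + t * b) * (s * (Real.exp (-a) * (1 / (Nat.factorial N : ℝ) *
            ∫ x in Set.pi Set.univ (fun _ : Fin N => cube L), Real.exp (-energy Φ₀ x))) +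
          t * (Real.exp (-b) * (1 / (Nat.factorial N : ℝ) *
            ∫ x in Set.pi Set.univ (fun _ : Fin N => cube L), Real.exp (-energy Φ₁ x)))) := by
          ring
      _ = _ := by rw [← hZ₀, ← hZ₁, ea, eb]; simp [hst]
  have := Real.log_le_log (Zr_pos hc hL N) key
  rwa [Real.log_exp] at this


lemma energy_scale (Φ : ℝ → ℝ) {σ : ℝ} (hσ : 0 < σ) {N : ℕ} (x : Fin N → Pt) :
    energy (fun r => Φ (σ * r)) x = energy Φ (σ • x) := by
  unfold energy
  refine Finset.sum_congr rfl fun p _ => ?_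
  simp only [Pi.smul_apply, dist_smul₀, Real.norm_eq_abs, abs_of_pos hσ]

open Pointwise in
lemma lZ_scale {Φ : ℝ → ℝ} (hΦ : Adm Φ) {σ L : ℝ} (hσ : 0 < σ) (hL : 0 < L) (N : ℕ) :
    lZ (fun r => Φ (σ * r)) L N = lZ Φ (σ * L) N - 3 * N * Real.log σ := by
  have hset : σ • (Set.pi Set.univ (fun _ : Fin N => cube L)) =
      Set.pi Set.univ (fun _ : Fin N => cube (σ * L)) := by
    ext x
    rw [Set.mem_smul_set_iff_inv_smul_mem₀ hσ.ne']
    simp only [Set.mem_pi, Set.mem_univ, true_implies, cube, Set.mem_ofPred_eq, Pi.smul_apply,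
      PiLp.smul_apply, smul_eq_mul]
    refine forall_congr' fun i => forall_congr' fun k => ?_
    rw [inv_mul_le_iff₀ hσ, mul_nonneg_iff_of_pos_left (inv_pos.mpr hσ)]
  have hfin : Module.finrank ℝ (Fin N → Pt) = 3 * N := by
    simp [Module.finrank_pi_fintype, mul_comm]
  have key : Zr (fun r => Φ (σ * r)) L N = Zr Φ (σ * L) N * (σ ^ (3 * N))⁻¹ := by
    rw [Zr_eq, Zr_eq]
    simp only [energy_scale Φ hσ]
    rw [Measure.setIntegral_comp_smul_of_pos volume (fun x : Fin N → Pt => Real.exp (-energy Φ x))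
      _ hσ, hset, hfin, smul_eq_mul]
    ring
  unfold lZ
  rw [key, Real.log_mul (Zr_pos hΦ (by positivity) N).ne' (by positivity), Real.log_inv,
    Real.log_pow]
  push_cast
  ring

lemma term_le_exp {Φ : ℝ → ℝ} (hΦ : Measurable Φ) {B : ℝ} (hB : Stable Φ B) {D : ℝ}
    (hD : 0 ≤ D) (μ : ℝ) {L : ℝ} (hL : 0 < L) (N : ℕ) :
    (μ * N + lZ Φ L N) / (L + D) ^ 3 ≤ Real.exp (μ + B) := by
  have h1 := lZ_le_of_lower ⟨hΦ, B, hB⟩ hL N (B * N) fun x _ => by
    have := hB N x; linarith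
  have h2 := ideal_le (V := L ^ 3) (by positivity) (μ + B) N
  rw [div_le_iff₀ (by positivity)]
  have h3 : L ^ 3 ≤ (L + D) ^ 3 := by gcongr; linarith
  have h4 := mul_le_mul_of_nonneg_right h3 (Real.exp_pos (μ + B)).le
  nlinarith

lemma press_bdd {Φ : ℝ → ℝ} (hΦ : Adm Φ) {D : ℝ} (hD : 0 ≤ D) (μ : ℝ) :
    BddAbove {y : ℝ | ∃ (L : ℝ) (N : ℕ), 0 < L ∧ y = (μ * N + lZ Φ L N) / (L + D) ^ 3} := by
  obtain ⟨hm, B, hB⟩ := hΦ
  refine ⟨Real.exp (μ + B), ?_⟩
  rintro y ⟨L, N, hL, rfl⟩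
  exact term_le_exp hm hB hD μ hL N

lemma le_press {Φ : ℝ → ℝ} (hΦ : Adm Φ) {D : ℝ} (hD : 0 ≤ D) (μ : ℝ) {L : ℝ} (hL : 0 < L)
    (N : ℕ) : (μ * N + lZ Φ L N) / (L + D) ^ 3 ≤ press D Φ μ :=
  le_csSup (press_bdd hΦ hD μ) ⟨L, N, hL, rfl⟩

lemma le_press' {Φ : ℝ → ℝ} (hΦ : Adm Φ) {D : ℝ} (hD : 0 ≤ D) (μ : ℝ) {L : ℝ} (hL : 0 < L)
    (N : ℕ) : μ * N + lZ Φ L N ≤ (L + D) ^ 3 * press D Φ μ := by
  have := le_press hΦ hD μ hL N
  rwa [div_le_iff₀ (by positivity), mul_comm (press D Φ μ)] at this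

lemma press_le {Φ : ℝ → ℝ} {D μ V : ℝ}
    (h : ∀ (L : ℝ) (N : ℕ), 0 < L → (μ * N + lZ Φ L N) / (L + D) ^ 3 ≤ V) : press D Φ μ ≤ V := by
  refine csSup_le ⟨_, 1, 0, one_pos, rfl⟩ ?_
  rintro y ⟨L, N, hL, rfl⟩
  exact h L N hL

lemma press_nonneg {Φ : ℝ → ℝ} (hΦ : Adm Φ) {D : ℝ} (hD : 0 ≤ D) (μ : ℝ) : 0 ≤ press D Φ μ := by
  have := le_press hΦ hD μ one_pos 0
  simpa [lZ_zero] using this

lemma press_le_exp {Φ : ℝ → ℝ} (hΦ : Measurable Φ) {B : ℝ} (hB : Stable Φ B) {D : ℝ}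
    (hD : 0 ≤ D) (μ : ℝ) : press D Φ μ ≤ Real.exp (μ + B) :=
  press_le fun _ N hL => term_le_exp hΦ hB hD μ hL N

lemma press_mono_mu {Φ : ℝ → ℝ} (hΦ : Adm Φ) {D : ℝ} (hD : 0 ≤ D) {μ μ' : ℝ} (h : μ ≤ μ') :
    press D Φ μ ≤ press D Φ μ' := by
  refine press_le fun L N hL => le_trans ?_ (le_press hΦ hD μ' hL N)
  gcongr

lemma press_mono_pot {Φ Φ' : ℝ → ℝ} (hΦ : Adm Φ) (hΦ' : Adm Φ') {D : ℝ} (hD : 0 ≤ D) (μ : ℝ)
    (h : ∀ r, 0 ≤ r → Φ' r ≤ Φ r) : press D Φ μ ≤ press D Φ' μ := by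
  refine press_le fun L N hL => le_trans ?_ (le_press hΦ' hD μ hL N)
  have := lZ_le_of_energy hΦ' hΦ hL N 0 fun x _ => by
    rw [sub_zero]; exact energy_mono h x
  rw [add_zero] at this
  gcongr

/-- Joint convexity of the pressure in the potential and the chemical potential. -/
lemma press_holder {Φ₀ Φ₁ : ℝ → ℝ} (h₀ : Adm Φ₀) (h₁ : Adm Φ₁) {D : ℝ} (hD : 0 ≤ D)
    (μ₀ μ₁ : ℝ) {s t : ℝ} (hs : 0 ≤ s) (ht : 0 ≤ t) (hst : s + t = 1) :
    press D (fun r => s * Φ₀ r + t * Φ₁ r) (s * μ₀ + t * μ₁) ≤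
      s * press D Φ₀ μ₀ + t * press D Φ₁ μ₁ := by
  refine press_le fun L N hL => ?_
  have h := lZ_holder h₀ h₁ hL N hs ht hst
  have a := mul_le_mul_of_nonneg_left (le_press' h₀ hD μ₀ hL N) hs
  have b := mul_le_mul_of_nonneg_left (le_press' h₁ hD μ₁ hL N) ht
  rw [div_le_iff₀ (by positivity)]
  nlinarith

lemma press_convexOn_mu {Φ : ℝ → ℝ} (hΦ : Adm Φ) {D : ℝ} (hD : 0 ≤ D) :
    ConvexOn ℝ Set.univ (press D Φ) := by
  refine ⟨convex_univ, fun μ₀ _ μ₁ _ s t hs ht hst => ?_⟩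
  have h := press_holder hΦ hΦ hD μ₀ μ₁ hs ht hst
  have e : (fun r => s * Φ r + t * Φ r) = Φ := by
    funext r; rw [← add_mul, hst, one_mul]
  rw [e] at h
  simpa only [smul_eq_mul] using h

end Crest.Agent.R149
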