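import Crest.Agent.R149.ConvexAux

/-! Row 149: the induction step of the planar convex-analysis argument. -/

set_option autoImplicit false

namespace Crest.Agent.R149

/-- The inequalities between the constants of the induction. -/
structure CvK (n t1 t2 eb θ : ℝ) : Prop where
  hn : 2 ≤ n
  t1_pos : 0 < t1
  t2_pos : 0 < t2
  θ_pos : 0 < θ
  θ_le : θ ≤ 1 / 2
  c1 : 2 * n * (t1 + 2 * t2) ≤ 1 / 8
  c2 : 4 * n * eb ≤ 1 / 8
  c3 : n ^ 2 * θ ^ 2 ≤ t2 / 2
  c4 : 12 * eb ≤ t2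
  c5 : 2 * n * t1 + n ^ 3 * θ ^ 2 / 2 + 7 / 2 * n * eb + 2 * θ ≤ t2 ^ 2 / 24
  c6 : n ^ 3 * θ ^ 2 + 3 * n * eb + θ ≤ t1 / 24
  c7 : 8 * n * θ ≤ t1
  c8 : 2 * θ / t2 + 16 * n ^ 2 * θ ^ 2 ≤ eb

lemma cv_exists_K {n : ℝ} (hn : 2 ≤ n) : ∃ t1 t2 eb θ : ℝ, CvK n t1 t2 eb θ := by
  set s : ℝ := 1 / (100 * n) with hs
  have hn0 : 0 < n := by linarith
  have hs0 : 0 < s := by positivity
  have hns : n * s = 1 / 100 := by rw [hs]; field_simp
  have hs1 : s ≤ 1 / 200 := by nlinarith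
  have p2 : 0 < s ^ 2 := by positivity
  have p3 : 0 < s ^ 3 := by positivity
  have p4 : 0 < s ^ 4 := by positivity
  have q2 : s ^ 2 ≤ s / 200 := by nlinarith
  have q3 : s ^ 3 ≤ s ^ 2 / 200 := by nlinarith
  have q4 : s ^ 4 ≤ s ^ 3 / 200 := by nlinarith
  have q5 : s ^ 5 ≤ s ^ 4 / 200 := by nlinarith
  have q6 : s ^ 7 ≤ s ^ 4 := pow_le_pow_of_le_one hs0.le (by linarith) (by norm_num)
  have q7 : s ^ 8 ≤ s ^ 4 := pow_le_pow_of_le_one hs0.le (by linarith) (by norm_num)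
  have e1 : n * s ^ 3 = s ^ 2 / 100 := by linear_combination s ^ 2 * hns
  have e2 : n * s ^ 4 = s ^ 3 / 100 := by linear_combination s ^ 3 * hns
  have e3 : n * s ^ 5 = s ^ 4 / 100 := by linear_combination s ^ 4 * hns
  have e4 : n ^ 2 * (s ^ 5 / 20) ^ 2 = s ^ 8 / 4000000 := by
    have : n ^ 2 * (s ^ 5 / 20) ^ 2 = (n * s) ^ 2 * s ^ 8 / 400 := by ring
    rw [this, hns]; ring
  have e5 : n ^ 3 * (s ^ 5 / 20) ^ 2 = s ^ 7 / 400000000 := by
    have : n ^ 3 * (s ^ 5 / 20) ^ 2 = (n * s) ^ 3 * s ^ 7 / 400 := by ring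
    rw [this, hns]; ring
  have e6 : 2 * (s ^ 5 / 20) / s = s ^ 4 / 10 := by field_simp; ring
  refine ⟨s ^ 3 / 2, s, s ^ 4 / 5, s ^ 5 / 20, hn, by positivity, hs0, by positivity, by linarith,
    by linarith, by linarith, by linarith, by linarith, by linarith, by linarith, by linarith,
    by linarith⟩

/-- The invariant: near `z` the function `P` is the maximum of three Lipschitz perturbations of the
linear forms, with an exact triple point at `z`. -/
def CvInv (n θ : ℝ) (P : ℝ × ℝ → ℝ) (δ : ℝ) (z : ℝ × ℝ) (r e : ℝ) : Prop :=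
  ‖z - (1, 0)‖ + r ≤ θ ∧ ∃ (Q : Fin 3 → ℝ × ℝ → ℝ) (p : ℝ),
    (∀ i w w', Q i w' - Q i w ≤ cvL n i (w' - w) + e * ‖w' - w‖) ∧ (∀ i, Q i z = p) ∧
    ∀ w, ‖w - z‖ ≤ r → (∀ i, Q i w - δ ≤ P w) ∧ ∃ i, P w ≤ Q i w + δ

lemma cv_sq_id {β a m h : ℝ} (hβ : β ≠ 0) (ha : a ≠ 0) :
    m * h - h ^ 2 / (2 * β * a) = β * a * m ^ 2 / 2 - (h - β * a * m) ^ 2 / (2 * β * a) := by
  field_simp; ring

lemma cv_far {β a d t e : ℝ} (ha : 0 < a) (hβ0 : 0 < β) (hβ : β ≤ 3 / 2) (ht : 0 < t)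
    (he : 12 * e ≤ t) (hd : t * a / 2 ≤ d) :
    e * d - d ^ 2 / (2 * β * a) ≤ -(t ^ 2 * a / 24) := by
  have hd0 : 0 < d := lt_of_lt_of_le (by positivity) hd
  have h1 : d ^ 2 / (3 * a) ≤ d ^ 2 / (2 * β * a) :=
    div_le_div_of_nonneg_left (by positivity) (by positivity) (by nlinarith)
  have h2 : e * d + t ^ 2 * a / 24 ≤ d ^ 2 / (3 * a) := by
    rw [le_div_iff₀ (by positivity)]
    have h3 : t * a ≤ 2 * d := by linarith
    have h4 : 0 < t * a := by positivity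
    have h5 : e * d * (3 * a) ≤ d * (t * a) / 4 := by
      have : 12 * e * (d * a) ≤ t * (d * a) := mul_le_mul_of_nonneg_right he (by positivity)
      nlinarith
    nlinarith
  linarith

lemma cv_step {n t1 t2 eb θ : ℝ} (K : CvK n t1 t2 eb θ) {P P' : ℝ × ℝ → ℝ}
    (hP : ConvexOn ℝ (Set.Ioi 0 ×ˢ Set.univ) P) {a δ δ' H r e : ℝ} (ha : 0 < a)
    (haθ : a ≤ θ ^ 2) (hδ : 0 ≤ δ) (hδθ : δ ≤ θ * a) (hH : H ≤ r / 2) (hr : 4 * n * a ≤ r)
    (he0 : 0 ≤ e) (he : e + 2 * δ / (t2 * a) + 8 * n ^ 2 * a ≤ eb)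
    (hup : ∀ z : ℝ × ℝ, dist z (1, 0) ≤ θ → ∃ h : ℝ, |h| ≤ H ∧
      P' z ≤ P (z.1, z.2 + h) - h ^ 2 / (2 * z.1 * a) + δ')
    (hlo : ∀ z : ℝ × ℝ, dist z (1, 0) ≤ θ → ∀ h : ℝ, |h| ≤ θ →
      P (z.1, z.2 + h) - h ^ 2 / (2 * z.1 * a) - δ' ≤ P' z)
    {z0 : ℝ × ℝ} (hI : CvInv n θ P δ z0 r e) :
    ∃ z1, CvInv n θ P' δ' z1 (t1 * a / 2) (e + 2 * δ / (t2 * a) + 8 * n ^ 2 * a) ∧
      ‖z1 - z0‖ + t1 * a / 2 ≤ n * a := by
  obtain ⟨hbox, Q, p, hQ, hQp, hPQ⟩ := hI
  obtain ⟨hn, t1_pos, t2_pos, θ_pos, θ_le, c1, c2, c3, c4, c5, c6, c7, -⟩ := K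
  have hn0 : 0 < n := by linarith
  have hna : 0 < n * a := by positivity
  have hx1 : 0 ≤ 2 * δ / (t2 * a) := by positivity
  have hx2 : 0 ≤ 8 * n ^ 2 * a := by positivity
  have heb : e ≤ eb := by linarith
  have ht12 : 2 * 2 * (t1 + 2 * t2) ≤ 2 * n * (t1 + 2 * t2) := by gcongr
  have ht1 : t1 ≤ 1 / 32 := by linarith
  have ht2 : t2 ≤ 1 / 64 := by linarith
  have ht1a : t1 * a ≤ 1 / 32 * a := mul_le_mul_of_nonneg_right ht1 ha.le
  have ht2a : t2 * a ≤ 1 / 64 * a := mul_le_mul_of_nonneg_right ht2 ha.le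
  have hna2 : 2 * a ≤ n * a := mul_le_mul_of_nonneg_right hn ha.le
  have c1a := mul_le_mul_of_nonneg_right c1 ha.le
  have c2a := mul_le_mul_of_nonneg_right c2 ha.le
  have hnθ : n * θ ≤ 1 / 256 := by linarith
  have hna1 : n * a ≤ 1 / 2 := by
    have : n * a ≤ n * θ ^ 2 := mul_le_mul_of_nonneg_left haθ hn0.le
    have : n * θ * θ ≤ 1 / 256 * (1 / 2) := mul_le_mul hnθ θ_le θ_pos.le (by norm_num)
    linarith
  have hrθ : r ≤ θ := by linarith [norm_nonneg (z0 - (1, 0))]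
  -- points of the box have first coordinate near one
  have hU : ∀ w : ℝ × ℝ, ‖w - z0‖ ≤ r → dist w (1, 0) ≤ θ ∧ 1 / 2 ≤ w.1 ∧ w.1 ≤ 3 / 2 := by
    intro w hw
    have h1 : ‖w - (1, 0)‖ ≤ θ := by
      calc ‖w - (1, 0)‖ = ‖(w - z0) + (z0 - (1, 0))‖ := by congr 1; abel
        _ ≤ ‖w - z0‖ + ‖z0 - (1, 0)‖ := norm_add_le _ _
        _ ≤ θ := by linarith
    have h2 : |w.1 - 1| ≤ ‖w - (1, 0)‖ := norm_fst_le (w - (1, 0))
    have h3 := abs_le.1 (h2.trans h1)
    exact ⟨by rwa [dist_eq_norm], by linarith [h3.1], by linarith [h3.2]⟩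
  set b := z0.1 with hb
  obtain ⟨-, hb1, hb2⟩ := hU z0 (by simp; linarith)
  have hban : b * (n * a) ≤ 3 / 2 * (n * a) := mul_le_mul_of_nonneg_right hb2 hna.le
  have hba : b * a ≤ 3 / 2 * a := mul_le_mul_of_nonneg_right hb2 ha.le
  set zs : ℝ × ℝ := z0 + (-(b * a * n / 2), -(b * a / 2)) with hzs
  have hzs0 : ‖zs - z0‖ ≤ 3 / 4 * (n * a) := by
    have : zs - z0 = (-(b * a * n / 2), -(b * a / 2)) := by rw [hzs]; abel
    rw [this, norm_prod_le_iff]
    simp only [Real.norm_eq_abs, abs_neg]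
    constructor
    · rw [abs_of_nonneg (by positivity)]; linarith
    · rw [abs_of_nonneg (by positivity)]; linarith
  have hLs : ∀ j (z : ℝ × ℝ), cvL n j (z - z0) = cvL n j (z - zs) - b * a * cvM n j ^ 2 / 2 := by
    intro j z
    rw [← cv_CM, hzs]
    simp [cvL]
    ring
  have hQ1 : ∀ i w, Q i w ≤ p + cvL n i (w - z0) + e * ‖w - z0‖ := by
    intro i w
    have := hQ i z0 w
    rw [hQp] at this
    linarith
  have hQ2 : ∀ i w, p + cvL n i (w - z0) - e * ‖w - z0‖ ≤ Q i w := by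
    intro i w
    have := hQ i w z0
    rw [hQp, norm_sub_rev, cv_L_sub] at this
    rw [cv_L_sub]
    linarith
  -- the small box around `zs`
  have hB : ∀ z : ℝ × ℝ, ‖z - zs‖ ≤ t1 * a → ‖z - z0‖ ≤ n * a := by
    intro z hz
    calc ‖z - z0‖ = ‖(z - zs) + (zs - z0)‖ := by congr 1; abel
      _ ≤ ‖z - zs‖ + ‖zs - z0‖ := norm_add_le _ _
      _ ≤ n * a := by linarith
  have hsh : ∀ (z : ℝ × ℝ) (h : ℝ), ‖z - z0‖ ≤ n * a →
      ‖((z.1, z.2 + h) : ℝ × ℝ) - z0‖ ≤ n * a + |h| := by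
    intro z h hz
    have : ((z.1, z.2 + h) : ℝ × ℝ) - z0 = (z - z0) + (0, h) := by ext <;> simp; ring
    rw [this]
    refine (norm_add_le _ _).trans ?_
    have : ‖((0 : ℝ), h)‖ = |h| := by simp [Prod.norm_def]
    linarith
  have hLsh : ∀ j (z : ℝ × ℝ) (h : ℝ),
      cvL n j ((z.1, z.2 + h) - z0) = cvL n j (z - z0) + cvM n j * h := by
    intro j z h
    simp [cvL]; ring
  set F : ℝ × ℝ → ℝ → ℝ := fun z h => P (z.1, z.2 + h) - h ^ 2 / (2 * z.1 * a) with hF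
  have Fup : ∀ (z : ℝ × ℝ) (h : ℝ), ‖z - zs‖ ≤ t1 * a → |h| ≤ r / 2 → ∃ j,
      F z h ≤ p + cvL n j (z - zs) + n ^ 3 * a ^ 2 / 2
        - (h - z.1 * a * cvM n j) ^ 2 / (2 * z.1 * a) + e * (n * a + |h|) + δ := by
    intro z h hz hh
    have h0 := hB z hz
    have h1 := hsh z h h0
    obtain ⟨-, hz1, hz2⟩ := hU z (by linarith)
    obtain ⟨j, hj⟩ := (hPQ _ (h1.trans (by linarith))).2
    refine ⟨j, ?_⟩
    have h2 := hQ1 j (z.1, z.2 + h)
    rw [hLsh, hLs] at h2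
    have h3 := cv_sq_id (β := z.1) (a := a) (m := cvM n j) (h := h) (by positivity) ha.ne'
    have h4 : e * ‖((z.1, z.2 + h) : ℝ × ℝ) - z0‖ ≤ e * (n * a + |h|) :=
      mul_le_mul_of_nonneg_left h1 he0
    have h5 : (z.1 - b) * (a * cvM n j ^ 2) ≤ (n * a) * (a * n ^ 2) := by
      have h6 : |z.1 - b| ≤ ‖z - z0‖ := norm_fst_le (z - z0)
      obtain ⟨m0, m1⟩ := cv_M_bounds hn j
      refine mul_le_mul ((le_abs_self _).trans (h6.trans h0)) ?_ (by positivity) hna.le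
      gcongr
    simp only [hF]
    linarith
  have Flo : ∀ (z : ℝ × ℝ) (h : ℝ), ‖z - z0‖ ≤ n * a → |h| ≤ r / 2 → ∀ j,
      p + cvL n j (z - z0) + cvM n j * h - h ^ 2 / (2 * z.1 * a) - e * (n * a + |h|) - δ
        ≤ F z h := by
    intro z h h0 hh j
    have h1 := hsh z h h0
    have hj := (hPQ _ (h1.trans (by linarith))).1 j
    have h2 := hQ2 j (z.1, z.2 + h)
    rw [hLsh] at h2
    have h4 : e * ‖((z.1, z.2 + h) : ℝ × ℝ) - z0‖ ≤ e * (n * a + |h|) :=
      mul_le_mul_of_nonneg_left h1 he0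
    simp only [hF]
    linarith
  -- the windows
  set W : Fin 3 → Set ℝ := fun i => {h | |h - b * a * cvM n i| ≤ t2 * a} with hW
  have hWc : ∀ i, b * a * cvM n i ∈ W i := by
    intro i
    simp only [hW, Set.mem_ofPred_eq, sub_self, abs_zero]
    positivity
  have hWabs : ∀ i h, h ∈ W i → |h| ≤ 2 * (n * a) := by
    intro i h hh
    obtain ⟨m0, m1⟩ := cv_M_bounds hn i
    have h1 : |h - b * a * cvM n i| ≤ t2 * a := hh
    have h2 : |b * a * cvM n i| ≤ 3 / 2 * (n * a) := by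
      rw [abs_of_nonneg (by positivity)]
      have : b * cvM n i ≤ 3 / 2 * n := mul_le_mul hb2 m1 m0 (by norm_num)
      have := mul_le_mul_of_nonneg_right this ha.le
      linarith
    have h3 := abs_add_le (h - b * a * cvM n i) (b * a * cvM n i)
    rw [sub_add_cancel] at h3
    linarith
  set R : Fin 3 → ℝ × ℝ → ℝ := fun i z => sSup (F z '' W i) with hR
  have hFP : ∀ i (z : ℝ × ℝ), ‖z - zs‖ ≤ t1 * a → ∀ h ∈ W i, F z h ≤ P' z + δ' := by
    intro i z hz h hh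
    have := hlo z (hU z ((hB z hz).trans (by linarith))).1 h ((hWabs i h hh).trans (by linarith))
    simp only [hF]
    linarith
  have hRge : ∀ i (z : ℝ × ℝ), ‖z - zs‖ ≤ t1 * a → ∀ h ∈ W i, F z h ≤ R i z := by
    intro i z hz h hh
    refine le_csSup ⟨P' z + δ', ?_⟩ ⟨h, hh, rfl⟩
    rintro _ ⟨h', hh', rfl⟩
    exact hFP i z hz h' hh'
  have hRle : ∀ i (z : ℝ × ℝ) (X : ℝ), (∀ h ∈ W i, F z h ≤ X) → R i z ≤ X := by
    intro i z X hX
    refine csSup_le ⟨_, _, hWc i, rfl⟩ ?_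
    rintro _ ⟨h', hh', rfl⟩
    exact hX h' hh'
  -- Lipschitz property of `R`
  have hRlip : ∀ i w w', ‖w - zs‖ ≤ t1 * a → ‖w' - zs‖ ≤ t1 * a →
      R i w' - R i w ≤ cvL n i (w' - w) + (e + 2 * δ / (t2 * a) + 8 * n ^ 2 * a) * ‖w' - w‖ := by
    intro i w w' hw hw'
    rw [sub_le_iff_le_add']
    refine hRle i w' _ (fun h hh => ?_)
    have h1 := hRge i w hw h hh
    obtain ⟨m0, m1⟩ := cv_M_bounds hn i
    set y : ℝ × ℝ := zs + (0, b * a * cvM n i) with hy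
    have hy0 : ‖y - z0‖ ≤ 3 / 2 * (n * a) := by
      have : y - z0 = (-(b * a * n / 2), b * a * (cvM n i - 1 / 2)) := by
        rw [hy, hzs]; ext <;> simp; ring
      rw [this, norm_prod_le_iff]
      simp only [Real.norm_eq_abs, abs_neg]
      constructor
      · rw [abs_of_nonneg (by positivity)]; linarith
      · rw [abs_mul, abs_of_nonneg (by positivity : 0 ≤ b * a)]
        have h2 : |cvM n i - 1 / 2| ≤ n := abs_le.2 ⟨by linarith, by linarith⟩
        have h3 : b * |cvM n i - 1 / 2| ≤ 3 / 2 * n := mul_le_mul hb2 h2 (abs_nonneg _) (by norm_num)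
        have := mul_le_mul_of_nonneg_right h3 ha.le
        linarith
    have hnear : ∀ v : ℝ × ℝ, ‖v - zs‖ ≤ t1 * a →
        ‖((v.1, v.2 + h) : ℝ × ℝ) - y‖ ≤ t1 * a + t2 * a := by
      intro v hv
      have : ((v.1, v.2 + h) : ℝ × ℝ) - y = (v - zs) + (0, h - b * a * cvM n i) := by
        rw [hy]; ext <;> simp; ring
      rw [this]
      refine (norm_add_le _ _).trans ?_
      have h2 : ‖((0 : ℝ), h - b * a * cvM n i)‖ = |h - b * a * cvM n i| := by
        simp [Prod.norm_def]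
      have h3 : |h - b * a * cvM n i| ≤ t2 * a := hh
      linarith
    have h2 := cv_convex_lip (Q := Q i) (n := n) (i := i) (y := y) (ρ := t1 * a + t2 * a)
      (s := t2 * a) (δ := δ) (e := e) hP (by positivity) (fun v hv => by
        have hv0 : ‖v - z0‖ ≤ 2 * (n * a) := by
          calc ‖v - z0‖ = ‖(v - y) + (y - z0)‖ := by congr 1; abel
            _ ≤ ‖v - y‖ + ‖y - z0‖ := norm_add_le _ _
            _ ≤ 2 * (n * a) := by linarith
        have hvr : ‖v - z0‖ ≤ r := by linarith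
        refine ⟨⟨by have := (hU v hvr).2.1; simp only [Set.mem_Ioi]; linarith, trivial⟩, ?_⟩
        obtain ⟨lo, j, hj⟩ := hPQ v hvr
        have hji : Q j v ≤ Q i v := by
          by_cases hij : i = j
          · rw [hij]
          have s1 := hQ1 j v
          have s2 := hQ2 i v
          have s3 := cv_M_sep hn hij
          have s4 : cvL n i (v - z0) - cvL n j (v - z0) = (cvL n i (v - y) - cvL n j (v - y))
              + b * a * (cvM n i - cvM n j) ^ 2 / 2 := by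
            rw [hLs, hLs, hy]
            simp [cvL]
            ring
          have s5 := (abs_le.1 (cv_abs_L_sub hn i j (v - y))).1
          have s6 : 2 * n * ‖v - y‖ ≤ a / 8 := by
            have : 2 * n * ‖v - y‖ ≤ 2 * n * (t1 * a + t2 * a + t2 * a) :=
              mul_le_mul_of_nonneg_left hv (by positivity)
            linarith
          have s7 : 2 * (e * ‖v - z0‖) ≤ a / 8 := by
            have : e * ‖v - z0‖ ≤ eb * (2 * (n * a)) :=
              mul_le_mul heb hv0 (norm_nonneg _) (by linarith)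
            linarith
          have s8 : a / 4 ≤ b * a * (cvM n i - cvM n j) ^ 2 / 2 := by
            have : 1 / 2 * 1 ≤ b * (cvM n i - cvM n j) ^ 2 :=
              mul_le_mul hb1 s3 (by norm_num) (by linarith)
            have := mul_le_mul_of_nonneg_right this ha.le
            linarith
          linarith
        exact abs_le.2 ⟨by linarith [lo i], by linarith⟩)
      (hQ i) (hnear w hw) (hnear w' hw')
    have h3 : ((w'.1, w'.2 + h) : ℝ × ℝ) - (w.1, w.2 + h) = w' - w := by ext <;> simp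
    rw [h3] at h2
    obtain ⟨-, w1, -⟩ := hU w ((hB w hw).trans (by linarith))
    obtain ⟨-, w1', -⟩ := hU w' ((hB w' hw').trans (by linarith))
    have h4 : h ^ 2 / (2 * w.1 * a) - h ^ 2 / (2 * w'.1 * a) ≤ 8 * n ^ 2 * a * ‖w' - w‖ := by
      have e1 : h ^ 2 / (2 * w.1 * a) - h ^ 2 / (2 * w'.1 * a)
          = h ^ 2 * (w'.1 - w.1) / (2 * a * (w.1 * w'.1)) := by
        have : w.1 ≠ 0 := by positivity
        have : w'.1 ≠ 0 := by positivity
        field_simp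
      rw [e1, div_le_iff₀ (by positivity)]
      have e2 : h ^ 2 ≤ (2 * (n * a)) ^ 2 := by
        rw [← sq_abs]; exact pow_le_pow_left₀ (abs_nonneg _) (hWabs i h hh) 2
      have e3 : w'.1 - w.1 ≤ ‖w' - w‖ := (le_abs_self _).trans (norm_fst_le (w' - w))
      have e4 : h ^ 2 * (w'.1 - w.1) ≤ (2 * (n * a)) ^ 2 * ‖w' - w‖ :=
        (mul_le_mul_of_nonneg_left e3 (sq_nonneg h)).trans
          (mul_le_mul_of_nonneg_right e2 (norm_nonneg _))
      have e5 : 1 / 2 * (1 / 2) ≤ w.1 * w'.1 := mul_le_mul w1 w1' (by norm_num) (by linarith)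
      have e6 : 16 * (n * a) ^ 2 * ‖w' - w‖ * (1 / 2 * (1 / 2))
          ≤ 16 * (n * a) ^ 2 * ‖w' - w‖ * (w.1 * w'.1) :=
        mul_le_mul_of_nonneg_left e5 (by positivity)
      linarith
    simp only [hF] at h1 ⊢
    linarith
  have hzszs : ‖zs - zs‖ ≤ t1 * a := by simp; positivity
  have hn3 : n ^ 3 * a ^ 2 ≤ n ^ 3 * θ ^ 2 * a := by
    have : n ^ 3 * a * a ≤ n ^ 3 * θ ^ 2 * a := by gcongr
    linarith
  have hea : e * (n * a) ≤ eb * (n * a) := mul_le_mul_of_nonneg_right heb hna.le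
  -- values at the centre
  have hRc : ∀ i, |R i zs - p| ≤ t1 * a / 24 := by
    intro i
    obtain ⟨-, w1, w2⟩ := hU zs (hzs0.trans (by linarith))
    have c6' := mul_le_mul_of_nonneg_right c6 ha.le
    rw [abs_le]
    constructor
    · have h1 := hRge i zs hzszs _ (hWc i)
      have h0 := hWabs i _ (hWc i)
      have h2 := Flo zs (b * a * cvM n i) (hB zs hzszs) (h0.trans (by linarith)) i
      rw [hLs, add_sub_assoc _ (cvM n i * _), cv_sq_id (by positivity) ha.ne'] at h2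
      obtain ⟨m0, m1⟩ := cv_M_bounds hn i
      have h6 : |zs.1 - b| ≤ n * a := (norm_fst_le (zs - z0)).trans (hB zs hzszs)
      have h5 : -((n * a) * (a * n ^ 2)) ≤ (zs.1 - b) * (a * cvM n i ^ 2) := by
        have h7 : (b - zs.1) * (a * cvM n i ^ 2) ≤ (n * a) * (a * n ^ 2) := by
          refine mul_le_mul (by linarith [(abs_le.1 h6).1]) ?_ (by positivity) hna.le
          gcongr
        linarith
      have h8 : (b * a * cvM n i - zs.1 * a * cvM n i) ^ 2 / (2 * zs.1 * a)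
          ≤ n ^ 3 * a ^ 2 / 2 := by
        rw [div_le_iff₀ (by positivity)]
        have e1 : (b * a * cvM n i - zs.1 * a * cvM n i) ^ 2
            = (zs.1 - b) ^ 2 * (a ^ 2 * cvM n i ^ 2) := by ring
        have e2 : (zs.1 - b) ^ 2 ≤ (n * a) ^ 2 := by
          rw [← sq_abs]; exact pow_le_pow_left₀ (abs_nonneg _) h6 2
        have e3 : (zs.1 - b) ^ 2 * (a ^ 2 * cvM n i ^ 2) ≤ (n * a) ^ 2 * (a ^ 2 * n ^ 2) := by
          gcongr
        have e4 : n ^ 3 * a ^ 3 * (n * a) ≤ n ^ 3 * a ^ 3 * zs.1 :=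
          mul_le_mul_of_nonneg_left (by linarith) (by positivity)
        rw [e1]
        linarith
      have h9 : e * (n * a + |b * a * cvM n i|) ≤ e * (3 * (n * a)) :=
        mul_le_mul_of_nonneg_left (by linarith) he0
      have h10 : cvL n i (zs - zs) = 0 := by simp [cvL]
      rw [h10] at h2
      linarith
    · rw [sub_le_iff_le_add']
      refine hRle i zs _ (fun h hh => ?_)
      have h0 := hWabs i h hh
      obtain ⟨j, hj⟩ := Fup zs h hzszs (h0.trans (by linarith))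
      have h10 : cvL n j (zs - zs) = 0 := by simp [cvL]
      rw [h10] at hj
      have h9 : e * (n * a + |h|) ≤ e * (3 * (n * a)) :=
        mul_le_mul_of_nonneg_left (by linarith) he0
      have h8 : 0 ≤ (h - zs.1 * a * cvM n j) ^ 2 / (2 * zs.1 * a) := by positivity
      have h7 : 0 ≤ n ^ 3 * a ^ 2 := by positivity
      linarith
  have heb12 : e + 2 * δ / (t2 * a) + 8 * n ^ 2 * a ≤ 1 / 12 := by linarith
  obtain ⟨Q', z1, p', k1, k2, k3, k4⟩ := cv_triple hn R (c := zs) (ρ := t1 * a) (p := p)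
    (by positivity) (by positivity) heb12 hRlip hRc
  have hz1 : ‖z1 - z0‖ + t1 * a / 2 ≤ n * a := by
    have : ‖z1 - z0‖ ≤ ‖z1 - zs‖ + ‖zs - z0‖ := by
      calc ‖z1 - z0‖ = ‖(z1 - zs) + (zs - z0)‖ := by congr 1; abel
        _ ≤ _ := norm_add_le _ _
    linarith
  refine ⟨z1, ⟨?_, Q', p', k1, k2, fun w hw => ?_⟩, hz1⟩
  · have : ‖z1 - (1, 0)‖ ≤ ‖z1 - z0‖ + ‖z0 - (1, 0)‖ := by
      calc ‖z1 - (1, 0)‖ = ‖(z1 - z0) + (z0 - (1, 0))‖ := by congr 1; abel
        _ ≤ _ := norm_add_le _ _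
    linarith
  have hwB : ‖w - zs‖ ≤ t1 * a := by
    calc ‖w - zs‖ = ‖(w - z1) + (z1 - zs)‖ := by congr 1; abel
      _ ≤ ‖w - z1‖ + ‖z1 - zs‖ := norm_add_le _ _
      _ ≤ t1 * a := by linarith
  have hw0 := hB w hwB
  obtain ⟨hwθ, w1, w2⟩ := hU w (hw0.trans (by linarith))
  constructor
  · intro i
    rw [k3 i w hwB, sub_le_iff_le_add]
    exact hRle i w _ (hFP i w hwB)
  · obtain ⟨h, hh, hP'⟩ := hup w hwθ
    have hP'' : P' w ≤ F w h + δ' := hP'
    by_cases hin : ∃ i, h ∈ W i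
    · obtain ⟨i, hi⟩ := hin
      refine ⟨i, ?_⟩
      rw [k3 i w hwB]
      linarith [hRge i w hwB h hi]
    refine ⟨0, ?_⟩
    rw [k3 0 w hwB]
    have h0W : (0 : ℝ) ∈ W 0 := by simpa [cvM] using hWc 0
    have h1 := hRge 0 w hwB 0 h0W
    have h2 := Flo w 0 hw0 (by simp; linarith) 0
    have h3 : cvL n 0 (w - z0) = 0 := by simp [cvL, cvC, cvM]
    simp only [h3, mul_zero, add_zero, abs_zero, ne_eq, OfNat.ofNat_ne_zero, not_false_eq_true,
      zero_pow, zero_div, sub_zero] at h2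
    obtain ⟨j, hj⟩ := Fup w h hwB (hh.trans hH)
    obtain ⟨m0, m1⟩ := cv_M_bounds hn j
    have hout : t2 * a < |h - b * a * cvM n j| := by
      by_contra hc
      exact hin ⟨j, not_lt.1 hc⟩
    set d := |h - w.1 * a * cvM n j| with hd
    have h6 : |w.1 - b| ≤ n * a := (norm_fst_le (w - z0)).trans hw0
    have h4 : t2 * a / 2 ≤ d := by
      have e1 : h - b * a * cvM n j = (h - w.1 * a * cvM n j) + (w.1 - b) * (a * cvM n j) := by ring
      have e2 := abs_add_le (h - w.1 * a * cvM n j) ((w.1 - b) * (a * cvM n j))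
      rw [← e1, abs_mul, abs_of_nonneg (by positivity : 0 ≤ a * cvM n j)] at e2
      have e3 : |w.1 - b| * (a * cvM n j) ≤ (n * a) * (a * n) := by gcongr
      have e4 : n ^ 2 * a * a ≤ n ^ 2 * θ ^ 2 * a := by gcongr
      have e5 := mul_le_mul_of_nonneg_right c3 ha.le
      linarith
    have h5 := cv_far (β := w.1) (e := e) ha (by linarith) w2 t2_pos (by linarith) h4
    rw [hd, sq_abs, ← hd] at h5
    have h7 : |h| ≤ d + 3 / 2 * (n * a) := by
      have e2 := abs_add_le (h - w.1 * a * cvM n j) (w.1 * a * cvM n j)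
      rw [sub_add_cancel, abs_of_nonneg (by positivity : 0 ≤ w.1 * a * cvM n j)] at e2
      have : w.1 * cvM n j ≤ 3 / 2 * n := mul_le_mul w2 m1 m0 (by norm_num)
      have := mul_le_mul_of_nonneg_right this ha.le
      linarith
    have h8 : e * (n * a + |h|) ≤ e * (n * a + (d + 3 / 2 * (n * a))) :=
      mul_le_mul_of_nonneg_left (by linarith) he0
    have h9 : cvL n j (w - zs) ≤ 2 * n * (t1 * a) :=
      ((le_abs_self _).trans (cv_abs_L hn j _)).trans
        (mul_le_mul_of_nonneg_left hwB (by positivity))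
    have c5' := mul_le_mul_of_nonneg_right c5 ha.le
    linarith

end Crest.Agent.R149
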