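import Crest.Agent.R149.Defs
import Crest.Agent.R149.ConvexStep

/-! Row 149: the planar convex-analysis induction producing a triple point. -/

set_option autoImplicit false

namespace Crest.Agent.R149

open MeasureTheory Filter Topology Crest.ProbabilityR.Continuum

lemma cv_Vmax_ge (n : ℝ) (i : Fin 3) (z : ℝ × ℝ) : cvL n i z ≤ Vmax n z := by
  fin_cases i <;> simp [cvL, cvC, cvM, Vmax]

lemma cv_Vmax_eq (n : ℝ) (z : ℝ × ℝ) : ∃ i, Vmax n z = cvL n i z := by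
  unfold Vmax
  rcases max_choice 0 (max z.2 ((n - 1) * z.1 + n * z.2)) with h | h
  · exact ⟨0, by rw [h]; simp [cvL, cvC, cvM]⟩
  · rcases max_choice z.2 ((n - 1) * z.1 + n * z.2) with h' | h'
    · exact ⟨1, by rw [h, h']; simp [cvL, cvC, cvM]⟩
    · exact ⟨2, by rw [h, h']; simp [cvL, cvC, cvM]⟩

lemma cv_sum_alpha {θ : ℝ} (hθ0 : 0 < θ) (hθ : θ ≤ 1 / 2) {α : ℕ → ℝ} (hα : ∀ k, 0 < α k)
    (h0 : α 0 ≤ θ ^ 2) (hs : ∀ k, α (k + 1) ≤ θ * α k) (K : ℕ) :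
    ∑ k ∈ Finset.range K, α k + 2 * α K ≤ 2 * θ ^ 2 := by
  induction K with
  | zero => simpa using h0
  | succ K ih =>
    rw [Finset.sum_range_succ]
    have h1 := hs K
    have h2 : θ * α K ≤ 1 / 2 * α K := mul_le_mul_of_nonneg_right hθ (hα K).le
    linarith

/-- One level of the invariant gives an approximate subgradient inequality for the limit. -/
lemma cv_limit_level {n θ δ r e ω a : ℝ} (hn : 2 ≤ n) {P Pinf : ℝ × ℝ → ℝ}
    (hPinf : ConvexOn ℝ (Set.Ioi 0 ×ˢ Set.univ) Pinf) (hθ : θ ≤ 1 / 2) {z0 z : ℝ × ℝ}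
    (hI : CvInv n θ P δ z0 r e) (hr0 : 0 < r) (he0 : 0 ≤ e) (he : e ≤ 1 / 20)
    (hz : ‖z - z0‖ ≤ n * a) (hr : 4 * n * a ≤ r)
    (hω : ∀ z : ℝ × ℝ, dist z (1, 0) ≤ θ → |Pinf z - P z| ≤ ω)
    (w : ℝ × ℝ) (hw : 0 < z.1 + w.1) (i : Fin 3) :
    Pinf z + cvL n i w - ‖w‖ / 20 - 2 * (‖w‖ + 1) / r * (6 * n ^ 2 * a + 2 * δ + 2 * ω)
      ≤ Pinf (z + w) := by
  obtain ⟨hbox, Q, p, hQ, hQp, hPQ⟩ := hI
  have hw0 := norm_nonneg w
  have hna : 0 ≤ n * a := (norm_nonneg _).trans hz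
  have hU : ∀ w : ℝ × ℝ, ‖w - z0‖ ≤ r → dist w (1, 0) ≤ θ ∧ 1 / 2 ≤ w.1 := by
    intro w hw
    have h1 : ‖w - (1, 0)‖ ≤ θ := by
      calc ‖w - (1, 0)‖ = ‖(w - z0) + (z0 - (1, 0))‖ := by congr 1; abel
        _ ≤ ‖w - z0‖ + ‖z0 - (1, 0)‖ := norm_add_le _ _
        _ ≤ θ := by linarith
    have h2 : |w.1 - 1| ≤ ‖w - (1, 0)‖ := norm_fst_le (w - (1, 0))
    have h3 := abs_le.1 (h2.trans h1)
    exact ⟨by rwa [dist_eq_norm], by linarith [h3.1]⟩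
  set τ := r / (2 * (‖w‖ + 1)) with hτ
  have hτ0 : 0 < τ := by positivity
  have hτr : τ * (2 * (‖w‖ + 1)) = r := by rw [hτ]; field_simp
  have hr1 : r ≤ 1 / 2 := by linarith [norm_nonneg (z0 - (1, 0))]
  have hτw : 0 ≤ τ * ‖w‖ := by positivity
  have hτ1 : τ ≤ 1 := by linarith
  have hzr : ‖z - z0‖ ≤ r := by linarith
  have hzτ : ‖z + τ • w - z0‖ ≤ r := by
    calc ‖z + τ • w - z0‖ = ‖(z - z0) + τ • w‖ := by congr 1; abel
      _ ≤ ‖z - z0‖ + ‖τ • w‖ := norm_add_le _ _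
      _ ≤ r := by rw [norm_smul, Real.norm_eq_abs, abs_of_pos hτ0]; linarith
  obtain ⟨d1, d2⟩ := hU z hzr
  obtain ⟨d3, -⟩ := hU _ hzτ
  have a1 := (abs_le.1 (hω z d1)).2
  have a2 := (abs_le.1 (hω _ d3)).1
  obtain ⟨j, a3⟩ := (hPQ z hzr).2
  have a4 := (hPQ _ hzτ).1 i
  have a5 := hQ j z0 z
  have a6 := hQ i z z0
  rw [hQp] at a5 a6
  rw [norm_sub_rev] at a6
  have a7 := (abs_le.1 (cv_abs_L hn j (z - z0))).2
  have a8 := (abs_le.1 (cv_abs_L hn i (z0 - z))).2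
  rw [norm_sub_rev] at a8
  have a9 := hQ i (z + τ • w) z
  have e1 : z - (z + τ • w) = (-τ) • w := by rw [neg_smul]; abel
  rw [e1, cv_L_smul, norm_smul, Real.norm_eq_abs, abs_neg, abs_of_pos hτ0] at a9
  have a10 : e * (τ * ‖w‖) ≤ 1 / 20 * (τ * ‖w‖) := mul_le_mul_of_nonneg_right he hτw
  have a11 : e * ‖z - z0‖ ≤ n * (n * a) := mul_le_mul (by linarith) hz (norm_nonneg _) (by linarith)
  have a12 : 2 * n * ‖z - z0‖ ≤ 2 * n * (n * a) := mul_le_mul_of_nonneg_left hz (by linarith)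
  have b1 := hPinf.2 (x := z) ⟨by simp only [Set.mem_Ioi]; linarith, trivial⟩ (y := z + w)
    ⟨by simpa using hw, trivial⟩ (show 0 ≤ 1 - τ by linarith) hτ0.le (by ring)
  have e2 : (1 - τ) • z + τ • (z + w) = z + τ • w := by
    rw [smul_add, sub_smul, one_smul]; abel
  rw [e2, smul_eq_mul, smul_eq_mul] at b1
  have b2 : τ * (Pinf z + cvL n i w - ‖w‖ / 20) - (6 * n ^ 2 * a + 2 * δ + 2 * ω)
      ≤ τ * Pinf (z + w) := by linarith
  have b3 : τ * (2 * (‖w‖ + 1) / r) = 1 := by rw [hτ]; field_simp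
  refine le_of_mul_le_mul_left ?_ hτ0
  have b4 : τ * (Pinf z + cvL n i w - ‖w‖ / 20 -
      2 * (‖w‖ + 1) / r * (6 * n ^ 2 * a + 2 * δ + 2 * ω))
      = τ * (Pinf z + cvL n i w - ‖w‖ / 20)
        - (τ * (2 * (‖w‖ + 1) / r)) * (6 * n ^ 2 * a + 2 * δ + 2 * ω) := by ring
  rw [b4, b3, one_mul]
  exact b2

theorem triple_point (n : ℝ) (hn : 2 ≤ n) : ∃ θ : ℝ, 0 < θ ∧ θ ≤ 1 / 2 ∧
    ∀ (P : ℕ → ℝ × ℝ → ℝ) (Pinf : ℝ × ℝ → ℝ) (α δ H ω : ℕ → ℝ),
      (∀ k, ConvexOn ℝ (Set.Ioi 0 ×ˢ Set.univ) (P k)) →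
      ConvexOn ℝ (Set.Ioi 0 ×ˢ Set.univ) Pinf →
      (∀ k, 0 < α k) → (∀ k, 0 ≤ δ k) →
      α 0 ≤ θ ^ 2 → (∀ k, α (k + 1) ≤ θ * α k) →
      H 0 ≤ θ / 2 → (∀ k, H (k + 1) ≤ θ * α k) →
      (∀ K, ∑ k ∈ Finset.range K, δ k / α k ≤ θ) →
      (∀ z : ℝ × ℝ, dist z (1, 0) ≤ θ → |P 0 z - Vmax n (z - (1, 0))| ≤ δ 0) →
      (∀ k, ∀ z : ℝ × ℝ, dist z (1, 0) ≤ θ → ∃ h : ℝ, |h| ≤ H k ∧
        P (k + 1) z ≤ P k (z.1, z.2 + h) - h ^ 2 / (2 * z.1 * α k) + δ (k + 1)) →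
      (∀ k, ∀ z : ℝ × ℝ, dist z (1, 0) ≤ θ → ∀ h : ℝ, |h| ≤ θ →
        P k (z.1, z.2 + h) - h ^ 2 / (2 * z.1 * α k) - δ (k + 1) ≤ P (k + 1) z) →
      (∀ k, ∀ z : ℝ × ℝ, dist z (1, 0) ≤ θ → |Pinf z - P (k + 1) z| ≤ ω k) →
      Tendsto (fun k => (ω k + δ (k + 1) + α (k + 1)) / α k) atTop (𝓝 0) →
      ∃ z : ℝ × ℝ, dist z (1, 0) ≤ θ ∧ ∀ w : ℝ × ℝ, 0 < z.1 + w.1 →
        Pinf z + Vmax n w - ‖w‖ / 20 ≤ Pinf (z + w) := by
  obtain ⟨t1, t2, eb, θ, K⟩ := cv_exists_K hn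
  have hθ0 := K.θ_pos
  have hθ := K.θ_le
  have ht1 := K.t1_pos
  have ht2 := K.t2_pos
  have hn0 : 0 < n := by linarith
  refine ⟨θ, hθ0, hθ, ?_⟩
  intro P Pinf α δ H ω hP hPinf hα hδ hα0 hαs hH0 hHs hsum hP0 hup hlo hω hlim
  set r : ℕ → ℝ := fun k => Nat.casesOn k θ (fun j => t1 * α j / 2) with hr
  set e : ℕ → ℝ := fun k => ∑ j ∈ Finset.range k, (2 * δ j / (t2 * α j) + 8 * n ^ 2 * α j) with he
  have hαθ : ∀ k, α k ≤ θ ^ 2 := by
    intro k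
    have h1 := cv_sum_alpha hθ0 hθ hα hα0 hαs k
    have h2 : 0 ≤ ∑ j ∈ Finset.range k, α j := Finset.sum_nonneg (fun j _ => (hα j).le)
    linarith
  have hδθ : ∀ k, δ k ≤ θ * α k := by
    intro k
    have h1 := hsum (k + 1)
    rw [Finset.sum_range_succ] at h1
    have h2 : 0 ≤ ∑ j ∈ Finset.range k, δ j / α j :=
      Finset.sum_nonneg (fun j _ => div_nonneg (hδ j) (hα j).le)
    rw [← div_le_iff₀ (hα k)]
    linarith
  have he0 : ∀ k, 0 ≤ e k := fun k => Finset.sum_nonneg (fun j _ => by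
    have := hα j
    have := hδ j
    positivity)
  have heb : ∀ k, e k ≤ eb := by
    intro k
    refine le_trans ?_ K.c8
    have h1 : e k = 2 / t2 * ∑ j ∈ Finset.range k, δ j / α j
        + 8 * n ^ 2 * ∑ j ∈ Finset.range k, α j := by
      simp only [he]
      rw [Finset.sum_add_distrib, Finset.mul_sum, Finset.mul_sum]
      congr 1
      refine Finset.sum_congr rfl (fun j _ => ?_)
      have := (hα j).ne'
      field_simp
    have h2 := cv_sum_alpha hθ0 hθ hα hα0 hαs k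
    have h3 : ∑ j ∈ Finset.range k, α j ≤ 2 * θ ^ 2 := by linarith [hα k]
    have h4 : 2 / t2 * ∑ j ∈ Finset.range k, δ j / α j ≤ 2 / t2 * θ :=
      mul_le_mul_of_nonneg_left (hsum k) (by positivity)
    have h5 : 8 * n ^ 2 * ∑ j ∈ Finset.range k, α j ≤ 8 * n ^ 2 * (2 * θ ^ 2) :=
      mul_le_mul_of_nonneg_left h3 (by positivity)
    have h6 : 2 / t2 * θ = 2 * θ / t2 := by ring
    linarith
  have hes : ∀ k, e (k + 1) = e k + 2 * δ k / (t2 * α k) + 8 * n ^ 2 * α k := by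
    intro k
    simp only [he]
    rw [Finset.sum_range_succ, add_assoc]
  have ht1' : t1 ≤ 1 / 32 := by nlinarith [K.c1]
  have hc7 := K.c7
  have hnθ : 2 * θ ≤ n * θ := mul_le_mul_of_nonneg_right hn hθ0.le
  have hr0 : ∀ k, 0 < r k := by
    intro k
    cases k with
    | zero => exact hθ0
    | succ k => have := hα k; simp only [hr]; positivity
  have hrα : ∀ k, 4 * n * α k ≤ r k := by
    intro k
    cases k with
    | zero =>
      have h1 : 4 * n * α 0 ≤ 4 * n * θ ^ 2 := mul_le_mul_of_nonneg_left hα0 (by positivity)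
      have h2 : 4 * n * θ * θ ≤ 1 * θ := mul_le_mul_of_nonneg_right (by linarith) hθ0.le
      change _ ≤ θ
      linarith
    | succ k =>
      have h1 : 4 * n * α (k + 1) ≤ 4 * n * (θ * α k) :=
        mul_le_mul_of_nonneg_left (hαs k) (by positivity)
      have h2 := mul_le_mul_of_nonneg_right hc7 (hα k).le
      simp only [hr]
      linarith
  have hrH : ∀ k, H k ≤ r k / 2 := by
    intro k
    cases k with
    | zero => exact hH0
    | succ k =>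
      have h2 : θ * α k ≤ t1 / 4 * α k := mul_le_mul_of_nonneg_right (by linarith) (hα k).le
      simp only [hr]
      linarith [hHs k]
  have base : CvInv n θ (P 0) (δ 0) (1, 0) (r 0) (e 0) := by
    refine ⟨by simp [hr], fun i w => cvL n i (w - (1, 0)), 0, fun i w w' => ?_, fun i => ?_,
      fun w hw => ?_⟩
    · simp [he, cv_L_sub]
    · simp [cvL]
    · have h1 := abs_le.1 (hP0 w (by rw [dist_eq_norm]; exact hw))
      refine ⟨fun i => by linarith [cv_Vmax_ge n i (w - (1, 0)), h1.1], ?_⟩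
      obtain ⟨i, hi⟩ := cv_Vmax_eq n (w - (1, 0))
      exact ⟨i, by linarith [h1.2]⟩
  have step : ∀ k (x : {x // CvInv n θ (P k) (δ k) x (r k) (e k)}),
      ∃ y : {y // CvInv n θ (P (k + 1)) (δ (k + 1)) y (r (k + 1)) (e (k + 1))},
        ‖y.1 - x.1‖ + r (k + 1) ≤ n * α k := by
    intro k x
    obtain ⟨z1, h1, h2⟩ := cv_step K (hP k) (hα k) (hαθ k) (hδ k) (hδθ k) (hrH k) (hrα k) (he0 k)
      (by rw [← hes]; exact heb _) (hup k) (hlo k) x.2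
    exact ⟨⟨z1, by rw [hes]; exact h1⟩, h2⟩
  choose f hf using step
  let seq : ∀ k, {x // CvInv n θ (P k) (δ k) x (r k) (e k)} :=
    fun k => Nat.rec ⟨(1, 0), base⟩ (fun k x => f k x) k
  have hseq : ∀ k, ‖(seq (k + 1)).1 - (seq k).1‖ + r (k + 1) ≤ n * α k := fun k => hf k (seq k)
  have hsub : ∀ k (z : ℝ × ℝ), ‖z - (seq (k + 1)).1‖ ≤ r (k + 1) → ‖z - (seq k).1‖ ≤ n * α k := by
    intro k z hz
    calc ‖z - (seq k).1‖ = ‖(z - (seq (k + 1)).1) + ((seq (k + 1)).1 - (seq k).1)‖ := by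
          congr 1; abel
      _ ≤ ‖z - (seq (k + 1)).1‖ + ‖(seq (k + 1)).1 - (seq k).1‖ := norm_add_le _ _
      _ ≤ n * α k := by linarith [hseq k]
  obtain ⟨z, hz⟩ := IsCompact.nonempty_iInter_of_sequence_nonempty_isCompact_isClosed
    (fun k => Metric.closedBall (seq k).1 (r k))
    (fun k z hz => by
      rw [mem_closedBall_iff_norm] at hz ⊢
      have h1 := hsub k z hz
      have h2 : 0 < n * α k := mul_pos hn0 (hα k)
      linarith [hrα k])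
    (fun k => Metric.nonempty_closedBall.2 (hr0 k).le) (isCompact_closedBall _ _)
    (fun k => Metric.isClosed_closedBall)
  have hz' : ∀ k, ‖z - (seq k).1‖ ≤ r k := fun k =>
    mem_closedBall_iff_norm.1 (Set.mem_iInter.1 hz k)
  refine ⟨z, by rw [dist_eq_norm]; exact hz' 0, fun w hw => ?_⟩
  obtain ⟨i, hi⟩ := cv_Vmax_eq n w
  rw [hi]
  have heb20 : eb ≤ 1 / 20 := by
    have h1 : 0 ≤ eb := (he0 0).trans (heb 0)
    nlinarith [K.c2]
  have hlev : ∀ k, Pinf z + cvL n i w - ‖w‖ / 20 - (24 * n ^ 2 * (‖w‖ + 1) / t1) *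
      ((ω k + δ (k + 1) + α (k + 1)) / α k) ≤ Pinf (z + w) := by
    intro k
    have h1 := cv_limit_level hn hPinf hθ (seq (k + 1)).2 (hr0 (k + 1)) (he0 (k + 1))
      ((heb (k + 1)).trans heb20) (hsub (k + 1) z (hz' (k + 2))) (hrα (k + 1)) (hω k) w hw i
    refine le_trans ?_ h1
    have hω0 : 0 ≤ ω k := (abs_nonneg _).trans (hω k (1, 0) (by simpa using hθ0.le))
    have h2 : 6 * n ^ 2 * α (k + 1) + 2 * δ (k + 1) + 2 * ω k
        ≤ 6 * n ^ 2 * (ω k + δ (k + 1) + α (k + 1)) := by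
      have : 2 ≤ 6 * n ^ 2 := by nlinarith
      nlinarith [hδ (k + 1)]
    have h3 : (24 * n ^ 2 * (‖w‖ + 1) / t1) * ((ω k + δ (k + 1) + α (k + 1)) / α k)
        = 2 * (‖w‖ + 1) / r (k + 1) * (6 * n ^ 2 * (ω k + δ (k + 1) + α (k + 1))) := by
      have := (hα k).ne'
      simp only [hr]
      field_simp
      ring
    have h4 : 0 ≤ 2 * (‖w‖ + 1) / r (k + 1) := by have := hr0 (k + 1); positivity
    have h5 := mul_le_mul_of_nonneg_left h2 h4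
    linarith
  have ht := (tendsto_const_nhds (x := Pinf z + cvL n i w - ‖w‖ / 20)).sub
    (hlim.const_mul (24 * n ^ 2 * (‖w‖ + 1) / t1))
  rw [mul_zero, sub_zero] at ht
  exact le_of_tendsto' ht hlev

end Crest.Agent.R149
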