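import Mathlib

/-! Row 149: auxiliary lemmas for the planar convex-analysis induction. -/

set_option autoImplicit false

namespace Crest.Agent.R149

/-- First coefficients of the three linear forms. -/
noncomputable def cvC (n : ℝ) : Fin 3 → ℝ := ![0, 0, n - 1]

/-- Second coefficients of the three linear forms. -/
noncomputable def cvM (n : ℝ) : Fin 3 → ℝ := ![0, 1, n]

/-- The three linear forms. -/
noncomputable def cvL (n : ℝ) (i : Fin 3) (z : ℝ × ℝ) : ℝ := cvC n i * z.1 + cvM n i * z.2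

lemma cv_C_bounds {n : ℝ} (hn : 2 ≤ n) (i : Fin 3) : 0 ≤ cvC n i ∧ cvC n i ≤ n := by
  fin_cases i <;> simp [cvC] <;> linarith

lemma cv_M_bounds {n : ℝ} (hn : 2 ≤ n) (i : Fin 3) : 0 ≤ cvM n i ∧ cvM n i ≤ n := by
  fin_cases i <;> simp [cvM] <;> linarith

lemma cv_CM (n : ℝ) (i : Fin 3) : cvC n i * n + cvM n i = cvM n i ^ 2 := by
  fin_cases i <;> simp [cvC, cvM]; ring

lemma cv_M_sep {n : ℝ} (hn : 2 ≤ n) {i j : Fin 3} (hij : i ≠ j) : 1 ≤ (cvM n i - cvM n j) ^ 2 := by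
  fin_cases i <;> fin_cases j <;> simp [cvM, -one_le_sq_iff_one_le_abs] at hij ⊢ <;> nlinarith

lemma cv_L_sub (n : ℝ) (i : Fin 3) (x y : ℝ × ℝ) : cvL n i (x - y) = cvL n i x - cvL n i y := by
  simp [cvL]; ring

lemma cv_L_smul (n : ℝ) (i : Fin 3) (t : ℝ) (x : ℝ × ℝ) : cvL n i (t • x) = t * cvL n i x := by
  simp [cvL]; ring

lemma cv_abs_lin {a b n : ℝ} (ha : |a| ≤ n) (hb : |b| ≤ n) (z : ℝ × ℝ) :
    |a * z.1 + b * z.2| ≤ 2 * n * ‖z‖ := by
  have h1 : |z.1| ≤ ‖z‖ := norm_fst_le z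
  have h2 : |z.2| ≤ ‖z‖ := norm_snd_le z
  have hn : 0 ≤ n := (abs_nonneg a).trans ha
  calc |a * z.1 + b * z.2| ≤ |a| * |z.1| + |b| * |z.2| := by
        rw [← abs_mul, ← abs_mul]; exact abs_add_le _ _
    _ ≤ n * ‖z‖ + n * ‖z‖ := by gcongr
    _ = 2 * n * ‖z‖ := by ring

lemma cv_abs_L {n : ℝ} (hn : 2 ≤ n) (i : Fin 3) (z : ℝ × ℝ) : |cvL n i z| ≤ 2 * n * ‖z‖ := by
  obtain ⟨a, b⟩ := cv_C_bounds hn i
  obtain ⟨c, d⟩ := cv_M_bounds hn i
  exact cv_abs_lin (by rwa [abs_of_nonneg a]) (by rwa [abs_of_nonneg c]) z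

lemma cv_abs_L_sub {n : ℝ} (hn : 2 ≤ n) (i j : Fin 3) (z : ℝ × ℝ) :
    |cvL n i z - cvL n j z| ≤ 2 * n * ‖z‖ := by
  obtain ⟨a, b⟩ := cv_C_bounds hn i
  obtain ⟨c, d⟩ := cv_M_bounds hn i
  obtain ⟨a', b'⟩ := cv_C_bounds hn j
  obtain ⟨c', d'⟩ := cv_M_bounds hn j
  have : cvL n i z - cvL n j z = (cvC n i - cvC n j) * z.1 + (cvM n i - cvM n j) * z.2 := by
    simp [cvL]; ring
  rw [this]
  exact cv_abs_lin (abs_le.2 ⟨by linarith, by linarith⟩) (abs_le.2 ⟨by linarith, by linarith⟩) z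

/-- A convex function that is uniformly close to a Lipschitz perturbation of a linear form is
itself a Lipschitz perturbation of it on a smaller box. -/
lemma cv_convex_lip {U : Set (ℝ × ℝ)} {P Q : ℝ × ℝ → ℝ} (hP : ConvexOn ℝ U P) {n : ℝ} {i : Fin 3}
    {y : ℝ × ℝ} {ρ s δ e : ℝ} (hs : 0 < s)
    (hbox : ∀ w, ‖w - y‖ ≤ ρ + s → w ∈ U ∧ |P w - Q w| ≤ δ)
    (hQ : ∀ w w', Q w' - Q w ≤ cvL n i (w' - w) + e * ‖w' - w‖)
    {w w' : ℝ × ℝ} (hw : ‖w - y‖ ≤ ρ) (hw' : ‖w' - y‖ ≤ ρ) :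
    P w' - P w ≤ cvL n i (w' - w) + (e + 2 * δ / s) * ‖w' - w‖ := by
  by_cases hd : w' - w = 0
  · rw [hd, sub_eq_zero.1 hd]
    simp [cvL]
  set d := ‖w' - w‖ with hdd
  have hd0 : 0 < d := norm_pos_iff.2 hd
  set w'' := w' + (s / d) • (w' - w) with hw''
  have h1 : w'' - w' = (s / d) • (w' - w) := by rw [hw'']; abel
  have h2 : ‖w'' - w'‖ = s := by
    rw [h1, norm_smul, Real.norm_eq_abs, abs_of_pos (by positivity), ← hdd]
    field_simp
  have h3 : ‖w'' - y‖ ≤ ρ + s := by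
    calc ‖w'' - y‖ = ‖(w' - y) + (w'' - w')‖ := by congr 1; abel
      _ ≤ ‖w' - y‖ + ‖w'' - w'‖ := norm_add_le _ _
      _ ≤ ρ + s := by linarith
  obtain ⟨u0, -⟩ := hbox w (by linarith)
  obtain ⟨-, v1⟩ := hbox w' (by linarith)
  obtain ⟨u2, v2⟩ := hbox w'' h3
  have hds : 0 < d + s := by positivity
  have h4 := hP.2 u0 u2 (show 0 ≤ s / (d + s) by positivity) (show 0 ≤ d / (d + s) by positivity)
    (by field_simp; ring)
  have h5 : (s / (d + s)) • w + (d / (d + s)) • w'' = w' := by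
    rw [hw'']
    ext <;> simp <;> field_simp <;> ring
  rw [h5, smul_eq_mul, smul_eq_mul] at h4
  have h6 : (d + s) * P w' ≤ s * P w + d * P w'' := by
    have := mul_le_mul_of_nonneg_left h4 hds.le
    have e1 : (d + s) * (s / (d + s) * P w + d / (d + s) * P w'') = s * P w + d * P w'' := by
      field_simp
    linarith
  have h7 := hQ w' w''
  rw [h2, h1, cv_L_smul] at h7
  have h8 : P w'' - P w' ≤ s / d * cvL n i (w' - w) + e * s + 2 * δ := by
    linarith [(abs_le.1 v1).1, (abs_le.1 v2).2]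
  have h9 : s * (P w' - P w) ≤ d * (s / d * cvL n i (w' - w) + e * s + 2 * δ) := by
    have := mul_le_mul_of_nonneg_left h8 hd0.le
    linarith
  have h10 : d * (s / d * cvL n i (w' - w) + e * s + 2 * δ)
      = s * (cvL n i (w' - w) + (e + 2 * δ / s) * d) := by field_simp; ring
  rw [h10] at h9
  exact le_of_mul_le_mul_left h9 hs

/-- Extension to the whole plane and an exact triple point. -/
lemma cv_triple {n : ℝ} (hn : 2 ≤ n) (R : Fin 3 → ℝ × ℝ → ℝ) {c : ℝ × ℝ} {ρ e p : ℝ}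
    (hρ : 0 ≤ ρ) (he0 : 0 ≤ e) (he : e ≤ 1 / 12)
    (hR : ∀ i w w', ‖w - c‖ ≤ ρ → ‖w' - c‖ ≤ ρ →
      R i w' - R i w ≤ cvL n i (w' - w) + e * ‖w' - w‖)
    (hp : ∀ i, |R i c - p| ≤ ρ / 24) :
    ∃ (Q : Fin 3 → ℝ × ℝ → ℝ) (z : ℝ × ℝ) (p' : ℝ),
      (∀ i w w', Q i w' - Q i w ≤ cvL n i (w' - w) + e * ‖w' - w‖) ∧ (∀ i, Q i z = p') ∧
      (∀ i w, ‖w - c‖ ≤ ρ → Q i w = R i w) ∧ ‖z - c‖ ≤ ρ / 2 := by
  have hext : ∀ i, ∃ E : ℝ × ℝ → ℝ, (∀ x y, E x ≤ E y + e * ‖x - y‖) ∧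
      ∀ w, ‖w - c‖ ≤ ρ → R i w - cvL n i (w - c) = E w := by
    intro i
    have h1 : LipschitzOnWith (⟨e, he0⟩ : NNReal) (fun w => R i w - cvL n i (w - c))
        {w | ‖w - c‖ ≤ ρ} := by
      refine LipschitzOnWith.of_le_add_mul _ (fun x hx y hy => ?_)
      have := hR i y x hy hx
      rw [dist_eq_norm]
      change _ ≤ _ + e * _
      simp only [cv_L_sub] at this ⊢
      linarith
    obtain ⟨E, hE, hE'⟩ := h1.extend_real
    refine ⟨E, fun x y => ?_, fun w hw => hE' hw⟩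
    have := hE.le_add_mul x y
    rwa [dist_eq_norm] at this
  choose E hE hE' using hext
  have hEabs : ∀ i x y, |E i x - E i y| ≤ e * ‖x - y‖ := by
    intro i x y
    have a := hE i x y
    have b := hE i y x
    rw [norm_sub_rev] at b
    exact abs_le.2 ⟨by linarith, by linarith⟩
  have hn1 : 0 < n - 1 := by linarith
  have key : ∀ a b t : ℝ, |a| ≤ t → |b| ≤ t → ‖(((n * a - b) / (n - 1), -a) : ℝ × ℝ)‖ ≤ 3 * t := by
    intro a b t ha hb
    have ht : 0 ≤ t := (abs_nonneg a).trans ha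
    rw [norm_prod_le_iff]
    constructor
    · simp only [Real.norm_eq_abs]
      rw [abs_div, abs_of_pos hn1, div_le_iff₀ hn1]
      have h1 : |n * a - b| ≤ n * t + t := by
        refine (abs_sub _ _).trans ?_
        rw [abs_mul, abs_of_nonneg (by linarith : 0 ≤ n)]
        gcongr
      nlinarith
    · simp only [Real.norm_eq_abs, abs_neg]
      linarith
  set Φ : ℝ × ℝ → ℝ × ℝ := fun z =>
    c + ((n * (E 1 z - E 0 z) - (E 2 z - E 0 z)) / (n - 1), -(E 1 z - E 0 z)) with hΦ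
  have hΦlip : ContractingWith (1 / 2 : NNReal) Φ := by
    refine ⟨by norm_num, LipschitzWith.of_dist_le_mul (fun x y => ?_)⟩
    rw [dist_eq_norm, dist_eq_norm]
    have h1 : Φ x - Φ y = ((n * ((E 1 x - E 1 y) - (E 0 x - E 0 y)) -
        ((E 2 x - E 2 y) - (E 0 x - E 0 y))) / (n - 1),
        -((E 1 x - E 1 y) - (E 0 x - E 0 y))) := by
      simp only [hΦ]
      ext
      · simp; field_simp; ring
      · simp; ring
    rw [h1]
    refine (key _ _ (2 * (e * ‖x - y‖)) ?_ ?_).trans ?_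
    · refine (abs_sub _ _).trans ?_
      linarith [hEabs 1 x y, hEabs 0 x y]
    · refine (abs_sub _ _).trans ?_
      linarith [hEabs 2 x y, hEabs 0 x y]
    · have := norm_nonneg (x - y)
      push_cast
      nlinarith
  set z := ContractingWith.fixedPoint Φ hΦlip with hz
  have hfix : Φ z = z := hΦlip.fixedPoint_isFixedPt
  have hdist := hΦlip.dist_fixedPoint_le c
  have hEc : ∀ i, |E i c - p| ≤ ρ / 24 := by
    intro i
    rw [← hE' i c (by simpa using hρ)]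
    simpa [cvL] using hp i
  have h2 : dist c (Φ c) ≤ 3 * (ρ / 12) := by
    rw [dist_comm, dist_eq_norm]
    have : Φ c - c = ((n * (E 1 c - E 0 c) - (E 2 c - E 0 c)) / (n - 1), -(E 1 c - E 0 c)) := by
      simp only [hΦ]; abel
    rw [this]
    refine key _ _ _ ?_ ?_
    · have := abs_sub (E 1 c - p) (E 0 c - p)
      rw [sub_sub_sub_cancel_right] at this
      linarith [hEc 1, hEc 0]
    · have := abs_sub (E 2 c - p) (E 0 c - p)
      rw [sub_sub_sub_cancel_right] at this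
      linarith [hEc 2, hEc 0]
  refine ⟨fun i w => cvL n i (w - c) + E i w, z, E 0 z, fun i w w' => ?_, fun i => ?_,
    fun i w hw => ?_, ?_⟩
  · have := hE i w' w
    simp only [cv_L_sub]
    linarith
  · have h3 : z - c = ((n * (E 1 z - E 0 z) - (E 2 z - E 0 z)) / (n - 1), -(E 1 z - E 0 z)) := by
      conv_lhs => rw [← hfix]
      simp only [hΦ]; abel
    simp only [h3]
    fin_cases i
    · simp [cvL, cvC, cvM]
    · simp [cvL, cvC, cvM]
    · simp [cvL, cvC, cvM]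
      field_simp
      ring
  · simp only
    linarith [hE' i w hw]
  · rw [← hz, dist_comm, dist_eq_norm] at hdist
    have h4 : (1 - ((1 / 2 : NNReal) : ℝ)) = 1 / 2 := by norm_num
    rw [h4] at hdist
    have : dist c (Φ c) / (1 / 2) = 2 * dist c (Φ c) := by ring
    linarith

end Crest.Agent.R149
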