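import Crest.Agent.R149.Basic

/-! Row 149: counting pairs through unit cells. -/

set_option autoImplicit false

namespace Crest.Agent.R149

open MeasureTheory Filter Topology Crest.ProbabilityR.Continuum

theorem Qn_nonneg {N : ℕ} (x : Fin N → Pt) (S : Finset (Fin N)) : 0 ≤ Qn x S := by
  unfold Qn
  refine Finset.sum_nonneg fun i _ => Finset.sum_nonneg fun j _ => ?_
  split_ifs <;> norm_num

lemma ck_sq_sum_le {N : ℕ} (f : Fin N → Fin 3 → ℤ) (S : Finset (Fin N))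
    (T : Finset (Fin 3 → ℤ)) (g : (Fin 3 → ℤ) → (Fin 3 → ℤ)) (hg : Function.Injective g) :
    ∑ A ∈ T, (∑ i ∈ S, if f i = g A then (1 : ℝ) else 0) ^ 2 ≤
      ∑ i ∈ S, ∑ j ∈ S, if f i = f j then (1 : ℝ) else 0 := by
  have h1 : ∀ A ∈ T, (∑ i ∈ S, if f i = g A then (1 : ℝ) else 0) ^ 2 =
      ∑ i ∈ S, ∑ j ∈ S, (if f i = g A then (1 : ℝ) else 0) * (if f j = g A then (1 : ℝ) else 0) := by
    intro A _
    rw [sq, Finset.sum_mul_sum]
  rw [Finset.sum_congr rfl h1, Finset.sum_comm]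
  refine Finset.sum_le_sum fun i _ => ?_
  rw [Finset.sum_comm]
  refine Finset.sum_le_sum fun j _ => ?_
  by_cases hij : f i = f j
  · rw [if_pos hij]
    have h2 : ∀ A ∈ T, (if f i = g A then (1 : ℝ) else 0) * (if f j = g A then (1 : ℝ) else 0) =
        if f i = g A then (1 : ℝ) else 0 := by
      intro A _
      rw [← hij]
      split_ifs <;> norm_num
    rw [Finset.sum_congr rfl h2, Finset.sum_boole]
    have : (T.filter fun A => f i = g A).card ≤ 1 := by
      rw [Finset.card_le_one]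
      intro a ha b hb
      rw [Finset.mem_filter] at ha hb
      exact hg (ha.2.symm.trans hb.2)
    exact_mod_cast this
  · rw [if_neg hij]
    refine le_of_eq (Finset.sum_eq_zero fun A _ => ?_)
    by_cases h1 : f i = g A
    · have h2 : ¬ f j = g A := fun h => hij (h1.trans h.symm)
      rw [if_neg h2, mul_zero]
    · rw [if_neg h1, zero_mul]

/-- If `f i - f j = m` is counted over ordered pairs, there are at most as many as pairs with
`f i = f j` (Cauchy-Schwarz on the occupation numbers). -/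
theorem count_shift_le {N : ℕ} (f : Fin N → Fin 3 → ℤ) (S : Finset (Fin N)) (m : Fin 3 → ℤ) :
    (∑ i ∈ S, ∑ j ∈ S, if f i - f j = m then (1 : ℝ) else 0) ≤
      ∑ i ∈ S, ∑ j ∈ S, if f i = f j then (1 : ℝ) else 0 := by
  classical
  set T : Finset (Fin 3 → ℤ) := S.image f with hT
  have hL : (∑ i ∈ S, ∑ j ∈ S, if f i - f j = m then (1 : ℝ) else 0) =
      ∑ A ∈ T, (∑ i ∈ S, if f i = A then (1 : ℝ) else 0) *
        (∑ j ∈ S, if f j = A - m then (1 : ℝ) else 0) := by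
    have h1 : ∀ A ∈ T, (∑ i ∈ S, if f i = A then (1 : ℝ) else 0) *
        (∑ j ∈ S, if f j = A - m then (1 : ℝ) else 0) =
        ∑ i ∈ S, ∑ j ∈ S, (if f i = A then (1 : ℝ) else 0) *
          (if f j = A - m then (1 : ℝ) else 0) := by
      intro A _
      rw [Finset.sum_mul_sum]
    rw [Finset.sum_congr rfl h1, Finset.sum_comm (s := T)]
    refine Finset.sum_congr rfl fun i hi => ?_
    rw [Finset.sum_comm (s := T)]
    refine Finset.sum_congr rfl fun j _ => ?_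
    have hi' : f i ∈ T := Finset.mem_image_of_mem f hi
    rw [Finset.sum_eq_single (f i)]
    · rw [if_pos rfl, one_mul]
      have : (f i - f j = m) ↔ (f j = f i - m) := by
        constructor
        · intro h; rw [← h]; abel
        · intro h; rw [h]; abel
      simp only [this]
    · intro b _ hb
      rw [if_neg (Ne.symm hb), zero_mul]
    · intro h; exact absurd hi' h
  rw [hL]
  have h1 := ck_sq_sum_le f S T id Function.injective_id
  have h2 := ck_sq_sum_le f S T (fun A => A - m) (sub_left_injective)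
  simp only [id] at h1
  have h3 : ∑ A ∈ T, (∑ i ∈ S, if f i = A then (1 : ℝ) else 0) *
        (∑ j ∈ S, if f j = A - m then (1 : ℝ) else 0) ≤
      ∑ A ∈ T, ((∑ i ∈ S, if f i = A then (1 : ℝ) else 0) ^ 2 +
        (∑ j ∈ S, if f j = A - m then (1 : ℝ) else 0) ^ 2) / 2 := by
    refine Finset.sum_le_sum fun A _ => ?_
    nlinarith [sq_nonneg ((∑ i ∈ S, if f i = A then (1 : ℝ) else 0) -
      (∑ j ∈ S, if f j = A - m then (1 : ℝ) else 0))]
  rw [← Finset.sum_div, Finset.sum_add_distrib] at h3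
  linarith

/-- The integer box `[-r, r]^3`. -/
noncomputable def ck_box (r : ℕ) : Finset (Fin 3 → ℤ) :=
  Fintype.piFinset fun _ : Fin 3 => Finset.Icc (-(r : ℤ)) (r : ℤ)

lemma ck_card_box (r : ℕ) : (ck_box r).card = (2 * r + 1) ^ 3 := by
  unfold ck_box
  rw [Fintype.card_piFinset, Finset.prod_const, Finset.card_univ, Fintype.card_fin, Int.card_Icc]
  congr 1
  omega

lemma ck_mem_box {r : ℕ} {m : Fin 3 → ℤ} : m ∈ ck_box r ↔ ∀ k, -(r : ℤ) ≤ m k ∧ m k ≤ r := by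
  unfold ck_box
  simp [Fintype.mem_piFinset]

lemma ck_card_box_le {ρ : ℝ} (hρ : 0 ≤ ρ) :
    ((ck_box (⌊ρ⌋₊ + 1)).card : ℝ) ≤ (2 * ρ + 3) ^ 3 := by
  rw [ck_card_box]
  have h := Nat.floor_le hρ
  push_cast
  have h0 : (0 : ℝ) ≤ ⌊ρ⌋₊ := Nat.cast_nonneg _
  apply pow_le_pow_left₀ (by linarith)
  linarith

lemma ck_cell_sub_mem {ρ : ℝ} (hρ : 0 ≤ ρ) {p q : Pt} (h : dist p q ≤ ρ) :
    cellOf p - cellOf q ∈ ck_box (⌊ρ⌋₊ + 1) := by
  rw [ck_mem_box]
  intro k
  have h1 := (abs_sub_le_dist p q k).trans h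
  rw [abs_le] at h1
  have h2 := Nat.lt_floor_add_one ρ
  have a1 := Int.floor_le (p k)
  have a2 := Int.lt_floor_add_one (p k)
  have b1 := Int.floor_le (q k)
  have b2 := Int.lt_floor_add_one (q k)
  simp only [cellOf, Pi.sub_apply]
  constructor
  · have : (-((⌊ρ⌋₊ : ℤ) + 1) - 1 : ℤ) < ⌊p k⌋ - ⌊q k⌋ := by
      have : ((-((⌊ρ⌋₊ : ℤ) + 1) - 1 : ℤ) : ℝ) < ((⌊p k⌋ - ⌊q k⌋ : ℤ) : ℝ) := by
        push_cast; linarith [h1.1]
      exact_mod_cast this
    push_cast; omega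
  · have : ⌊p k⌋ - ⌊q k⌋ < ((⌊ρ⌋₊ : ℤ) + 1) + 1 := by
      have : ((⌊p k⌋ - ⌊q k⌋ : ℤ) : ℝ) < ((((⌊ρ⌋₊ : ℤ) + 1) + 1 : ℤ) : ℝ) := by
        push_cast; linarith [h1.2]
      exact_mod_cast this
    push_cast; omega

theorem EnOn_indLe_le {ρ : ℝ} (hρ : 0 ≤ ρ) {N : ℕ} (x : Fin N → Pt) (S : Finset (Fin N)) :
    EnOn (indLe ρ) x S ≤ (2 * ρ + 3) ^ 3 / 2 * Qn x S := by
  classical
  have h1 : (∑ i ∈ S, ∑ j ∈ S, if i = j then (0 : ℝ) else indLe ρ (dist (x i) (x j))) ≤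
      ∑ i ∈ S, ∑ j ∈ S, ∑ m ∈ ck_box (⌊ρ⌋₊ + 1),
        if cellOf (x i) - cellOf (x j) = m then (1 : ℝ) else 0 := by
    refine Finset.sum_le_sum fun i _ => Finset.sum_le_sum fun j _ => ?_
    rw [Finset.sum_ite_eq]
    by_cases hd : dist (x i) (x j) ≤ ρ
    · rw [if_pos (ck_cell_sub_mem hρ hd)]
      unfold indLe
      split_ifs <;> norm_num
    · unfold indLe
      rw [if_neg hd]
      split_ifs <;> norm_num
  have h2 : (∑ i ∈ S, ∑ j ∈ S, ∑ m ∈ ck_box (⌊ρ⌋₊ + 1),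
        if cellOf (x i) - cellOf (x j) = m then (1 : ℝ) else 0) =
      ∑ m ∈ ck_box (⌊ρ⌋₊ + 1), ∑ i ∈ S, ∑ j ∈ S,
        if cellOf (x i) - cellOf (x j) = m then (1 : ℝ) else 0 := by
    rw [Finset.sum_comm (s := ck_box (⌊ρ⌋₊ + 1))]
    refine Finset.sum_congr rfl fun i _ => ?_
    rw [Finset.sum_comm]
  have h3 : (∑ m ∈ ck_box (⌊ρ⌋₊ + 1), ∑ i ∈ S, ∑ j ∈ S,
        if cellOf (x i) - cellOf (x j) = m then (1 : ℝ) else 0) ≤
      ∑ _m ∈ ck_box (⌊ρ⌋₊ + 1), Qn x S :=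
    Finset.sum_le_sum fun m _ => count_shift_le (fun i => cellOf (x i)) S m
  rw [Finset.sum_const, nsmul_eq_mul] at h3
  have h4 := mul_le_mul_of_nonneg_right (ck_card_box_le hρ) (Qn_nonneg x S)
  unfold EnOn
  linarith

theorem Qn_le {N : ℕ} (x : Fin N → Pt) (S : Finset (Fin N)) :
    Qn x S ≤ S.card + 2 * EnOn chi x S := by
  classical
  unfold Qn EnOn
  have h1 : (∑ i ∈ S, ∑ j ∈ S, if cellOf (x i) = cellOf (x j) then (1 : ℝ) else 0) ≤
      ∑ i ∈ S, ∑ j ∈ S, ((if i = j then (1 : ℝ) else 0) +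
        if i = j then 0 else chi (dist (x i) (x j))) := by
    refine Finset.sum_le_sum fun i _ => Finset.sum_le_sum fun j _ => ?_
    by_cases hij : i = j
    · subst hij; simp
    · rw [if_neg hij, if_neg hij, zero_add]
      by_cases hc : cellOf (x i) = cellOf (x j)
      · rw [if_pos hc]
        have hd : dist (x i) (x j) ≤ 7 / 4 * 1 := by
          apply dist_le_of_coord
          intro k
          have hk := congrFun hc k
          simp only [cellOf] at hk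
          have a1 := Int.floor_le (x i k)
          have a2 := Int.lt_floor_add_one (x i k)
          have b1 := Int.floor_le (x j k)
          have b2 := Int.lt_floor_add_one (x j k)
          rw [hk] at a1 a2
          rw [abs_le]
          constructor <;> linarith
        unfold chi
        rw [if_pos (by linarith)]
      · rw [if_neg hc]; exact chi_nonneg _
  have h2 : (∑ i ∈ S, ∑ j ∈ S, ((if i = j then (1 : ℝ) else 0) +
        if i = j then 0 else chi (dist (x i) (x j)))) =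
      S.card + ∑ i ∈ S, ∑ j ∈ S, if i = j then 0 else chi (dist (x i) (x j)) := by
    simp only [Finset.sum_add_distrib]
    congr 1
    rw [Finset.sum_congr rfl (g := fun _ => (1 : ℝ))]
    · simp
    · intro i hi
      rw [Finset.sum_ite_eq, if_pos hi]
  linarith

theorem card_sq_le_Qn {ℓ : ℝ} (hℓ : 0 ≤ ℓ) {N : ℕ} (x : Fin N → Pt) (S : Finset (Fin N))
    (h : ∀ i ∈ S, x i ∈ cube ℓ) : (S.card : ℝ) ^ 2 ≤ (ℓ + 1) ^ 3 * Qn x S := by
  classical
  set T : Finset (Fin 3 → ℤ) :=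
    Fintype.piFinset fun _ : Fin 3 => Finset.Icc (0 : ℤ) (⌊ℓ⌋₊ : ℤ) with hT
  have hmem : ∀ i ∈ S, cellOf (x i) ∈ T := by
    intro i hi
    rw [hT, Fintype.mem_piFinset]
    intro k
    have hk := h i hi k
    rw [Finset.mem_Icc]
    simp only [cellOf]
    constructor
    · exact Int.floor_nonneg.2 hk.1
    · rw [Int.natCast_floor_eq_floor hℓ]
      exact Int.floor_le_floor hk.2
  have hcard : (T.card : ℝ) ≤ (ℓ + 1) ^ 3 := by
    rw [hT, Fintype.card_piFinset, Finset.prod_const, Finset.card_univ, Fintype.card_fin,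
      Int.card_Icc]
    have e : ((⌊ℓ⌋₊ : ℤ) + 1 - 0).toNat = ⌊ℓ⌋₊ + 1 := by omega
    rw [e]
    push_cast
    have h0 : (0 : ℝ) ≤ ⌊ℓ⌋₊ := Nat.cast_nonneg _
    apply pow_le_pow_left₀ (by linarith)
    linarith [Nat.floor_le hℓ]
  have hS : (S.card : ℝ) = ∑ A ∈ T, ∑ i ∈ S, if cellOf (x i) = A then (1 : ℝ) else 0 := by
    rw [Finset.sum_comm]
    rw [Finset.sum_congr rfl (g := fun _ => (1 : ℝ))]
    · simp
    · intro i hi
      rw [Finset.sum_ite_eq, if_pos (hmem i hi)]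
  have h1 := ck_sq_sum_le (fun i => cellOf (x i)) S T id Function.injective_id
  simp only [id] at h1
  have h2 := sq_sum_le_card_mul_sum_sq (s := T)
    (f := fun A => ∑ i ∈ S, if cellOf (x i) = A then (1 : ℝ) else 0)
  rw [hS]
  refine h2.trans ?_
  have h3 : (0 : ℝ) ≤ ∑ A ∈ T, (∑ i ∈ S, if cellOf (x i) = A then (1 : ℝ) else 0) ^ 2 :=
    Finset.sum_nonneg fun A _ => sq_nonneg _
  calc (T.card : ℝ) * ∑ A ∈ T, (∑ i ∈ S, if cellOf (x i) = A then (1 : ℝ) else 0) ^ 2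
      ≤ (ℓ + 1) ^ 3 * ∑ A ∈ T, (∑ i ∈ S, if cellOf (x i) = A then (1 : ℝ) else 0) ^ 2 :=
        mul_le_mul_of_nonneg_right hcard h3
    _ ≤ (ℓ + 1) ^ 3 * Qn x S := mul_le_mul_of_nonneg_left h1 (by positivity)

/-- If no unit cell holds more than `t` of the particles, at most `(2ρ+3)^3 t` of them are within
distance `ρ` of a given point. -/
theorem card_near_le {ρ : ℝ} (hρ : 0 ≤ ρ) {N : ℕ} (x : Fin N → Pt) (S : Finset (Fin N)) (t : ℕ)
    (ht : ∀ c : Fin 3 → ℤ, (S.filter fun j => cellOf (x j) = c).card ≤ t) (p : Pt) :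
    ((S.filter fun j => dist p (x j) ≤ ρ).card : ℝ) ≤ (2 * ρ + 3) ^ 3 * t := by
  classical
  have hsub : (S.filter fun j => dist p (x j) ≤ ρ) ⊆
      (ck_box (⌊ρ⌋₊ + 1)).biUnion fun m => S.filter fun j => cellOf (x j) = cellOf p - m := by
    intro j hj
    rw [Finset.mem_filter] at hj
    rw [Finset.mem_biUnion]
    refine ⟨cellOf p - cellOf (x j), ck_cell_sub_mem hρ hj.2, ?_⟩
    rw [Finset.mem_filter]
    exact ⟨hj.1, by abel⟩
  have h1 : (S.filter fun j => dist p (x j) ≤ ρ).card ≤ (ck_box (⌊ρ⌋₊ + 1)).card * t :=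
    (Finset.card_le_card hsub).trans (Finset.card_biUnion_le_card_mul _ _ _ fun m _ => ht _)
  have h2 : ((S.filter fun j => dist p (x j) ≤ ρ).card : ℝ) ≤
      ((ck_box (⌊ρ⌋₊ + 1)).card : ℝ) * t := by exact_mod_cast h1
  exact h2.trans (mul_le_mul_of_nonneg_right (ck_card_box_le hρ) (Nat.cast_nonneg _))

end Crest.Agent.R149
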