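import Crest.Agent.R149.Basic

/-! Row 149: decomposing partition functions along cells. -/

set_option autoImplicit false

namespace Crest.Agent.R149

open MeasureTheory Filter Topology Crest.ProbabilityR.Continuum

theorem dc_lintegral_fin_prod {n : ℕ} {E : Fin n → Type*}
    {mE : ∀ i, MeasurableSpace (E i)} {μ : (i : Fin n) → Measure (E i)} [∀ i, SigmaFinite (μ i)]
    (f : (i : Fin n) → E i → ENNReal) (hf : ∀ i, Measurable (f i)) :
    ∫⁻ x : (i : Fin n) → E i, ∏ i, f i (x i) ∂(Measure.pi μ) = ∏ i, ∫⁻ x, f i x ∂(μ i) := by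
  induction n with
  | zero => simp
  | succ n ih =>
    have h1 := ((measurePreserving_piFinSuccAbove μ 0).symm).lintegral_comp_emb
      (MeasurableEquiv.measurableEmbedding _) (fun x => ∏ i, f i (x i))
    rw [← h1]
    simp_rw [MeasurableEquiv.piFinSuccAbove_symm_apply, Fin.insertNthEquiv,
      Fin.prod_univ_succ, Fin.insertNth_zero, Equiv.coe_fn_mk, Fin.cons_succ,
      Fin.zero_succAbove, cast_eq, Fin.cons_zero]
    rw [← ih (fun i => f i.succ) (fun i => hf _)]
    exact lintegral_prod_mul (μ := μ 0) (ν := Measure.pi fun i : Fin n => μ i.succ) (f := f 0)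
      (g := fun x : (i : Fin n) → E i.succ => ∏ i, f i.succ (x i)) (hf 0).aemeasurable
      (Finset.measurable_prod _ fun i _ => (hf _).comp (measurable_pi_apply i)).aemeasurable

theorem dc_lintegral_prod {ι : Type*} [Fintype ι] {E : ι → Type*}
    {mE : ∀ i, MeasurableSpace (E i)} {μ : (i : ι) → Measure (E i)} [∀ i, SigmaFinite (μ i)]
    (f : (i : ι) → E i → ENNReal) (hf : ∀ i, Measurable (f i)) :
    ∫⁻ x : (i : ι) → E i, ∏ i, f i (x i) ∂(Measure.pi μ) = ∏ i, ∫⁻ x, f i x ∂(μ i) := by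
  let e := (Fintype.equivFin ι).symm
  rw [← (measurePreserving_piCongrLeft μ e).lintegral_comp_emb
    (MeasurableEquiv.measurableEmbedding _)]
  simp_rw [← e.prod_comp, MeasurableEquiv.coe_piCongrLeft, Equiv.piCongrLeft_apply_apply]
  exact dc_lintegral_fin_prod (fun i => f (e i)) (fun i => hf _)

/-- Enumeration of the labels fibre by fibre. -/
noncomputable def dc_equiv {N : ℕ} {C : Type} (κ : Fin N → C) :
    (Σ c : C, Fin (fib κ c).card) ≃ Fin N :=
  Equiv.ofBijective (fun p => (fib κ p.1).orderEmbOfFin rfl p.2) (by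
    constructor
    · rintro ⟨c, j⟩ ⟨c', j'⟩ h
      have h1 : κ ((fib κ c).orderEmbOfFin rfl j) = c :=
        (mem_fib κ c _).1 (Finset.orderEmbOfFin_mem _ _ _)
      have h2 : κ ((fib κ c').orderEmbOfFin rfl j') = c' :=
        (mem_fib κ c' _).1 (Finset.orderEmbOfFin_mem _ _ _)
      have hc : c = c' := by
        rw [← h1, ← h2]
        exact congrArg κ h
      subst hc
      have : j = j' := ((fib κ c).orderEmbOfFin rfl).injective h
      rw [this]
    · intro i
      have hi : i ∈ (fib κ (κ i) : Set (Fin N)) := (mem_fib κ _ i).2 rfl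
      rw [← Finset.range_orderEmbOfFin (fib κ (κ i)) rfl] at hi
      obtain ⟨j, hj⟩ := hi
      exact ⟨⟨κ i, j⟩, hj⟩)

theorem dc_equiv_apply {N : ℕ} {C : Type} (κ : Fin N → C) (c : C) (j : Fin (fib κ c).card) :
    dc_equiv κ ⟨c, j⟩ = (fib κ c).orderEmbOfFin rfl j := rfl

theorem dc_kappa_equiv {N : ℕ} {C : Type} (κ : Fin N → C) (p : Σ c : C, Fin (fib κ c).card) :
    κ (dc_equiv κ p) = p.1 :=
  (mem_fib κ p.1 _).1 (Finset.orderEmbOfFin_mem _ rfl _)

/-- Assembling a configuration from configurations in the cells. -/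
noncomputable def dc_glue {N : ℕ} {C : Type} (κ : Fin N → C) (y : C → Pt)
    (u : (c : C) → Fin (fib κ c).card → Pt) (i : Fin N) : Pt :=
  (fun p : Σ c : C, Fin (fib κ c).card => u p.1 p.2 + y p.1) ((dc_equiv κ).symm i)

theorem dc_glue_apply {N : ℕ} {C : Type} (κ : Fin N → C) (y : C → Pt)
    (u : (c : C) → Fin (fib κ c).card → Pt) (p : Σ c : C, Fin (fib κ c).card) :
    dc_glue κ y u (dc_equiv κ p) = u p.1 p.2 + y p.1 := by
  unfold dc_glue
  rw [Equiv.symm_apply_apply]

theorem dc_measurePreserving {N : ℕ} {C : Type} [Fintype C] (κ : Fin N → C) (y : C → Pt) :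
    MeasurePreserving (dc_glue κ y)
      (Measure.pi fun c : C => (volume : Measure (Fin (fib κ c).card → Pt))) volume := by
  have hm : Measurable (dc_glue κ y) := by
    refine measurable_pi_lambda _ fun i => ?_
    unfold dc_glue
    exact ((measurable_pi_apply _).comp (measurable_pi_apply _)).add_const _
  refine ⟨hm, ?_⟩
  rw [volume_pi]
  symm
  refine Measure.pi_eq fun s hs => ?_
  rw [Measure.map_apply hm (MeasurableSet.univ_pi hs)]
  have : dc_glue κ y ⁻¹' Set.pi Set.univ s = Set.pi Set.univ fun c => Set.pi Set.univ fun j =>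
      (fun p => p + y c) ⁻¹' s (dc_equiv κ ⟨c, j⟩) := by
    ext u
    simp only [Set.mem_preimage, Set.mem_pi, Set.mem_univ, true_imp_iff]
    constructor
    · intro h c j
      have := h (dc_equiv κ ⟨c, j⟩)
      rwa [dc_glue_apply] at this
    · intro h i
      obtain ⟨p, rfl⟩ := (dc_equiv κ).surjective i
      rw [dc_glue_apply]
      exact h p.1 p.2
  rw [this, Measure.pi_pi]
  simp_rw [volume_pi_pi, measure_preimage_add_right]
  rw [← (dc_equiv κ).prod_comp, Fintype.prod_sigma]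

/-- The Boltzmann weight of the decoupled cells, restricted to the configurations compatible
with the labelling. -/
noncomputable def dc_G {N : ℕ} {C : Type} [Fintype C] (Φ : ℝ → ℝ) (ℓ : ℝ) (κ : Fin N → C)
    (y : C → Pt) : (Fin N → Pt) → ENNReal :=
  Set.indicator {x | ∀ i, x i - y (κ i) ∈ cube ℓ}
    fun x => ENNReal.ofReal (Real.exp (-∑ c, EnOn Φ x (fib κ c)))

theorem dc_G_measurable {N : ℕ} {C : Type} [Fintype C] {Φ : ℝ → ℝ} (hΦ : Adm Φ) (ℓ : ℝ)
    (κ : Fin N → C) (y : C → Pt) : Measurable (dc_G Φ ℓ κ y) := by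
  refine Measurable.indicator ?_ ?_
  · exact (Finset.measurable_sum _ fun c _ => measurable_EnOn hΦ.1 _).neg.exp.ennreal_ofReal
  · have : {x : Fin N → Pt | ∀ i, x i - y (κ i) ∈ cube ℓ} =
        Set.pi Set.univ fun i => {p : Pt | p - y (κ i) ∈ cube ℓ} := by
      ext x; simp
    rw [this]
    exact MeasurableSet.univ_pi fun i => measurableSet_cube_sub ℓ _

theorem dc_key {N : ℕ} {C : Type} [Fintype C] {Φ : ℝ → ℝ} (hΦ : Adm Φ) (ℓ : ℝ)
    (κ : Fin N → C) (y : C → Pt) :
    ∫⁻ x, dc_G Φ ℓ κ y x = ENNReal.ofReal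
      (∏ c, ((Nat.factorial (fib κ c).card : ℝ) * Zr Φ ℓ (fib κ c).card)) := by
  classical
  rw [← (dc_measurePreserving κ y).lintegral_comp (dc_G_measurable hΦ ℓ κ y)]
  let f : (c : C) → (Fin (fib κ c).card → Pt) → ENNReal := fun c =>
    Set.indicator (Set.pi Set.univ (fun _ => cube ℓ))
      fun z => ENNReal.ofReal (Real.exp (-energy Φ z))
  have hf : ∀ c, Measurable (f c) := fun c =>
    Measurable.indicator (measurable_energy hΦ.1 _).neg.exp.ennreal_ofReal
      (MeasurableSet.univ_pi fun _ => measurableSet_cube ℓ)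
  have h1 : ∀ u, dc_G Φ ℓ κ y (dc_glue κ y u) = ∏ c, f c (u c) := by
    intro u
    have hen : ∀ c, EnOn Φ (dc_glue κ y u) (fib κ c) = energy Φ (u c) := by
      intro c
      rw [EnOn_eq_energy]
      unfold energy
      refine Finset.sum_congr rfl fun p _ => ?_
      beta_reduce
      rw [← dc_equiv_apply, ← dc_equiv_apply, dc_glue_apply, dc_glue_apply, dist_add_right]
    by_cases hu : ∀ c, u c ∈ Set.pi Set.univ (fun _ => cube ℓ)
    · have hmem : dc_glue κ y u ∈ {x : Fin N → Pt | ∀ i, x i - y (κ i) ∈ cube ℓ} := by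
        intro i
        obtain ⟨p, rfl⟩ := (dc_equiv κ).surjective i
        rw [dc_glue_apply, dc_kappa_equiv κ, add_sub_cancel_right]
        exact hu p.1 p.2 (Set.mem_univ _)
      simp only [dc_G, f, Set.indicator_of_mem hmem, Set.indicator_of_mem (hu _), hen]
      rw [← ENNReal.ofReal_prod_of_nonneg (fun c _ => (Real.exp_pos _).le), ← Real.exp_sum,
        Finset.sum_neg_distrib]
    · have hmem : dc_glue κ y u ∉ {x : Fin N → Pt | ∀ i, x i - y (κ i) ∈ cube ℓ} := by
        intro h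
        apply hu
        intro c j _
        have := h (dc_equiv κ ⟨c, j⟩)
        rwa [dc_glue_apply, dc_kappa_equiv κ, add_sub_cancel_right] at this
      push Not at hu
      obtain ⟨c, hc⟩ := hu
      rw [dc_G, Set.indicator_of_notMem hmem]
      symm
      exact Finset.prod_eq_zero (Finset.mem_univ c) (Set.indicator_of_notMem hc _)
  simp_rw [h1]
  rw [dc_lintegral_prod f hf, ENNReal.ofReal_prod_of_nonneg
    (fun c _ => mul_nonneg (Nat.cast_nonneg _) (Zr_nonneg _ _ _))]
  refine Finset.prod_congr rfl fun c _ => ?_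
  rw [ofReal_Zr hΦ, ← lintegral_indicator (MeasurableSet.univ_pi fun _ => measurableSet_cube ℓ)]

theorem dc_card_fib {N : ℕ} {C : Type} [DecidableEq C] (κ : Fin N → C) (c : C) :
    Fintype.card {a // κ a = c} = (fib κ c).card :=
  Fintype.card_of_subtype _ (mem_fib κ c)

theorem dc_count {N : ℕ} {C : Type} [Fintype C] [DecidableEq C] (n : C → ℕ) (κ₀ : Fin N → C)
    (h₀ : ∀ c, (fib κ₀ c).card = n c) :
    (Finset.univ.filter fun κ : Fin N → C => ∀ c, (fib κ c).card = n c).card *
      ∏ c, Nat.factorial (n c) = Nat.factorial N := by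
  classical
  have hmaps : ∀ g ∈ (Finset.univ : Finset (Equiv.Perm (Fin N))), κ₀ ∘ g ∈
      Finset.univ.filter fun κ : Fin N → C => ∀ c, (fib κ c).card = n c := by
    intro g _
    simp only [Finset.mem_filter, Finset.mem_univ, true_and]
    intro c
    rw [← h₀ c, ← dc_card_fib, ← dc_card_fib]
    exact Fintype.card_congr (Equiv.subtypeEquiv g fun a => Iff.rfl)
  have h1 := Finset.card_eq_sum_card_fiberwise hmaps
  rw [Finset.card_univ, Fintype.card_perm, Fintype.card_fin] at h1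
  rw [h1, ← smul_eq_mul, ← Finset.sum_const]
  refine Finset.sum_congr rfl fun κ hκ => ?_
  simp only [Finset.mem_filter, Finset.mem_univ, true_and] at hκ
  let e : ∀ c, {a // κ a = c} ≃ {b // κ₀ b = c} := fun c =>
    Fintype.equivOfCardEq (by rw [dc_card_fib, dc_card_fib, hκ c, h₀ c])
  let g₀ : Equiv.Perm (Fin N) := Equiv.ofFiberEquiv e
  have hg₀ : ∀ a, κ₀ (g₀ a) = κ a := fun a => Equiv.ofFiberEquiv_map e a
  have h2 := DomMulAct.stabilizer_card κ
  simp only [dc_card_fib, hκ] at h2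
  rw [← h2, ← Fintype.card_subtype]
  refine Fintype.card_congr (Equiv.subtypeEquiv (Equiv.mulLeft g₀) fun g => ?_)
  have : κ₀ ∘ (Equiv.mulLeft g₀ g : Equiv.Perm (Fin N)) = κ ∘ g := by
    funext a
    exact hg₀ (g a)
  rw [this]

theorem dc_exists {N : ℕ} {C : Type} [Fintype C] (n : C → ℕ) (hN : ∑ c, n c = N) :
    ∃ κ : Fin N → C, ∀ c, (fib κ c).card = n c := by
  classical
  let e : Fin N ≃ (Σ c : C, Fin (n c)) := Fintype.equivOfCardEq (by simp [hN])
  refine ⟨fun i => (e i).1, fun c => ?_⟩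
  rw [← dc_card_fib]
  have := Fintype.card_congr ((Equiv.subtypeEquiv (p := fun a => (e a).1 = c)
    (q := fun p => p.1 = c) e fun a => Iff.rfl).trans (Equiv.sigmaSubtype c))
  rw [this, Fintype.card_fin]

theorem dc_sum_le {N : ℕ} {C : Type} [Fintype C] [DecidableEq C] (a : ℕ → ℝ)
    (ha : ∀ n, 0 ≤ a n) :
    ∑ κ : Fin N → C, ∏ c, ((Nat.factorial (fib κ c).card : ℝ) * a (fib κ c).card) ≤
      (Nat.factorial N : ℝ) * (∑ n ∈ Finset.range (N + 1), a n) ^ Fintype.card C := by
  classical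
  have hmaps : ∀ κ ∈ (Finset.univ : Finset (Fin N → C)), (fun c => (fib κ c).card) ∈
      Fintype.piFinset fun _ : C => Finset.range (N + 1) := by
    intro κ _
    rw [Fintype.mem_piFinset]
    intro c
    rw [Finset.mem_range, Nat.lt_succ_iff]
    simpa using Finset.card_le_univ (fib κ c)
  rw [← Finset.sum_fiberwise_of_maps_to hmaps, ← Finset.card_univ, ← Finset.prod_const,
    Finset.prod_univ_sum, Finset.mul_sum]
  refine Finset.sum_le_sum fun m _ => ?_
  have hset : (Finset.univ.filter fun κ : Fin N → C => (fun c => (fib κ c).card) = m) =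
      Finset.univ.filter fun κ : Fin N → C => ∀ c, (fib κ c).card = m c := by
    refine Finset.filter_congr fun κ _ => ?_
    exact funext_iff
  rw [hset, Finset.sum_congr rfl (g := fun _ => ∏ c, ((Nat.factorial (m c) : ℝ) * a (m c)))
    (by
      intro κ hκ
      simp only [Finset.mem_filter, Finset.mem_univ, true_and] at hκ
      simp only [hκ]),
    Finset.sum_const, nsmul_eq_mul, Finset.prod_mul_distrib, ← mul_assoc]
  refine mul_le_mul_of_nonneg_right ?_ (Finset.prod_nonneg fun c _ => ha _)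
  rcases (Finset.univ.filter fun κ : Fin N → C =>
    ∀ c, (fib κ c).card = m c).eq_empty_or_nonempty with h | ⟨κ₀, h⟩
  · rw [h]; simp
  · simp only [Finset.mem_filter, Finset.mem_univ, true_and] at h
    have := dc_count m κ₀ h
    exact le_of_eq (by exact_mod_cast this)

/-- Upper bound: if every configuration in the big cube can be distributed (for one of finitely
many grids `t`) into translated small cubes with the stated energy inequality, the partition
function is at most `#T` times a power of a grand-canonical sum. -/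
theorem decomp_upper {N : ℕ} {T C : Type} [Fintype T] [Fintype C] {Φ Φ' : ℝ → ℝ}
    (hΦ : Adm Φ) (hΦ' : Adm Φ') (L : ℝ) {ℓ : ℝ} (hℓ : 0 < ℓ) (y : T → C → Pt) (w : ℕ → ℝ) (E₀ : ℝ)
    (h : ∀ x : Fin N → Pt, (∀ i, x i ∈ cube L) → ∃ (t : T) (κ : Fin N → C),
      (∀ i, x i - y t (κ i) ∈ cube ℓ) ∧
        E₀ - energy Φ' x ≤ ∑ c, (w (fib κ c).card - EnOn Φ x (fib κ c))) :
    Real.exp E₀ * Zr Φ' L N ≤
      Fintype.card T *
        (∑ n ∈ Finset.range (N + 1), Real.exp (w n) * Zr Φ ℓ n) ^ Fintype.card C := by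
  classical
  have hbox : MeasurableSet (Set.pi Set.univ (fun _ : Fin N => cube L)) :=
    MeasurableSet.univ_pi fun _ => measurableSet_cube L
  have h1 : ENNReal.ofReal (Real.exp E₀) * ENNReal.ofReal ((Nat.factorial N : ℝ) * Zr Φ' L N) ≤
      ∫⁻ x, ∑ t : T, ∑ κ : Fin N → C,
        ENNReal.ofReal (Real.exp (∑ c, w (fib κ c).card)) * dc_G Φ ℓ κ (y t) x := by
    rw [ofReal_Zr hΦ', ← lintegral_const_mul' _ _ ENNReal.ofReal_ne_top,
      ← lintegral_indicator hbox]
    refine lintegral_mono fun x => ?_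
    by_cases hx : x ∈ Set.pi Set.univ (fun _ : Fin N => cube L)
    · rw [Set.indicator_of_mem hx]
      obtain ⟨t, κ, hκ, hE⟩ := h x fun i => hx i (Set.mem_univ i)
      refine le_trans ?_ (Finset.single_le_sum (f := fun t : T => ∑ κ : Fin N → C,
        ENNReal.ofReal (Real.exp (∑ c, w (fib κ c).card)) * dc_G Φ ℓ κ (y t) x)
        (fun _ _ => zero_le) (Finset.mem_univ t))
      refine le_trans ?_ (Finset.single_le_sum (f := fun κ : Fin N → C =>
        ENNReal.ofReal (Real.exp (∑ c, w (fib κ c).card)) * dc_G Φ ℓ κ (y t) x)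
        (fun _ _ => zero_le) (Finset.mem_univ κ))
      have hmem : x ∈ {x : Fin N → Pt | ∀ i, x i - y t (κ i) ∈ cube ℓ} := hκ
      simp only [dc_G, Set.indicator_of_mem hmem]
      rw [← ENNReal.ofReal_mul (Real.exp_pos _).le, ← ENNReal.ofReal_mul (Real.exp_pos _).le,
        ← Real.exp_add, ← Real.exp_add]
      refine ENNReal.ofReal_le_ofReal (Real.exp_le_exp.2 ?_)
      rw [Finset.sum_sub_distrib] at hE
      linarith
    · rw [Set.indicator_of_notMem hx]
      exact zero_le
  have hm : ∀ (t : T) (κ : Fin N → C), Measurable fun x =>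
      ENNReal.ofReal (Real.exp (∑ c, w (fib κ c).card)) * dc_G Φ ℓ κ (y t) x :=
    fun t κ => (dc_G_measurable hΦ ℓ κ (y t)).const_mul _
  have hterm : ∀ (t : T) (κ : Fin N → C),
      ∫⁻ x, ENNReal.ofReal (Real.exp (∑ c, w (fib κ c).card)) * dc_G Φ ℓ κ (y t) x =
        ENNReal.ofReal (∏ c, ((Nat.factorial (fib κ c).card : ℝ) *
          (Real.exp (w (fib κ c).card) * Zr Φ ℓ (fib κ c).card))) := by
    intro t κ
    rw [lintegral_const_mul' _ _ ENNReal.ofReal_ne_top, dc_key hΦ,
      ← ENNReal.ofReal_mul (Real.exp_pos _).le, Real.exp_sum, ← Finset.prod_mul_distrib]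
    congr 1
    refine Finset.prod_congr rfl fun c _ => by ring
  have ha : ∀ n, 0 ≤ Real.exp (w n) * Zr Φ ℓ n :=
    fun n => mul_nonneg (Real.exp_pos _).le (Zr_nonneg _ _ _)
  rw [lintegral_finsetSum _ (fun t _ => Finset.measurable_sum _ fun κ _ => hm t κ)] at h1
  simp_rw [lintegral_finsetSum _ (fun κ _ => hm _ κ), hterm] at h1
  rw [← ENNReal.ofReal_sum_of_nonneg (fun κ _ => Finset.prod_nonneg fun c _ =>
    mul_nonneg (Nat.cast_nonneg _) (ha _)), ← ENNReal.ofReal_sum_of_nonneg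
      (fun t _ => Finset.sum_nonneg fun κ _ => Finset.prod_nonneg fun c _ =>
        mul_nonneg (Nat.cast_nonneg _) (ha _)),
    ← ENNReal.ofReal_mul (Real.exp_pos _).le, ENNReal.ofReal_le_ofReal_iff
      (Finset.sum_nonneg fun t _ => Finset.sum_nonneg fun κ _ => Finset.prod_nonneg fun c _ =>
        mul_nonneg (Nat.cast_nonneg _) (ha _)),
    Finset.sum_const, Finset.card_univ, nsmul_eq_mul] at h1
  have h2 := dc_sum_le (N := N) (C := C) (fun n => Real.exp (w n) * Zr Φ ℓ n) ha
  have h3 := h1.trans (mul_le_mul_of_nonneg_left h2 (Nat.cast_nonneg _))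
  have hf : (0 : ℝ) < Nat.factorial N := by exact_mod_cast Nat.factorial_pos N
  refine le_of_mul_le_mul_left ?_ hf
  calc _ = Real.exp E₀ * ((Nat.factorial N : ℝ) * Zr Φ' L N) := by ring
    _ ≤ _ := h3
    _ = _ := by ring

/-- Lower bound (filling): disjoint translated small cubes inside the big cube, with prescribed
occupation numbers. -/
theorem decomp_lower {C : Type} [Fintype C] {Φ Φ' : ℝ → ℝ} (hΦ : Adm Φ) (hΦ' : Adm Φ')
    (L : ℝ) {ℓ : ℝ} (hℓ : 0 < ℓ) (y : C → Pt) (n : C → ℕ) (N : ℕ) (hN : ∑ c, n c = N) (W : ℝ)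
    (hin : ∀ (c : C) (p : Pt), p - y c ∈ cube ℓ → p ∈ cube L)
    (hdisj : ∀ (c c' : C) (p : Pt), p - y c ∈ cube ℓ → p - y c' ∈ cube ℓ → c = c')
    (h : ∀ (κ : Fin N → C) (x : Fin N → Pt), (∀ c, (fib κ c).card = n c) →
      (∀ i, x i - y (κ i) ∈ cube ℓ) → energy Φ' x ≤ ∑ c, EnOn Φ x (fib κ c) - W) :
    W + ∑ c, lZ Φ ℓ (n c) ≤ lZ Φ' L N := by
  classical
  have hbox : MeasurableSet (Set.pi Set.univ (fun _ : Fin N => cube L)) :=
    MeasurableSet.univ_pi fun _ => measurableSet_cube L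
  set S := Finset.univ.filter fun κ : Fin N → C => ∀ c, (fib κ c).card = n c with hS
  have h1 : ∫⁻ x, ∑ κ ∈ S, ENNReal.ofReal (Real.exp W) * dc_G Φ ℓ κ y x ≤
      ENNReal.ofReal ((Nat.factorial N : ℝ) * Zr Φ' L N) := by
    rw [ofReal_Zr hΦ', ← lintegral_indicator hbox]
    refine lintegral_mono fun x => ?_
    by_cases hx : ∃ κ ∈ S, x ∈ {x : Fin N → Pt | ∀ i, x i - y (κ i) ∈ cube ℓ}
    · obtain ⟨κ, hκS, hκ⟩ := hx
      have hxb : x ∈ Set.pi Set.univ (fun _ : Fin N => cube L) := fun i _ => hin _ _ (hκ i)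
      rw [Set.indicator_of_mem hxb]
      simp only []
      rw [Finset.sum_eq_single_of_mem κ hκS]
      · simp only [dc_G, Set.indicator_of_mem hκ]
        rw [← ENNReal.ofReal_mul (Real.exp_pos _).le, ← Real.exp_add]
        refine ENNReal.ofReal_le_ofReal (Real.exp_le_exp.2 ?_)
        have := h κ x (by simpa [hS] using hκS) hκ
        linarith
      · intro κ' _ hne
        rw [dc_G, Set.indicator_of_notMem, mul_zero]
        intro hκ'
        exact hne (funext fun i => hdisj _ _ _ (hκ' i) (hκ i))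
    · push Not at hx
      simp only []
      rw [Finset.sum_eq_zero]
      · exact zero_le
      · intro κ hκ
        rw [dc_G, Set.indicator_of_notMem (hx κ hκ), mul_zero]
  rw [lintegral_finsetSum _ (fun κ _ => (dc_G_measurable hΦ ℓ κ y).const_mul _)] at h1
  have hterm : ∀ κ ∈ S, ∫⁻ x, ENNReal.ofReal (Real.exp W) * dc_G Φ ℓ κ y x =
      ENNReal.ofReal (Real.exp W * ∏ c, ((Nat.factorial (n c) : ℝ) * Zr Φ ℓ (n c))) := by
    intro κ hκ
    have hκ' : ∀ c, (fib κ c).card = n c := by simpa [hS] using hκ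
    rw [lintegral_const_mul' _ _ ENNReal.ofReal_ne_top, dc_key hΦ,
      ← ENNReal.ofReal_mul (Real.exp_pos _).le]
    simp only [hκ']
  have hnn : 0 ≤ Real.exp W * ∏ c, ((Nat.factorial (n c) : ℝ) * Zr Φ ℓ (n c)) :=
    mul_nonneg (Real.exp_pos _).le (Finset.prod_nonneg fun c _ =>
      mul_nonneg (Nat.cast_nonneg _) (Zr_nonneg _ _ _))
  rw [Finset.sum_congr rfl hterm, ← ENNReal.ofReal_sum_of_nonneg (fun _ _ => hnn),
    ENNReal.ofReal_le_ofReal_iff (mul_nonneg (Nat.cast_nonneg _) (Zr_nonneg _ _ _)),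
    Finset.sum_const, nsmul_eq_mul, Finset.prod_mul_distrib] at h1
  obtain ⟨κ₀, h₀⟩ := dc_exists n hN
  have hc : (S.card : ℝ) * ∏ c, (Nat.factorial (n c) : ℝ) = Nat.factorial N := by
    exact_mod_cast dc_count n κ₀ h₀
  have hf : (0 : ℝ) < Nat.factorial N := by exact_mod_cast Nat.factorial_pos N
  have h2 : Real.exp W * ∏ c, Zr Φ ℓ (n c) ≤ Zr Φ' L N := by
    refine le_of_mul_le_mul_left ?_ hf
    calc _ = (S.card : ℝ) * (Real.exp W * ((∏ c, (Nat.factorial (n c) : ℝ)) *
          ∏ c, Zr Φ ℓ (n c))) := by rw [← hc]; ring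
      _ ≤ _ := h1
  have h3 : Real.exp (W + ∑ c, lZ Φ ℓ (n c)) ≤ Zr Φ' L N := by
    rw [Real.exp_add, Real.exp_sum]
    simp only [exp_lZ hΦ hℓ]
    exact h2
  have h4 := Real.log_le_log (Real.exp_pos _) h3
  rwa [Real.log_exp] at h4

end Crest.Agent.R149
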