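import Mathlib
import Crest.Prelude.Def_PairPotential
import Crest.Prelude.Def_UnitPacking

/-!
Row 149 (S0209, S0210): shared definitions.  All potentials `Φ` are *reduced* (already multiplied
by the inverse temperature), so the partition function is taken at `β = 1`.
-/

set_option autoImplicit false

namespace Crest.Agent.R149

open MeasureTheory Crest.ProbabilityR.Continuum

/-- Pair energy of the particles with labels in `S`. -/
noncomputable def EnOn {N : ℕ} (Φ : ℝ → ℝ) (x : Fin N → Pt) (S : Finset (Fin N)) : ℝ :=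
  (∑ i ∈ S, ∑ j ∈ S, if i = j then 0 else Φ (dist (x i) (x j))) / 2

/-- The labels sent to `c` by `κ`. -/
noncomputable def fib {N : ℕ} {C : Type} (κ : Fin N → C) (c : C) : Finset (Fin N) := by
  classical exact Finset.univ.filter fun i => κ i = c

/-- Reduced canonical partition function. -/
noncomputable def Zr (Φ : ℝ → ℝ) (L : ℝ) (N : ℕ) : ℝ := partitionFn Φ L N 1

/-- Its logarithm. -/
noncomputable def lZ (Φ : ℝ → ℝ) (L : ℝ) (N : ℕ) : ℝ := Real.log (Zr Φ L N)

/-- Stability with constant `B`. -/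
def Stable (Φ : ℝ → ℝ) (B : ℝ) : Prop :=
  ∀ (N : ℕ) (x : Fin N → Pt), -B * N ≤ energy Φ x

/-- Measurable and stable. -/
def Adm (Φ : ℝ → ℝ) : Prop := Measurable Φ ∧ ∃ B : ℝ, Stable Φ B

/-- The pressure with corridor width `D`. -/
noncomputable def press (D : ℝ) (Φ : ℝ → ℝ) (μ : ℝ) : ℝ :=
  sSup {y : ℝ | ∃ (L : ℝ) (N : ℕ), 0 < L ∧ y = (μ * N + lZ Φ L N) / (L + D) ^ 3}

/-- Indicator of distances `< 2`. -/
noncomputable def chi (r : ℝ) : ℝ := if r < 2 then 1 else 0

/-- Indicator of distances `≤ ρ`. -/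
noncomputable def indLe (ρ r : ℝ) : ℝ := if r ≤ ρ then 1 else 0

/-- Superstability: the energy dominates `κ` times the number of pairs at distance `< 2`. -/
def SStable (Φ : ℝ → ℝ) (κ B : ℝ) : Prop :=
  ∀ (N : ℕ) (x : Fin N → Pt), κ * energy chi x - B * N ≤ energy Φ x

/-- The unit cell of a point. -/
noncomputable def cellOf (p : Pt) : Fin 3 → ℤ := fun k => ⌊p k⌋

/-- Number of ordered pairs (diagonal included) of labels in `S` lying in the same unit cell,
that is the sum of the squares of the occupation numbers of the unit cells. -/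
noncomputable def Qn {N : ℕ} (x : Fin N → Pt) (S : Finset (Fin N)) : ℝ :=
  ∑ i ∈ S, ∑ j ∈ S, if cellOf (x i) = cellOf (x j) then 1 else 0

/-- An integer vector as a point of space. -/
noncomputable def latt (m : Fin 3 → ℤ) : Pt := WithLp.toLp 2 fun k => (m k : ℝ)

/-- The Kac profile `(1 - t)₊`, clamped at `1`. -/
noncomputable def psi (t : ℝ) : ℝ := max 0 (min 1 (1 - t))

/-- The integer box `[-(w+2), w+2]^3`. -/
noncomputable def ibox (w : ℕ) : Finset (Fin 3 → ℤ) :=
  Fintype.piFinset fun _ : Fin 3 => Finset.Icc (-((w : ℤ) + 2)) ((w : ℤ) + 2)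

/-- Upper lattice sum of the Kac profile at resolution `w`. -/
noncomputable def sumUp (w : ℕ) : ℝ := ∑ m ∈ ibox w, psi ((‖latt m‖ - 2) / w)

/-- Lower lattice sum of the Kac profile: cells of side `ℓ`, period `ℓ + D`, range `w ℓ`. -/
noncomputable def sumLo (w : ℕ) (ℓ D : ℝ) : ℝ :=
  ∑ m ∈ (ibox w).erase 0, psi (((ℓ + D) * ‖latt m‖ + 2 * ℓ) / (w * ℓ))

/-- The three-phase profile (vacuum, monomers, `n`-clusters). -/
noncomputable def Vmax (n : ℝ) (z : ℝ × ℝ) : ℝ := max 0 (max z.2 ((n - 1) * z.1 + n * z.2))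

/-- Every finite set of points with all mutual distances in `[4, b₂]` has at most `n` elements. -/
def CliqueBd (b₂ : ℝ) (n : ℕ) : Prop :=
  ∀ X : Finset Pt, (∀ p ∈ X, ∀ q ∈ X, p ≠ q → 4 ≤ dist p q ∧ dist p q ≤ b₂) → X.card ≤ n

/-- Lower bounds on the short-range (reduced) potential. -/
structure BaseHyp (Φ : ℝ → ℝ) (u Kb b₂ D' : ℝ) (n : ℕ) : Prop where
  meas : Measurable Φ
  u_nonneg : 0 ≤ u
  b₂_le : b₂ ≤ 8
  D'_ge : 17 ≤ D'
  lower : ∀ r : ℝ, 0 ≤ r → -u ≤ Φ r
  far : ∀ r : ℝ, 9 ≤ r → 0 ≤ Φ r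
  bad : ∀ r : ℝ, 0 ≤ r → (r < 4 ∨ (b₂ < r ∧ r < D')) → Kb ≤ Φ r
  big : 2 * 21 ^ 3 * u ≤ Kb
  clique : CliqueBd b₂ n

end Crest.Agent.R149
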