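import Crest.Agent.R149.Kink
import Crest.Agent.R149.Pack

/-! Row 149: the two final statements from `MainStmt`. -/

set_option autoImplicit false

namespace Crest.Agent.R149

open MeasureTheory Filter Topology Crest.ProbabilityR.Continuum

/-- One-sided derivative of `β ↦ -(A * g (β * b) - E) / β` at `β = 1`. -/
lemma fn_deriv {g : ℝ → ℝ} {b D : ℝ} (A E : ℝ) {s t : Set ℝ}
    (hst : Set.MapsTo (fun β : ℝ => β * b) s t) (h : HasDerivWithinAt g D t b) :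
    HasDerivWithinAt (fun β => -(A * g (β * b) - E) / β) (-(A * (D * b)) + (A * g b - E)) s 1 := by
  have h1 : HasDerivWithinAt (fun β : ℝ => β * b) b s 1 := by
    simpa using (hasDerivWithinAt_id (1 : ℝ) s).mul_const b
  have h2 : HasDerivWithinAt (fun β : ℝ => g (β * b)) (D * b) s 1 :=
    HasDerivWithinAt.comp_of_eq (1 : ℝ) h h1 hst (by simp)
  have h3 := ((h2.const_mul A).sub_const E).neg.div (hasDerivWithinAt_id (1 : ℝ) s) one_ne_zero
  have e : -(A * (D * b)) + (A * g b - E) =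
      (-(A * (D * b)) * id (1 : ℝ) - -(A * g (1 * b) - E) * 1) / id (1 : ℝ) ^ 2 := by
    simp only [id, one_mul, mul_one, one_pow, div_one]; ring
  rw [e]
  exact h3

lemma fn_kink {g : ℝ → ℝ} {b Dl Dr A : ℝ} (E : ℝ) (hb : 0 < b) (hA : 0 < A)
    (hl : HasDerivWithinAt g Dl (Set.Iio b) b) (hr : HasDerivWithinAt g Dr (Set.Ioi b) b)
    (hlt : Dl < Dr) : ∃ Dl' Dr' : ℝ,
      HasDerivWithinAt (fun β => -(A * g (β * b) - E) / β) Dl' (Set.Iio 1) 1 ∧
      HasDerivWithinAt (fun β => -(A * g (β * b) - E) / β) Dr' (Set.Ioi 1) 1 ∧ Dr' < Dl' := by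
  refine ⟨_, _, fn_deriv A E ?_ hl, fn_deriv A E ?_ hr, ?_⟩
  · intro β hβ
    have : β < 1 := hβ
    show β * b < b
    nlinarith
  · intro β hβ
    have : 1 < β := hβ
    show b < β * b
    nlinarith
  · have := mul_lt_mul_of_pos_left (mul_lt_mul_of_pos_right hlt hb) hA
    linarith

theorem final210 (h : MainStmt (fun r => max (1 / r - 1) 0)) :
    ∃ φ : ℝ → ℝ, Measurable φ ∧
      (∀ a b : ℝ, 0 < a → a ≤ b → ∃ M : ℝ, ∀ r : ℝ, a ≤ r → r ≤ b → |φ r| ≤ M) ∧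
      Filter.Tendsto φ (nhdsWithin 0 (Set.Ioi 0)) Filter.atTop ∧
      (∃ r₁ r₂ a : ℝ, 0 < r₁ ∧ r₁ < r₂ ∧ 0 < a ∧ ∀ r : ℝ, r₁ ≤ r → r ≤ r₂ → φ r ≤ -a) ∧
      (∃ R : ℝ, 0 < R ∧ MeasureTheory.IntegrableOn (fun r : ℝ => r ^ 2 * |φ r|) (Set.Ioi R)) ∧
      Filter.Tendsto (fun r : ℝ => r ^ 3 * φ r) Filter.atTop (nhds 0) ∧
      (∃ B : ℝ, ∀ (N : ℕ) (x : Fin N → Crest.ProbabilityR.Continuum.Pt), Function.Injective x →
        -B * N ≤ Crest.ProbabilityR.Continuum.energy φ x) ∧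
      ∃ f : ℝ → ℝ → ℝ,
        (∀ ρ : ℝ, 0 < ρ → ∀ β : ℝ, 0 < β →
          Filter.Tendsto (fun L : ℝ => -(1 / (β * L ^ 3)) *
              Real.log (Crest.ProbabilityR.Continuum.partitionFn φ L ⌊ρ * L ^ 3⌋₊ β))
            Filter.atTop (nhds (f β ρ))) ∧
        ∃ ρ₁ ρ₂ βc : ℝ, 0 ≤ ρ₁ ∧ ρ₁ < ρ₂ ∧ 1 / 2 < βc ∧ βc < 3 / 2 ∧
          ∀ ρ : ℝ, ρ₁ < ρ → ρ < ρ₂ → ∃ Dl Dr : ℝ,
            HasDerivWithinAt (fun β => f β ρ) Dl (Set.Iio βc) βc ∧
            HasDerivWithinAt (fun β => f β ρ) Dr (Set.Ioi βc) βc ∧ Dr < Dl := by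
  obtain ⟨φb, hcont, ⟨M, hM⟩, ⟨C, hC⟩, ⟨r₁, r₂, a, hr₁, hr₁₂, ha, hneg⟩, ⟨hmeas, B, hB⟩, G, hG,
    b, ρ₁, ρ₂, hb, hρ₁, hρ₁₂, hkink⟩ := h
  have hσ1 : ∀ r : ℝ, 1 ≤ r → max (1 / r - 1) 0 = 0 := by
    intro r hr
    apply max_eq_right
    have : 1 / r ≤ 1 := by rw [div_le_one (by linarith)]; exact hr
    linarith
  have hdec : ∀ r : ℝ, 1 ≤ r → |b * (φb r + max (1 / r - 1) 0)| ≤
      b * C * r ^ (-(3 + 1 / 32 : ℝ)) := by
    intro r hr
    rw [hσ1 r hr, add_zero, abs_mul, abs_of_pos hb, mul_assoc]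
    exact mul_le_mul_of_nonneg_left (hC r hr) hb.le
  have hm : Measurable fun r => b * (φb r + max (1 / r - 1) 0) := hmeas.const_mul b
  refine ⟨fun r => b * (φb r + max (1 / r - 1) 0), hm, ?_, ?_, ?_, ?_, ?_, ?_,
    fun β ρ => -(1 * G (β * b) ρ - 0) / β, ?_, ρ₁, ρ₂, 1, hρ₁.le, hρ₁₂, by norm_num, by norm_num,
    ?_⟩
  · intro a' b' ha' _
    refine ⟨b * (M + 1 / a'), fun r hr _ => ?_⟩
    rw [abs_mul, abs_of_pos hb]
    refine mul_le_mul_of_nonneg_left ((abs_add_le _ _).trans (add_le_add (hM r) ?_)) hb.le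
    rw [abs_of_nonneg (le_max_right _ _)]
    have : 1 / r ≤ 1 / a' := one_div_le_one_div_of_le ha' hr
    exact max_le (by linarith) (by positivity)
  · refine Tendsto.const_mul_atTop hb ?_
    refine tendsto_atTop_mono (f := fun r : ℝ => r⁻¹ + (-M - 1)) (fun r => ?_)
      (tendsto_atTop_add_const_right _ _ tendsto_inv_nhdsGT_zero)
    have h1 := (abs_le.1 (hM r)).1
    have h2 : 1 / r - 1 ≤ max (1 / r - 1) 0 := le_max_left _ _
    rw [one_div] at h2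
    simp only [one_div]
    linarith
  · refine ⟨r₁, r₂, b * a, by linarith, hr₁₂, by positivity, fun r h1 h2 => ?_⟩
    simp only
    rw [hσ1 r (hr₁.trans h1), add_zero]
    have := mul_le_mul_of_nonneg_left (hneg r h1 h2) hb.le
    linarith
  · refine ⟨1, one_pos, ?_⟩
    have hi := (integrableOn_Ioi_rpow_of_lt (a := -(1 + 1 / 32 : ℝ)) (by norm_num)
      (one_pos (α := ℝ))).const_mul (b * C)
    refine Integrable.mono' hi
      ((measurable_id.pow_const 2).mul (continuous_abs.measurable.comp hm)).aestronglyMeasurable ?_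
    refine (ae_restrict_iff' measurableSet_Ioi).2 (Eventually.of_forall fun r hr => ?_)
    have hr1 : 1 < r := hr
    have hr0 : 0 < r := by linarith
    rw [Real.norm_eq_abs, abs_of_nonneg (by positivity)]
    have e : r ^ (-(1 + 1 / 32 : ℝ)) = r ^ 2 * r ^ (-(3 + 1 / 32 : ℝ)) := by
      rw [← Real.rpow_natCast, ← Real.rpow_add hr0]; norm_num
    rw [e]
    have := mul_le_mul_of_nonneg_left (hdec r hr1.le) (sq_nonneg r)
    linarith
  · have h0 : Tendsto (fun r : ℝ => b * C * r ^ (-(1 / 32 : ℝ))) atTop (𝓝 0) := by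
      simpa using (tendsto_rpow_neg_atTop (y := 1 / 32) (by norm_num)).const_mul (b * C)
    refine squeeze_zero_norm' ?_ h0
    filter_upwards [eventually_ge_atTop (1 : ℝ)] with r hr
    have hr0 : 0 < r := by linarith
    rw [Real.norm_eq_abs, abs_mul, abs_of_pos (by positivity : 0 < r ^ 3)]
    have e : r ^ (-(1 / 32 : ℝ)) = r ^ 3 * r ^ (-(3 + 1 / 32 : ℝ)) := by
      rw [← Real.rpow_natCast, ← Real.rpow_add hr0]; norm_num
    rw [e]
    have := mul_le_mul_of_nonneg_left (hdec r hr) (by positivity : 0 ≤ r ^ 3)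
    linarith
  · refine ⟨b * B, fun N x _ => ?_⟩
    rw [energy_const_mul]
    have := mul_le_mul_of_nonneg_left (hB N x) hb.le
    linarith
  · intro ρ hρ β hβ
    have := (hG (β * b) ρ (by positivity) hρ).const_mul (-(1 / β))
    have e : -(1 * G (β * b) ρ - 0) / β = -(1 / β) * G (β * b) ρ := by ring
    simp only
    rw [e]
    refine this.congr fun L => ?_
    rw [partitionFn_eq_Zr]
    simp only [lZ, mul_assoc]
    ring
  · intro ρ h1 h2
    obtain ⟨Dl, Dr, hl, hr, hlt⟩ := hkink ρ h1 h2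
    exact fn_kink (g := fun β => G β ρ) 0 hb one_pos hl hr hlt

theorem final209 (h : MainStmt (fun _ => 0)) :
    ∃ φ : ℝ → ℝ, Continuous φ ∧ (∃ M : ℝ, ∀ r : ℝ, |φ r| ≤ M) ∧
      (∃ B : ℝ, ∀ (N : ℕ) (x : Fin N → Crest.ProbabilityR.Continuum.Pt), -B * N ≤ Crest.ProbabilityR.Continuum.energy φ x) ∧
      (∃ C : ℝ, ∀ r : ℝ, 1 ≤ r → |φ r| ≤ C * r ^ (-(3 + 1 / 32 : ℝ))) ∧
      ∃ p η βc : ℝ, 0 < p ∧
        Filter.Tendsto (fun L : ℝ => (Crest.ProbabilityR.Continuum.packingNumber L : ℝ) / L ^ 3)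
          Filter.atTop (nhds p) ∧
        0 < η ∧ η ≤ 5 * p / 3 ∧ 7 / 8 ≤ βc ∧ βc ≤ 9 / 8 ∧
        ∃ f : ℝ → ℝ → ℝ,
          (∀ ρ : ℝ, 5 * p / 3 - η < ρ → ρ < 5 * p / 3 + η → ∀ β : ℝ, 0 < β →
            Filter.Tendsto (fun L : ℝ => -(1 / (β * L ^ 3)) *
                Real.log (Crest.ProbabilityR.Continuum.partitionFn φ L ⌊ρ * L ^ 3⌋₊ β))
              Filter.atTop (nhds (f β ρ))) ∧
          (∀ ρ : ℝ, 5 * p / 3 - η < ρ → ρ < 5 * p / 3 + η → ∃ Dl Dr : ℝ,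
            HasDerivWithinAt (fun β => f β ρ) Dl (Set.Iio βc) βc ∧
            HasDerivWithinAt (fun β => f β ρ) Dr (Set.Ioi βc) βc ∧ Dr < Dl) := by
  obtain ⟨φb, hcont, ⟨M, hM⟩, ⟨C, hC⟩, -, hadm, G, hG,
    b, ρ₁, ρ₂, hb, hρ₁, hρ₁₂, hkink⟩ := h
  simp only [add_zero] at hadm hG
  obtain ⟨p, hp1, hp⟩ := pack_limit
  have hp0 : 0 < p := by linarith
  have hρ0 : 0 < (ρ₁ + ρ₂) / 2 := by linarith
  obtain ⟨s, hs, hs3⟩ : ∃ s : ℝ, 0 < s ∧ s ^ 3 * ((ρ₁ + ρ₂) / 2) = 5 * p / 3 := by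
    refine ⟨(5 * p / 3 / ((ρ₁ + ρ₂) / 2)) ^ ((3 : ℕ) : ℝ)⁻¹, by positivity, ?_⟩
    rw [Real.rpow_inv_natCast_pow (by positivity) (by norm_num)]
    exact div_mul_cancel₀ _ hρ0.ne'
  have hs3pos : 0 < s ^ 3 := by positivity
  have hM0 : 0 ≤ M := (abs_nonneg _).trans (hM 0)
  have hC0 : 0 ≤ C := by
    have := (abs_nonneg _).trans (hC 1 le_rfl)
    simpa using this
  have hadmβ : ∀ t : ℝ, 0 < t → Adm fun r => t * φb r := by
    intro t ht
    obtain ⟨hm, B, hB⟩ := hadm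
    refine ⟨hm.const_mul t, t * B, fun N x => ?_⟩
    rw [energy_const_mul]
    have := mul_le_mul_of_nonneg_left (hB N x) ht.le
    linarith
  refine ⟨fun r => b * φb (s * r), by fun_prop, ⟨b * M, fun r => ?_⟩, ?_, ?_,
    p, min (5 * p / 3) (s ^ 3 * ((ρ₂ - ρ₁) / 2)), 1, hp0, hp,
    lt_min (by positivity) (mul_pos hs3pos (by linarith)), min_le_left _ _, by norm_num,
    by norm_num,
    fun β ρ => -(s ^ 3 * G (β * b) (ρ / s ^ 3) - 3 * ρ * Real.log s) / β, ?_, ?_⟩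
  · rw [abs_mul, abs_of_pos hb]
    exact mul_le_mul_of_nonneg_left (hM _) hb.le
  · obtain ⟨-, B, hB⟩ := hadmβ b hb
    refine ⟨B, fun N x => ?_⟩
    rw [energy_scale (fun r => b * φb r) hs]
    exact hB N _
  · refine ⟨b * ((C + M) * s ^ (-(3 + 1 / 32 : ℝ))), fun r hr => ?_⟩
    have hr0 : 0 < r := by linarith
    rw [abs_mul, abs_of_pos hb, mul_assoc, mul_assoc, ← Real.mul_rpow hs.le hr0.le]
    refine mul_le_mul_of_nonneg_left ?_ hb.le
    have hsr : 0 < s * r := by positivity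
    have hpow : 0 ≤ (s * r) ^ (-(3 + 1 / 32 : ℝ)) := by positivity
    rcases le_total 1 (s * r) with h1 | h1
    · have := hC _ h1
      nlinarith
    · have h2 : 1 ≤ (s * r) ^ (-(3 + 1 / 32 : ℝ)) :=
        Real.one_le_rpow_of_pos_of_le_one_of_nonpos hsr h1 (by norm_num)
      have := hM (s * r)
      nlinarith
  · intro ρ h1 _ β hβ
    have hρ : 0 < ρ := by
      have := min_le_left (5 * p / 3) (s ^ 3 * ((ρ₂ - ρ₁) / 2))
      linarith
    have hsL : Tendsto (fun L : ℝ => s * L) atTop atTop := tendsto_id.const_mul_atTop hs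
    have t1 := ((hG (β * b) (ρ / s ^ 3) (by positivity) (by positivity)).comp hsL).const_mul
      (s ^ 3)
    have hL3 : Tendsto (fun L : ℝ => ρ * L ^ 3) atTop atTop :=
      (tendsto_pow_atTop (by norm_num)).const_mul_atTop hρ
    have t2 := ((tendsto_nat_floor_div_atTop.comp hL3).const_mul (3 * ρ * Real.log s))
    have t3 := (t1.sub t2).const_mul (-(1 / β))
    have e : -(s ^ 3 * G (β * b) (ρ / s ^ 3) - 3 * ρ * Real.log s) / β =
        -(1 / β) * (s ^ 3 * G (β * b) (ρ / s ^ 3) - 3 * ρ * Real.log s * 1) := by ring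
    simp only
    rw [e]
    refine t3.congr' ?_
    filter_upwards [eventually_gt_atTop (0 : ℝ)] with L hL
    rw [partitionFn_eq_Zr]
    have e1 : ρ / s ^ 3 * (s * L) ^ 3 = ρ * L ^ 3 := by field_simp
    have e2 := lZ_scale (hadmβ (β * b) (by positivity)) hs hL ⌊ρ * L ^ 3⌋₊
    have e3 : (fun r => β * (b * φb (s * r))) = fun r => β * b * φb (s * r) := by
      funext r; ring
    simp only [Function.comp_apply]
    rw [e1, e3]
    change _ = -(1 / (β * L ^ 3)) * lZ _ _ _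
    rw [e2]
    field_simp
  · intro ρ h1 h2
    have hmin := min_le_right (5 * p / 3) (s ^ 3 * ((ρ₂ - ρ₁) / 2))
    obtain ⟨Dl, Dr, hl, hr, hlt⟩ := hkink (ρ / s ^ 3)
      (by rw [lt_div_iff₀ hs3pos]; nlinarith) (by rw [div_lt_iff₀ hs3pos]; nlinarith)
    exact fn_kink (g := fun β => G β (ρ / s ^ 3)) (3 * ρ * Real.log s) hb hs3pos hl hr hlt

end Crest.Agent.R149
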