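import Crest.Agent.R149.Basic

/-! Row 149: from a triangle of subgradients of the pressure to a kink of the free energy, and the
common statement behind S0209 and S0210. -/

set_option autoImplicit false

namespace Crest.Agent.R149

open MeasureTheory Filter Topology Crest.ProbabilityR.Continuum

lemma fn_tri {n s r : ℝ} (hn : 2 ≤ n) (hs0 : 0 ≤ s) (hsr : 2 * s ≤ r) (hr : r ≤ 1) (w : ℝ × ℝ) :
    s * w.1 + r * w.2 ≤ Vmax n w := by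
  have hn1 : 0 < n - 1 := by linarith
  set l := s / (n - 1) with hl
  have hl0 : 0 ≤ l := div_nonneg hs0 hn1.le
  have hls : l * (n - 1) = s := div_mul_cancel₀ _ hn1.ne'
  have hl1 : l ≤ s := by nlinarith
  have h0 : 0 ≤ Vmax n w := le_max_left _ _
  have h1 : w.2 ≤ Vmax n w := (le_max_left _ _).trans (le_max_right _ _)
  have h2 : (n - 1) * w.1 + n * w.2 ≤ Vmax n w := (le_max_right _ _).trans (le_max_right _ _)
  have a1 := mul_le_mul_of_nonneg_left h1 (show 0 ≤ r - s - l by linarith)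
  have a2 := mul_le_mul_of_nonneg_left h2 hl0
  have a0 := mul_nonneg (show 0 ≤ 1 - r + s by linarith) h0
  have e : s * w.1 + r * w.2 = (r - s - l) * w.2 + l * ((n - 1) * w.1 + n * w.2) := by
    rw [← hls]; ring
  rw [e]
  nlinarith

lemma fn_vmax {n s r : ℝ} (hn : 2 ≤ n) (hs0 : 1 / 10 ≤ s) (hs1 : s ≤ 1 / 5) (hr0 : 7 / 10 ≤ r)
    (hr1 : r ≤ 8 / 10) (w : ℝ × ℝ) : s * w.1 + r * w.2 + ‖w‖ / 20 ≤ Vmax n w := by
  have hw : ‖w‖ ≤ |w.1| + |w.2| := by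
    rw [Prod.norm_def]
    exact max_le (by rw [Real.norm_eq_abs]; linarith [abs_nonneg w.2])
      (by rw [Real.norm_eq_abs]; linarith [abs_nonneg w.1])
  rcases abs_cases w.1 with ⟨h1, -⟩ | ⟨h1, -⟩ <;> rcases abs_cases w.2 with ⟨h2, -⟩ | ⟨h2, -⟩
  · have := fn_tri (s := s + 1 / 20) (r := r + 1 / 20) hn (by linarith) (by linarith)
      (by linarith) w
    linarith
  · have := fn_tri (s := s + 1 / 20) (r := r - 1 / 20) hn (by linarith) (by linarith)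
      (by linarith) w
    linarith
  · have := fn_tri (s := s - 1 / 20) (r := r + 1 / 20) hn (by linarith) (by linarith)
      (by linarith) w
    linarith
  · have := fn_tri (s := s - 1 / 20) (r := r - 1 / 20) hn (by linarith) (by linarith)
      (by linarith) w
    linarith

lemma fn_convex_inf {P : ℝ → ℝ → ℝ}
    (hconv : ConvexOn ℝ (Set.Ioi 0 ×ˢ Set.univ) fun z : ℝ × ℝ => P z.1 z.2) {ρ : ℝ}
    (hbdd : ∀ β : ℝ, 0 < β → BddBelow (Set.range fun μ : ℝ => P β μ - μ * ρ)) :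
    ConvexOn ℝ (Set.Ioi 0) fun β => ⨅ μ : ℝ, (P β μ - μ * ρ) := by
  refine ⟨convex_Ioi 0, fun β₁ h₁ β₂ h₂ a b ha hb hab => ?_⟩
  refine le_of_forall_pos_le_add fun ε hε => ?_
  obtain ⟨μ₁, hμ₁⟩ := exists_lt_of_ciInf_lt
    (lt_add_of_pos_right (⨅ μ : ℝ, (P β₁ μ - μ * ρ)) hε)
  obtain ⟨μ₂, hμ₂⟩ := exists_lt_of_ciInf_lt
    (lt_add_of_pos_right (⨅ μ : ℝ, (P β₂ μ - μ * ρ)) hε)
  have hpos : 0 < a • β₁ + b • β₂ := convex_Ioi (0 : ℝ) h₁ h₂ ha hb hab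
  have h1 := ciInf_le (hbdd _ hpos) (a * μ₁ + b * μ₂)
  have h2 := hconv.2 (x := (β₁, μ₁)) (y := (β₂, μ₂)) ⟨h₁, Set.mem_univ _⟩ ⟨h₂, Set.mem_univ _⟩
    ha hb hab
  simp only [Prod.smul_mk, Prod.mk_add_mk, smul_eq_mul] at h1 h2 ⊢
  have a1 := mul_le_mul_of_nonneg_left hμ₁.le ha
  have a2 := mul_le_mul_of_nonneg_left hμ₂.le hb
  have e : ε = a * ε + b * ε := by rw [← add_mul, hab, one_mul]
  nlinarith

theorem kink_of_triple {P : ℝ → ℝ → ℝ} {c lam n : ℝ} (hc : 0 < c) (hlam : 0 < lam) (hn : 2 ≤ n)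
    (hconv : ConvexOn ℝ (Set.Ioi 0 ×ˢ Set.univ) fun z : ℝ × ℝ => P z.1 z.2)
    (hbdd : ∀ β ρ : ℝ, 0 < β → 0 < ρ → BddBelow (Set.range fun μ : ℝ => P β μ - μ * ρ))
    (z : ℝ × ℝ) (hz : 0 < z.1)
    (h : ∀ w : ℝ × ℝ, 0 < z.1 + w.1 →
      c * P z.1 (lam * (z.2 - 1)) + Vmax n w - ‖w‖ / 20 ≤
        c * P (z + w).1 (lam * ((z + w).2 - 1))) :
    ∃ ρ₁ ρ₂ : ℝ, 0 < ρ₁ ∧ ρ₁ < ρ₂ ∧ ∀ ρ : ℝ, ρ₁ < ρ → ρ < ρ₂ → ∃ Dl Dr : ℝ,
      HasDerivWithinAt (fun β => ⨅ μ : ℝ, (P β μ - μ * ρ)) Dl (Set.Iio z.1) z.1 ∧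
      HasDerivWithinAt (fun β => ⨅ μ : ℝ, (P β μ - μ * ρ)) Dr (Set.Ioi z.1) z.1 ∧ Dl < Dr := by
  have hcl : 0 < c * lam := mul_pos hc hlam
  refine ⟨7 / 10 / (c * lam), 8 / 10 / (c * lam), by positivity,
    div_lt_div_of_pos_right (by norm_num) hcl, fun ρ h1 h2 => ?_⟩
  have hρ : 0 < ρ := lt_trans (by positivity) h1
  rw [div_lt_iff₀ hcl] at h1
  rw [lt_div_iff₀ hcl] at h2
  set μc := lam * (z.2 - 1) with hμc
  have key : ∀ s : ℝ, 1 / 10 ≤ s → s ≤ 1 / 5 → ∀ β μ : ℝ, 0 < β →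
      P z.1 μc - μc * ρ + s / c * (β - z.1) ≤ P β μ - μ * ρ := by
    intro s hs0 hs1 β μ hβ
    have hw := h (β - z.1, (μ - μc) / lam) (by simpa using hβ)
    have hv := fn_vmax hn hs0 hs1 h1.le h2.le (β - z.1, (μ - μc) / lam)
    have e1 : (z + (β - z.1, (μ - μc) / lam)).1 = β := by simp
    have e2 : lam * ((z + (β - z.1, (μ - μc) / lam)).2 - 1) = μ := by
      simp only [Prod.snd_add, hμc]; field_simp; ring
    rw [e1, e2] at hw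
    have e3 : ρ * (c * lam) * ((μ - μc) / lam) = c * (ρ * (μ - μc)) := by field_simp
    simp only at hv
    rw [e3] at hv
    have e4 : c * (s / c * (β - z.1)) = s * (β - z.1) := by field_simp
    refine le_of_mul_le_mul_left ?_ hc
    nlinarith
  set G : ℝ → ℝ := fun β => ⨅ μ : ℝ, (P β μ - μ * ρ) with hG
  have hGc : ConvexOn ℝ (Set.Ioi 0) G := fn_convex_inf hconv fun β hβ => hbdd β ρ hβ hρ
  have hG0 : G z.1 ≤ P z.1 μc - μc * ρ := ciInf_le (hbdd _ _ hz hρ) μc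
  have hG1 : ∀ s : ℝ, 1 / 10 ≤ s → s ≤ 1 / 5 → ∀ β : ℝ, 0 < β →
      G z.1 + s / c * (β - z.1) ≤ G β := by
    intro s hs0 hs1 β hβ
    refine le_ciInf fun μ => ?_
    have := key s hs0 hs1 β μ hβ
    linarith
  have hint : z.1 ∈ interior (Set.Ioi (0 : ℝ)) := by rw [interior_Ioi]; exact hz
  have hl := hGc.hasDerivWithinAt_leftDeriv_of_mem_interior hint
  have hr := hGc.hasDerivWithinAt_rightDeriv_of_mem_interior hint
  refine ⟨_, _, hl, hr, ?_⟩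
  have hl' := (hasDerivWithinAt_iff_tendsto_slope' (by simp)).1 hl
  have hr' := (hasDerivWithinAt_iff_tendsto_slope' (by simp)).1 hr
  have b1 : derivWithin G (Set.Iio z.1) z.1 ≤ 1 / 10 / c := by
    refine le_of_tendsto hl' ?_
    filter_upwards [self_mem_nhdsWithin, mem_nhdsWithin_of_mem_nhds (Ioi_mem_nhds hz)]
      with β hβ hβ0
    have hβ' : β - z.1 < 0 := sub_neg.2 hβ
    rw [slope_def_field, div_le_iff_of_neg hβ']
    have := hG1 (1 / 10) le_rfl (by norm_num) β hβ0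
    linarith
  have b2 : 1 / 5 / c ≤ derivWithin G (Set.Ioi z.1) z.1 := by
    refine ge_of_tendsto hr' ?_
    filter_upwards [self_mem_nhdsWithin] with β hβ
    have hβ' : 0 < β - z.1 := sub_pos.2 hβ
    rw [slope_def_field, le_div_iff₀ hβ']
    have := hG1 (1 / 5) (by norm_num) le_rfl β (hz.trans hβ)
    linarith
  have b3 : 1 / 10 / c < 1 / 5 / c := div_lt_div_of_pos_right (by norm_num) hc
  linarith

/-- The common core of S0209 and S0210, for an extra non-negative core term `σ`. -/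
def MainStmt (σ : ℝ → ℝ) : Prop :=
  ∃ φb : ℝ → ℝ, Continuous φb ∧ (∃ M : ℝ, ∀ r, |φb r| ≤ M) ∧
    (∃ C : ℝ, ∀ r : ℝ, 1 ≤ r → |φb r| ≤ C * r ^ (-(3 + 1 / 32 : ℝ))) ∧
    (∃ r₁ r₂ a : ℝ, 1 ≤ r₁ ∧ r₁ < r₂ ∧ 0 < a ∧ ∀ r, r₁ ≤ r → r ≤ r₂ → φb r ≤ -a) ∧
    Adm (fun r => φb r + σ r) ∧
    ∃ G : ℝ → ℝ → ℝ,
      (∀ β ρ : ℝ, 0 < β → 0 < ρ →
        Tendsto (fun L : ℝ => lZ (fun r => β * (φb r + σ r)) L ⌊ρ * L ^ 3⌋₊ / L ^ 3) atTop
          (𝓝 (G β ρ))) ∧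
      ∃ βc ρ₁ ρ₂ : ℝ, 0 < βc ∧ 0 < ρ₁ ∧ ρ₁ < ρ₂ ∧ ∀ ρ : ℝ, ρ₁ < ρ → ρ < ρ₂ → ∃ Dl Dr : ℝ,
        HasDerivWithinAt (fun β => G β ρ) Dl (Set.Iio βc) βc ∧
        HasDerivWithinAt (fun β => G β ρ) Dr (Set.Ioi βc) βc ∧ Dl < Dr

end Crest.Agent.R149
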