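import Crest.Agent.R149.Count
import Crest.Agent.R149.Fill

/-! Row 149: the sliding-grid upper bound on the pressure. -/

set_option autoImplicit false

namespace Crest.Agent.R149

open MeasureTheory Filter Topology Crest.ProbabilityR.Continuum

lemma sl_hermite {ℓ : ℕ} (hℓ : 1 ≤ ℓ) (A : ℕ) : ∑ t ∈ Finset.range ℓ, (A + t) / ℓ = A := by
  induction A with
  | zero =>
    apply Finset.sum_eq_zero
    intro t ht
    rw [zero_add]
    exact Nat.div_eq_of_lt (Finset.mem_range.1 ht)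
  | succ A ih =>
    have h1 := Finset.sum_range_succ (fun t => (A + t) / ℓ) ℓ
    have h2 := Finset.sum_range_succ' (fun t => (A + t) / ℓ) ℓ
    have h3 : (A + ℓ) / ℓ = A / ℓ + 1 := Nat.add_div_right A hℓ
    have h4 : ∑ t ∈ Finset.range ℓ, (A + 1 + t) / ℓ =
        ∑ t ∈ Finset.range ℓ, (A + (t + 1)) / ℓ := by
      apply Finset.sum_congr rfl
      intro t _
      congr 1
      omega
    simp only [add_zero] at h2
    omega

lemma sl_count_le {ℓ : ℕ} (hℓ : 1 ≤ ℓ) {A B : ℕ} (hAB : A ≤ B) :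
    ∑ t : Fin ℓ, (if (A + (t : ℕ)) / ℓ = (B + (t : ℕ)) / ℓ then (0 : ℝ) else 1) ≤ (B : ℝ) - A := by
  rw [Fin.sum_univ_eq_sum_range
    (fun t => if (A + t) / ℓ = (B + t) / ℓ then (0 : ℝ) else 1) ℓ]
  have hA : (A : ℝ) = ∑ t ∈ Finset.range ℓ, (((A + t) / ℓ : ℕ) : ℝ) := by
    rw [← Nat.cast_sum, sl_hermite hℓ]
  have hB : (B : ℝ) = ∑ t ∈ Finset.range ℓ, (((B + t) / ℓ : ℕ) : ℝ) := by
    rw [← Nat.cast_sum, sl_hermite hℓ]
  rw [hA, hB, ← Finset.sum_sub_distrib]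
  apply Finset.sum_le_sum
  intro t _
  have h1 : (A + t) / ℓ ≤ (B + t) / ℓ := Nat.div_le_div_right (by omega)
  split_ifs with h
  · rw [h, sub_self]
  · have h2 : (A + t) / ℓ + 1 ≤ (B + t) / ℓ := by omega
    have h3 : (((A + t) / ℓ : ℕ) : ℝ) + 1 ≤ (((B + t) / ℓ : ℕ) : ℝ) := by exact_mod_cast h2
    linarith

lemma sl_count_abs {ℓ : ℕ} (hℓ : 1 ≤ ℓ) (A B : ℕ) :
    ∑ t : Fin ℓ, (if (A + (t : ℕ)) / ℓ = (B + (t : ℕ)) / ℓ then (0 : ℝ) else 1) ≤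
      |(A : ℝ) - B| := by
  rcases le_total A B with h | h
  · refine (sl_count_le hℓ h).trans ?_
    rw [abs_sub_comm]
    exact le_abs_self _
  · have := sl_count_le hℓ h
    simp only [eq_comm (a := (B + _) / ℓ)] at this
    exact this.trans (le_abs_self _)

lemma sl_sum_coord {ℓ : ℕ} (f : Fin ℓ → ℝ) (a : Fin 3) :
    ∑ t : Fin 3 → Fin ℓ, f (t a) = (ℓ : ℝ) ^ 2 * ∑ u, f u := by
  have h := Finset.prod_univ_sum (fun _ : Fin 3 => (Finset.univ : Finset (Fin ℓ)))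
    (fun b u => if b = a then f u else (1 : ℝ))
  rw [Fintype.piFinset_univ] at h
  have h2 : ∀ t : Fin 3 → Fin ℓ, ∏ b, (if b = a then f (t b) else (1 : ℝ)) = f (t a) := by
    intro t
    rw [Finset.prod_ite_eq']
    simp
  simp only [h2] at h
  rw [← h, Fin.prod_univ_three]
  fin_cases a <;> simp [sq, mul_comm, mul_left_comm]

/-- The cell of a point for the shifted grid. -/
noncomputable def slK (ℓ : ℕ) (t : Fin 3 → Fin ℓ) (p : Pt) : Fin 3 → ℕ :=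
  fun a => (⌊p a⌋₊ + (t a : ℕ)) / ℓ

lemma sl_shift_count {ℓ : ℕ} (hℓ : 1 ≤ ℓ) {p q : Pt} (hp : ∀ a, 0 ≤ p a) (hq : ∀ a, 0 ≤ q a) :
    ∑ t : Fin 3 → Fin ℓ, (if slK ℓ t p = slK ℓ t q then (0 : ℝ) else 1) ≤
      3 * (ℓ : ℝ) ^ 2 * (dist p q + 1) := by
  have h1 : ∀ t : Fin 3 → Fin ℓ, (if slK ℓ t p = slK ℓ t q then (0 : ℝ) else 1) ≤
      ∑ a : Fin 3, (if (⌊p a⌋₊ + (t a : ℕ)) / ℓ = (⌊q a⌋₊ + (t a : ℕ)) / ℓ
        then (0 : ℝ) else 1) := by
    intro t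
    split_ifs with h
    · exact Finset.sum_nonneg fun a _ => by split_ifs <;> norm_num
    · obtain ⟨a, ha⟩ := Function.ne_iff.1 h
      refine le_trans ?_ (Finset.single_le_sum (f := fun a : Fin 3 =>
        (if (⌊p a⌋₊ + (t a : ℕ)) / ℓ = (⌊q a⌋₊ + (t a : ℕ)) / ℓ then (0 : ℝ) else 1))
        (fun a _ => by split_ifs <;> norm_num) (Finset.mem_univ a))
      exact le_of_eq (if_neg ha).symm
  refine (Finset.sum_le_sum fun t _ => h1 t).trans ?_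
  rw [Finset.sum_comm]
  have h2 : ∀ a : Fin 3, ∑ t : Fin 3 → Fin ℓ,
      (if (⌊p a⌋₊ + (t a : ℕ)) / ℓ = (⌊q a⌋₊ + (t a : ℕ)) / ℓ then (0 : ℝ) else 1) ≤
      (ℓ : ℝ) ^ 2 * (dist p q + 1) := by
    intro a
    rw [sl_sum_coord (fun u : Fin ℓ =>
      if (⌊p a⌋₊ + (u : ℕ)) / ℓ = (⌊q a⌋₊ + (u : ℕ)) / ℓ then (0 : ℝ) else 1) a]
    gcongr
    refine (sl_count_abs hℓ _ _).trans ?_
    have h3 := abs_le.1 (abs_sub_le_dist p q a)
    have h4 := Nat.floor_le (hp a)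
    have h5 := Nat.floor_le (hq a)
    have h6 := Nat.lt_floor_add_one (p a)
    have h7 := Nat.lt_floor_add_one (q a)
    rw [abs_le]
    constructor <;> linarith [h3.1, h3.2]
  calc _ ≤ ∑ _a : Fin 3, (ℓ : ℝ) ^ 2 * (dist p q + 1) := Finset.sum_le_sum fun a _ => h2 a
    _ = _ := by simp; ring

lemma sl_exists_shift {ℓ : ℕ} (hℓ : 1 ≤ ℓ) {g : ℝ → ℝ} (hg0 : ∀ r, 0 ≤ r → 0 ≤ g r) {N : ℕ}
    (x : Fin N → Pt) (hx : ∀ i a, 0 ≤ x i a) :
    ∃ t : Fin 3 → Fin ℓ,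
      (∑ i, ∑ j, if slK ℓ t (x i) = slK ℓ t (x j) then 0 else g (dist (x i) (x j))) / 2 ≤
        3 / ℓ * energy (fun r => (r + 1) * g r) x := by
  have hℓ' : (0 : ℝ) < ℓ := by exact_mod_cast hℓ
  have : Nonempty (Fin ℓ) := ⟨⟨0, hℓ⟩⟩
  have key : ∑ t : Fin 3 → Fin ℓ,
      (∑ i, ∑ j, if slK ℓ t (x i) = slK ℓ t (x j) then 0 else g (dist (x i) (x j))) / 2 ≤
      ∑ _t : Fin 3 → Fin ℓ, 3 / ℓ * energy (fun r => (r + 1) * g r) x := by
    rw [Finset.sum_const, Finset.card_univ, Fintype.card_fun, Fintype.card_fin, Fintype.card_fin,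
      nsmul_eq_mul, ← Finset.sum_div, energy_eq_EnOn, EnOn, Finset.sum_comm]
    have e1 : ((ℓ ^ 3 : ℕ) : ℝ) * (3 / ℓ * ((∑ i, ∑ j, if i = j then 0 else
        (dist (x i) (x j) + 1) * g (dist (x i) (x j))) / 2)) =
        (∑ i, ∑ j, 3 * (ℓ : ℝ) ^ 2 * if i = j then 0 else
        (dist (x i) (x j) + 1) * g (dist (x i) (x j))) / 2 := by
      simp only [← Finset.mul_sum]
      push_cast
      field_simp
    rw [e1]
    gcongr with i _
    rw [Finset.sum_comm]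
    gcongr with j _
    split_ifs with hij
    · subst hij
      simp
    · have h1 := sl_shift_count hℓ (hx i) (hx j)
      have h2 := hg0 _ (dist_nonneg (x := x i) (y := x j))
      calc _ = (∑ t : Fin 3 → Fin ℓ, (if slK ℓ t (x i) = slK ℓ t (x j) then (0 : ℝ) else 1)) *
            g (dist (x i) (x j)) := by
            rw [Finset.sum_mul]
            apply Finset.sum_congr rfl
            intro t _
            split_ifs <;> simp
        _ ≤ (3 * (ℓ : ℝ) ^ 2 * (dist (x i) (x j) + 1)) * g (dist (x i) (x j)) := by gcongr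
        _ = _ := by ring
  obtain ⟨t, -, ht⟩ := Finset.exists_le_of_sum_le Finset.univ_nonempty key
  exact ⟨t, ht⟩

lemma sl_sum_fib {N : ℕ} {C : Type} [Fintype C] [DecidableEq C] (κ : Fin N → C)
    (F : Fin N → Fin N → ℝ) :
    ∑ c, ∑ i ∈ fib κ c, ∑ j ∈ fib κ c, F i j = ∑ i, ∑ j, if κ i = κ j then F i j else 0 := by
  have hfib : ∀ c, fib κ c = Finset.univ.filter fun i => κ i = c := by
    intro c
    ext i
    simp [mem_fib]
  simp only [hfib]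
  rw [← Finset.sum_fiberwise Finset.univ κ
    (fun i => ∑ j, if κ i = κ j then F i j else 0)]
  apply Finset.sum_congr rfl
  intro c _
  apply Finset.sum_congr rfl
  intro i hi
  rw [Finset.sum_filter]
  apply Finset.sum_congr rfl
  intro j _
  rw [(Finset.mem_filter.1 hi).2]
  simp only [eq_comm]

lemma sl_sum_card {N : ℕ} {C : Type} [Fintype C] [DecidableEq C] (κ : Fin N → C) :
    ∑ c, ((fib κ c).card : ℝ) = N := by
  have hfib : ∀ c, fib κ c = Finset.univ.filter fun i => κ i = c := by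
    intro c
    ext i
    simp [mem_fib]
  simp only [hfib]
  rw [← Nat.cast_sum, ← Finset.card_eq_sum_card_fiberwise (fun _ _ => Finset.mem_univ _)]
  simp

lemma sl_mem_cube {ℓ : ℕ} (hℓ : 1 ≤ ℓ) (t : Fin 3 → Fin ℓ) {p : Pt} (hp : ∀ a, 0 ≤ p a) :
    p - (-latt (fun a => ((t a : ℕ) : ℤ)) + (ℓ : ℝ) • latt (fun a => (slK ℓ t p a : ℤ))) ∈
      cube ℓ := by
  intro a
  have h1 := Nat.div_add_mod (⌊p a⌋₊ + (t a : ℕ)) ℓ
  have h2 := Nat.mod_lt (⌊p a⌋₊ + (t a : ℕ)) hℓ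
  have h3 : ((ℓ * ((⌊p a⌋₊ + (t a : ℕ)) / ℓ) + (⌊p a⌋₊ + (t a : ℕ)) % ℓ : ℕ) : ℝ) =
      ((⌊p a⌋₊ + (t a : ℕ) : ℕ) : ℝ) := by rw [h1]
  have h4 : (((⌊p a⌋₊ + (t a : ℕ)) % ℓ + 1 : ℕ) : ℝ) ≤ ℓ := by exact_mod_cast h2
  have h5 := Nat.floor_le (hp a)
  have h6 := Nat.lt_floor_add_one (p a)
  have h7 : (0 : ℝ) ≤ (((⌊p a⌋₊ + (t a : ℕ)) % ℓ : ℕ) : ℝ) := Nat.cast_nonneg _
  rw [Nat.cast_add, Nat.cast_mul, Nat.cast_add] at h3
  rw [Nat.cast_add, Nat.cast_one] at h4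
  have e : (p - (-latt (fun a => ((t a : ℕ) : ℤ)) +
      (ℓ : ℝ) • latt (fun a => (slK ℓ t p a : ℤ)))) a =
      p a + ((t a : ℕ) : ℝ) - ℓ * (((⌊p a⌋₊ + (t a : ℕ)) / ℓ : ℕ) : ℝ) := by
    simp only [latt, slK, PiLp.sub_apply, PiLp.add_apply, PiLp.neg_apply, PiLp.smul_apply,
      smul_eq_mul, Int.cast_natCast]
    ring
  rw [e]
  constructor <;> linarith

lemma sl_adm {Φ : ℝ → ℝ} {κ B s : ℝ} (hΦm : Measurable Φ) (hss : SStable Φ κ B)
    (hs : 2 * s ≤ κ) : Adm fun r => Φ r - 2 * s * chi r := by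
  refine ⟨hΦm.sub (measurable_chi.const_mul _), B, fun N x => ?_⟩
  rw [energy_sub, energy_const_mul]
  have h1 := hss N x
  have h2 := energy_nonneg (Φ := chi) (fun r _ => chi_nonneg r) x
  nlinarith

/-- The geometric step: decomposition along the best shifted grid. -/
lemma sl_decomp {Φ Ψ g : ℝ → ℝ} {κ B S a μ : ℝ} {ℓ : ℕ} (hℓ : 1 ≤ ℓ)
    (hΦm : Measurable Φ) (hss : SStable Φ κ B) (hκ : 2 ≤ κ)
    (hadm : Adm fun r => Φ r - Ψ r)
    (hg0 : ∀ r, 0 ≤ r → 0 ≤ g r) (hg : ∀ r, 0 ≤ r → -g r ≤ Φ r)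
    (hS : ∀ (N : ℕ) (x : Fin N → Pt), energy (fun r => (r + 1) * g r) x ≤ S * Qn x Finset.univ)
    (hS0 : 0 ≤ S) (hSℓ : 3 * S ≤ ℓ)
    (hΨ : ∀ (N : ℕ) (x : Fin N → Pt) (o : Pt) (k : Fin N → Fin 3 → ℤ),
      (∀ i, x i - (o + (ℓ : ℝ) • latt (k i)) ∈ cube ℓ) →
        energy Ψ x ≤ a / (2 * (ℓ : ℝ) ^ 3) * ∑ i, ∑ j, if k i = k j then (1 : ℝ) else 0)
    (L : ℝ) (N : ℕ) :
    Real.exp (μ * N) * Zr (fun r => Φ r - Ψ r) L N ≤
      (ℓ : ℝ) ^ 3 * (∑ n ∈ Finset.range (N + 1),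
        Real.exp ((μ + 3 * S / ℓ) * n + a * (n : ℝ) ^ 2 / (2 * (ℓ : ℝ) ^ 3)) *
          Zr (fun r => Φ r - 2 * (3 * S / ℓ) * chi r) ℓ n) ^ ((⌊L⌋₊ / ℓ + 2) ^ 3) := by
  have hℓ' : (0 : ℝ) < ℓ := by exact_mod_cast hℓ
  set s := 3 * S / ℓ with hs
  have hs0 : 0 ≤ s := by positivity
  have hs1 : s ≤ 1 := by rw [hs, div_le_one hℓ']; exact hSℓ
  have hadm' : Adm fun r => Φ r - 2 * s * chi r := sl_adm hΦm hss (by linarith)
  have key := decomp_upper (N := N) (T := Fin 3 → Fin ℓ) (C := Fin 3 → Fin (⌊L⌋₊ / ℓ + 2))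
    hadm' hadm L hℓ'
    (fun t c => -latt (fun b => ((t b : ℕ) : ℤ)) + (ℓ : ℝ) • latt (fun b => ((c b : ℕ) : ℤ)))
    (fun n => (μ + s) * n + a * (n : ℝ) ^ 2 / (2 * (ℓ : ℝ) ^ 3)) (μ * N) (by
      intro x hx
      have hx0 : ∀ i b, 0 ≤ x i b := fun i b => (hx i b).1
      obtain ⟨t, ht⟩ := sl_exists_shift hℓ hg0 x hx0
      have hlt : ∀ i b, slK ℓ t (x i) b < ⌊L⌋₊ / ℓ + 2 := by
        intro i b
        have h1 : ⌊x i b⌋₊ ≤ ⌊L⌋₊ := Nat.floor_le_floor (hx i b).2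
        have h2 : (⌊x i b⌋₊ + (t b : ℕ)) / ℓ ≤ (⌊L⌋₊ + ℓ) / ℓ :=
          Nat.div_le_div_right (by have := (t b).2; omega)
        rw [Nat.add_div_right _ hℓ] at h2
        unfold slK
        omega
      let kk : Fin N → Fin 3 → Fin (⌊L⌋₊ / ℓ + 2) := fun i b => ⟨slK ℓ t (x i) b, hlt i b⟩
      have hkk : ∀ i j, kk i = kk j ↔ slK ℓ t (x i) = slK ℓ t (x j) := by
        intro i j
        simp only [funext_iff, kk, Fin.mk.injEq]
      have hkk' : ∀ i j, (fun b => (slK ℓ t (x i) b : ℤ)) = (fun b => (slK ℓ t (x j) b : ℤ)) ↔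
          kk i = kk j := by
        intro i j
        simp only [hkk, funext_iff, Nat.cast_inj]
      refine ⟨t, kk, fun i => sl_mem_cube hℓ t (hx0 i), ?_⟩
      have h1 := energy_split Φ x kk
      have h2 := hΨ N x (-latt (fun b => ((t b : ℕ) : ℤ))) (fun i b => (slK ℓ t (x i) b : ℤ))
        (fun i => sl_mem_cube hℓ t (hx0 i))
      simp only [hkk'] at h2
      rw [← sl_sum_fib kk (fun _ _ => (1 : ℝ))] at h2
      simp only [Finset.sum_const, nsmul_eq_mul, mul_one] at h2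
      have h3 : -(∑ i, ∑ j, if slK ℓ t (x i) = slK ℓ t (x j) then 0 else g (dist (x i) (x j))) ≤
          ∑ i, ∑ j, if kk i = kk j then 0 else Φ (dist (x i) (x j)) := by
        rw [← Finset.sum_neg_distrib]
        gcongr with i _
        rw [← Finset.sum_neg_distrib]
        gcongr with j _
        simp only [hkk]
        split_ifs
        · simp
        · exact hg _ dist_nonneg
      have h4 : Qn x Finset.univ = ∑ c, Qn x (fib kk c) := by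
        simp only [Qn]
        rw [sl_sum_fib]
        apply Finset.sum_congr rfl
        intro i _
        apply Finset.sum_congr rfl
        intro j _
        by_cases hc : cellOf (x i) = cellOf (x j)
        · have : kk i = kk j := by
            rw [hkk]
            funext b
            have h5 : ⌊x i b⌋ = ⌊x j b⌋ := congrFun hc b
            have h6 : ⌊x i b⌋₊ = ⌊x j b⌋₊ := by
              rw [← Int.floor_toNat, ← Int.floor_toNat, h5]
            simp only [slK, h6]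
          rw [if_pos this]
        · simp [hc]
      have h5 : Qn x Finset.univ ≤ ∑ c, (((fib kk c).card : ℝ) + 2 * EnOn chi x (fib kk c)) := by
        rw [h4]
        exact Finset.sum_le_sum fun c _ => Qn_le x _
      have h6 : 3 / ℓ * energy (fun r => (r + 1) * g r) x ≤
          s * ∑ c, (((fib kk c).card : ℝ) + 2 * EnOn chi x (fib kk c)) := by
        calc _ ≤ 3 / ℓ * (S * Qn x Finset.univ) := by gcongr; exact hS N x
          _ = s * Qn x Finset.univ := by rw [hs]; ring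
          _ ≤ _ := by gcongr
      have h7 := sl_sum_card kk
      have h8 : ∑ c, ((μ + s) * ((fib kk c).card : ℝ) +
          a * ((fib kk c).card : ℝ) ^ 2 / (2 * (ℓ : ℝ) ^ 3) -
          EnOn (fun r => Φ r - 2 * s * chi r) x (fib kk c)) =
          μ * ∑ c, ((fib kk c).card : ℝ) +
          s * ∑ c, (((fib kk c).card : ℝ) + 2 * EnOn chi x (fib kk c)) +
          a / (2 * (ℓ : ℝ) ^ 3) * ∑ c, ((fib kk c).card : ℝ) * ((fib kk c).card : ℝ) -
          ∑ c, EnOn Φ x (fib kk c) := by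
        simp only [Finset.mul_sum, ← Finset.sum_add_distrib, ← Finset.sum_sub_distrib]
        apply Finset.sum_congr rfl
        intro c _
        rw [EnOn_sub, EnOn_const_mul]
        ring
      rw [h8, h7, energy_sub]
      linarith)
  simpa only [Fintype.card_fun, Fintype.card_fin, Nat.cast_pow] using key

/-- The single-cell estimates. -/
lemma sl_term_one {Φ : ℝ → ℝ} {κ B a μ : ℝ} {ℓ : ℕ} (hℓ : 1 ≤ ℓ)
    (hΦm : Measurable Φ) (hss : SStable Φ κ B) (hB : 0 ≤ B) (hκ₁ : 2 * B + 8 ≤ κ)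
    (hκ₂ : 16 * a + 2 ≤ κ) (ha : 0 ≤ a) (hμ : μ ≤ 0) (n : ℕ) :
    ((n : ℝ) ≤ 32 * (ℓ : ℝ) ^ 3 →
      (μ + 1) * n + a * (n : ℝ) ^ 2 / (2 * (ℓ : ℝ) ^ 3) + lZ (fun r => Φ r - 2 * 1 * chi r) ℓ n ≤
        (33 + 32 * B + 512 * a) * (ℓ : ℝ) ^ 3) ∧
    (32 * (ℓ : ℝ) ^ 3 ≤ n →
      (μ + 1) * n + a * (n : ℝ) ^ 2 / (2 * (ℓ : ℝ) ^ 3) + lZ (fun r => Φ r - 2 * 1 * chi r) ℓ n ≤
        -n) := by
  have hℓ' : (0 : ℝ) < ℓ := by exact_mod_cast hℓ
  have hℓ1 : (1 : ℝ) ≤ ℓ := by exact_mod_cast hℓ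
  have hadm : Adm fun r => Φ r - 2 * 1 * chi r := sl_adm hΦm hss (by linarith)
  set V := (ℓ : ℝ) ^ 3 with hV
  have hV0 : 0 < V := by positivity
  have hn0 : (0 : ℝ) ≤ n := Nat.cast_nonneg n
  have hid := ideal_le hV0 0 n
  simp only [zero_mul, zero_add, Real.exp_zero, mul_one] at hid
  have hμn : μ * n ≤ 0 := mul_nonpos_of_nonpos_of_nonneg hμ hn0
  constructor
  · intro hn
    have h1 := lZ_le_of_lower hadm hℓ' n (B * n) (fun x _ => by
      rw [energy_sub, energy_const_mul]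
      have h1 := hss n x
      have h2 := energy_nonneg (Φ := chi) (fun r _ => chi_nonneg r) x
      nlinarith)
    have h2 : a * (n : ℝ) ^ 2 / (2 * V) ≤ 512 * a * V := by
      rw [div_le_iff₀ (by positivity)]
      have : (n : ℝ) ^ 2 ≤ (32 * V) ^ 2 := by gcongr
      nlinarith
    have h3 : B * n ≤ B * (32 * V) := by gcongr
    rw [← hV] at h1
    generalize a * (n : ℝ) ^ 2 / (2 * V) = Q at h2 ⊢
    linarith
  · intro hn
    set u := (n : ℝ) / V with hu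
    have hu32 : 32 ≤ u := by rw [hu, le_div_iff₀ hV0]; exact hn
    have hnu : (n : ℝ) = u * V := by rw [hu]; field_simp
    have h1 := lZ_le_of_lower hadm hℓ' n (B * n - (κ - 2) * ((n * u / 8 - n) / 2)) (fun x hx => by
      rw [energy_sub, energy_const_mul]
      have h1 := hss n x
      have h2 := Qn_le x Finset.univ
      have h3 := card_sq_le_Qn hℓ'.le x Finset.univ (fun i _ => hx i)
      rw [← energy_eq_EnOn] at h2
      simp only [Finset.card_univ, Fintype.card_fin] at h2 h3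
      have h4 : ((ℓ : ℝ) + 1) ^ 3 ≤ 8 * V := by
        calc ((ℓ : ℝ) + 1) ^ 3 ≤ (2 * ℓ) ^ 3 := by gcongr; linarith
          _ = 8 * V := by rw [hV]; ring
      have h5 := Qn_nonneg x Finset.univ
      have h6 : (n : ℝ) ^ 2 ≤ 8 * V * Qn x Finset.univ := h3.trans (by gcongr)
      have h7 : n * u / 8 ≤ Qn x Finset.univ := by
        rw [hu, ← mul_div_assoc, div_div, div_le_iff₀ (by positivity)]
        nlinarith
      have h8 : (n * u / 8 - n) / 2 ≤ energy chi x := by linarith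
      have h9 : (κ - 2) * ((n * u / 8 - n) / 2) ≤ (κ - 2) * energy chi x := by
        gcongr
        linarith
      linarith)
    rw [← hV] at h1
    have h2 : a * (n : ℝ) ^ 2 / (2 * V) = n * (a * u / 2) := by
      rw [hu]; field_simp
    have h3 : a * u / 2 + B + 3 ≤ (κ - 2) * (u / 16 - 1 / 2) := by
      have e1 : 16 * a * (u / 32) ≤ (κ - 2) * (u / 32) := by gcongr; linarith
      have e2 : (2 * B + 6) * (1 / 2) ≤ (κ - 2) * (u / 32 - 1 / 2) := by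
        gcongr <;> linarith
      linarith
    have h4 := mul_le_mul_of_nonneg_left h3 hn0
    rw [h2]
    nlinarith

lemma sl_geom (N : ℕ) : ∑ n ∈ Finset.range N, Real.exp (-(n : ℝ)) ≤ 2 := by
  have h1 : ∀ n : ℕ, Real.exp (-(n : ℝ)) ≤ (1 / 2 : ℝ) ^ n := by
    intro n
    have h2 : Real.exp (-1) ≤ 1 / 2 := by
      rw [Real.exp_neg, one_div]
      apply inv_anti₀ (by norm_num)
      have := Real.add_one_le_exp 1
      linarith
    calc Real.exp (-(n : ℝ)) = Real.exp (-1) ^ n := by rw [← Real.exp_nat_mul]; simp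
      _ ≤ _ := by gcongr
  exact (Finset.sum_le_sum fun n _ => h1 n).trans (sum_geometric_two_le N)

theorem slide_upper {Φ Ψ g : ℝ → ℝ} {D κ B S a μ : ℝ} {ℓ : ℕ} (hℓ : 1 ≤ ℓ)
    (hΦm : Measurable Φ) (hss : SStable Φ κ B) (hB : 0 ≤ B) (hκ₁ : 2 * B + 8 ≤ κ)
    (hκ₂ : 16 * a + 2 ≤ κ) (ha : 0 ≤ a) (hμ : μ ≤ 0)
    (hadm : Adm fun r => Φ r - Ψ r) (hD : 0 < D) (hneg : ∀ r, D ≤ r → Φ r - Ψ r ≤ 0)
    (hg0 : ∀ r, 0 ≤ r → 0 ≤ g r) (hg : ∀ r, 0 ≤ r → -g r ≤ Φ r)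
    (hS : ∀ (N : ℕ) (x : Fin N → Pt), energy (fun r => (r + 1) * g r) x ≤ S * Qn x Finset.univ)
    (hS0 : 0 ≤ S) (hSℓ : 3 * S ≤ ℓ)
    (hΨ : ∀ (N : ℕ) (x : Fin N → Pt) (o : Pt) (k : Fin N → Fin 3 → ℤ),
      (∀ i, x i - (o + (ℓ : ℝ) • latt (k i)) ∈ cube ℓ) →
        energy Ψ x ≤ a / (2 * (ℓ : ℝ) ^ 3) * ∑ i, ∑ j, if k i = k j then (1 : ℝ) else 0) :
    ∃ n : ℕ, (n : ℝ) ≤ 32 * (ℓ : ℝ) ^ 3 ∧
      press D (fun r => Φ r - Ψ r) μ ≤
        (μ * n + a * (n : ℝ) ^ 2 / (2 * (ℓ : ℝ) ^ 3) + lZ Φ ℓ n) / (ℓ : ℝ) ^ 3 +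
          (3 * S * (33 + 32 * B + 512 * a) + 7) / ℓ := by
  have hℓ' : (0 : ℝ) < ℓ := by exact_mod_cast hℓ
  have hℓ1 : (1 : ℝ) ≤ ℓ := by exact_mod_cast hℓ
  set s := 3 * S / ℓ with hs
  have hs0 : 0 ≤ s := by positivity
  have hs1 : s ≤ 1 := by rw [hs, div_le_one hℓ']; exact hSℓ
  have hadm0 : Adm Φ := ⟨hΦm, B, hss.stable (by linarith)⟩
  have hadm1 : Adm fun r => Φ r - 2 * 1 * chi r := sl_adm hΦm hss (by linarith)
  have hadms : Adm fun r => Φ r - 2 * s * chi r := sl_adm hΦm hss (by linarith)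
  set C₁ := 33 + 32 * B + 512 * a with hC₁
  have hC₁0 : 0 ≤ C₁ := by positivity
  let f : ℕ → ℝ := fun n => μ * n + a * (n : ℝ) ^ 2 / (2 * (ℓ : ℝ) ^ 3) + lZ Φ ℓ n
  obtain ⟨n₀, hn₀, hmax⟩ := Finset.exists_max_image (Finset.range (32 * ℓ ^ 3 + 1)) f
    ⟨0, by simp⟩
  have hn₀' : (n₀ : ℝ) ≤ 32 * (ℓ : ℝ) ^ 3 := by
    have := Nat.lt_succ_iff.1 (Finset.mem_range.1 hn₀)
    exact_mod_cast this
  have hV0 : 0 ≤ f n₀ := by
    have := hmax 0 (by simp)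
    simpa [f, lZ_zero] using this
  refine ⟨n₀, hn₀', ?_⟩
  change _ ≤ f n₀ / _ + _
  set V := f n₀ with hV
  set Y := V + s * (C₁ * (ℓ : ℝ) ^ 3) with hY
  have hY0 : 0 ≤ Y := by positivity
  set X := Y + 7 * (ℓ : ℝ) ^ 2 with hX
  have hX0 : 0 ≤ X := by positivity
  have hterm : ∀ n : ℕ, Real.exp ((μ + s) * n + a * (n : ℝ) ^ 2 / (2 * (ℓ : ℝ) ^ 3)) *
      Zr (fun r => Φ r - 2 * s * chi r) ℓ n ≤
      (if n ∈ Finset.range (32 * ℓ ^ 3 + 1) then Real.exp Y else 0) + Real.exp (-(n : ℝ)) := by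
    intro n
    rw [← exp_lZ hadms hℓ', ← Real.exp_add]
    have hone := sl_term_one hℓ hΦm hss hB hκ₁ hκ₂ ha hμ n
    have hn0 : (0 : ℝ) ≤ n := Nat.cast_nonneg n
    split_ifs with hn
    · have hn' : (n : ℝ) ≤ 32 * (ℓ : ℝ) ^ 3 := by
        have := Nat.lt_succ_iff.1 (Finset.mem_range.1 hn)
        exact_mod_cast this
      have h1 := hone.1 hn'
      have h2 := hmax n hn
      have h3 := lZ_holder hadm0 hadm1 hℓ' n (s := 1 - s) (t := s) (by linarith) hs0 (by ring)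
      have h4 : (fun r => (1 - s) * Φ r + s * (Φ r - 2 * 1 * chi r)) =
          fun r => Φ r - 2 * s * chi r := by
        funext r; ring
      rw [h4] at h3
      have h5 := mul_le_mul_of_nonneg_left h1 hs0
      have h6 := mul_le_mul_of_nonneg_left h2 (show 0 ≤ 1 - s by linarith)
      have h7 : 0 ≤ s * V := by positivity
      refine le_trans (Real.exp_le_exp.2 (?_ : _ ≤ Y)) (le_add_of_nonneg_right (Real.exp_pos _).le)
      simp only [f] at h6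
      rw [hY, hC₁]
      generalize a * (n : ℝ) ^ 2 / (2 * (ℓ : ℝ) ^ 3) = Q at h5 h6 ⊢
      linarith
    · have hn' : 32 * (ℓ : ℝ) ^ 3 ≤ n := by
        have : 32 * ℓ ^ 3 ≤ n := by
          rw [Finset.mem_range] at hn
          omega
        exact_mod_cast this
      have h1 := hone.2 hn'
      have h2 := lZ_le_of_energy hadm1 hadms hℓ' n 0 (fun x _ => by
        rw [sub_zero]
        apply energy_mono
        intro r _
        have := chi_nonneg r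
        nlinarith)
      rw [zero_add]
      apply Real.exp_le_exp.2
      have h3 := mul_le_mul_of_nonneg_right hs1 hn0
      generalize a * (n : ℝ) ^ 2 / (2 * (ℓ : ℝ) ^ 3) = Q at h1 ⊢
      linarith
  have hXi : ∀ N : ℕ, ∑ n ∈ Finset.range (N + 1),
      Real.exp ((μ + s) * n + a * (n : ℝ) ^ 2 / (2 * (ℓ : ℝ) ^ 3)) *
        Zr (fun r => Φ r - 2 * s * chi r) ℓ n ≤ Real.exp X := by
    intro N
    refine (Finset.sum_le_sum fun n _ => hterm n).trans ?_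
    rw [Finset.sum_add_distrib, Finset.sum_ite_mem, Finset.sum_const, nsmul_eq_mul]
    have h1 : ((Finset.range (N + 1) ∩ Finset.range (32 * ℓ ^ 3 + 1)).card : ℝ) ≤
        32 * (ℓ : ℝ) ^ 3 + 1 := by
      have := Finset.card_le_card (Finset.inter_subset_right (s₁ := Finset.range (N + 1))
        (s₂ := Finset.range (32 * ℓ ^ 3 + 1)))
      rw [Finset.card_range] at this
      exact_mod_cast this
    have h2 := sl_geom (N + 1)
    have h3 : 1 ≤ Real.exp Y := Real.one_le_exp hY0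
    have h4 : 32 * (ℓ : ℝ) ^ 3 + 3 ≤ Real.exp (7 * (ℓ : ℝ) ^ 2) := by
      have h5 := Real.pow_div_factorial_le_exp (7 * (ℓ : ℝ) ^ 2) (by positivity) 3
      have h6 : (1 : ℝ) ≤ (ℓ : ℝ) ^ 3 := one_le_pow₀ hℓ1
      have h7 : (7 * (ℓ : ℝ) ^ 2) ^ 3 / ((Nat.factorial 3 : ℕ) : ℝ) =
          343 / 6 * ((ℓ : ℝ) ^ 3 * (ℓ : ℝ) ^ 3) := by
        norm_num [Nat.factorial]; ring
      rw [h7] at h5
      nlinarith
    have h8 : Real.exp X = Real.exp Y * Real.exp (7 * (ℓ : ℝ) ^ 2) := Real.exp_add _ _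
    rw [h8]
    have h9 := mul_le_mul_of_nonneg_right h1 (Real.exp_pos Y).le
    have h10 := mul_le_mul_of_nonneg_left h4 (Real.exp_pos Y).le
    linarith
  have hfin : V / (ℓ : ℝ) ^ 3 + (3 * S * C₁ + 7) / ℓ = X / (ℓ : ℝ) ^ 3 := by
    rw [hX, hY, hs]
    field_simp
    ring
  rw [hfin]
  apply press_le_of_large hadm hD hneg
  intro ε hε
  refine ⟨max 1 ((3 * ℓ + 26 * X) / ε), fun L hL hL0 N => ?_⟩
  have hL1 : 1 ≤ L := (le_max_left _ _).trans hL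
  have hL2 : 3 * ℓ + 26 * X ≤ L * ε := by
    have := (le_max_right _ _).trans hL
    rwa [div_le_iff₀ hε] at this
  have h1 := sl_decomp (μ := μ) hℓ hΦm hss (by linarith) hadm hg0 hg hS hS0 hSℓ hΨ L N
  rw [← hs, ← exp_lZ hadm hL0, ← Real.exp_add] at h1
  have h2 : Real.exp (μ * N + lZ (fun r => Φ r - Ψ r) L N) ≤
      Real.exp (3 * ℓ + (((⌊L⌋₊ / ℓ + 2) ^ 3 : ℕ) : ℝ) * X) := by
    refine h1.trans ?_
    rw [Real.exp_add, Real.exp_nat_mul]
    have h0 : 0 ≤ ∑ n ∈ Finset.range (N + 1),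
        Real.exp ((μ + s) * n + a * (n : ℝ) ^ 2 / (2 * (ℓ : ℝ) ^ 3)) *
          Zr (fun r => Φ r - 2 * s * chi r) ℓ n :=
      Finset.sum_nonneg fun n _ => mul_nonneg (Real.exp_pos _).le (Zr_nonneg _ _ _)
    apply mul_le_mul _ (pow_le_pow_left₀ h0 (hXi N) _) (pow_nonneg h0 _) (Real.exp_pos _).le
    have h3 : (ℓ : ℝ) ≤ Real.exp ℓ := by linarith [Real.add_one_le_exp (ℓ : ℝ)]
    calc (ℓ : ℝ) ^ 3 ≤ Real.exp ℓ ^ 3 := by gcongr
      _ = _ := by rw [← Real.exp_nat_mul]; norm_num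
  have h3 := Real.exp_le_exp.1 h2
  have h4 : (((⌊L⌋₊ / ℓ + 2) ^ 3 : ℕ) : ℝ) ≤ (L / ℓ + 2) ^ 3 := by
    rw [Nat.cast_pow, Nat.cast_add]
    have h5 : ((⌊L⌋₊ / ℓ : ℕ) : ℝ) ≤ L / ℓ :=
      Nat.cast_div_le.trans (by gcongr; exact Nat.floor_le hL0.le)
    gcongr
    norm_num
  have h5 : (L / ℓ + 2) ^ 3 ≤ L ^ 3 / (ℓ : ℝ) ^ 3 + 26 * L ^ 2 := by
    have h6 : L / ℓ ≤ L := div_le_self hL0.le hℓ1
    have h7 : 0 ≤ L / ℓ := by positivity
    rw [← div_pow]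
    have h8 : (L / ℓ) ^ 2 ≤ L ^ 2 := by gcongr
    nlinarith
  have h6 : (((⌊L⌋₊ / ℓ + 2) ^ 3 : ℕ) : ℝ) * X ≤ (L ^ 3 / (ℓ : ℝ) ^ 3 + 26 * L ^ 2) * X := by
    gcongr
    exact h4.trans h5
  have h7 : 1 ≤ L ^ 2 := one_le_pow₀ hL1
  have h8 := mul_le_mul_of_nonneg_left hL2 (show 0 ≤ L ^ 2 by positivity)
  have h9 : (X / (ℓ : ℝ) ^ 3 + ε) * L ^ 3 = L ^ 3 / (ℓ : ℝ) ^ 3 * X + L ^ 2 * (L * ε) := by ring
  rw [h9]
  nlinarith

end Crest.Agent.R149
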