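import Crest.Agent.R149.Kac
import Crest.Agent.R149.Slide

/-! Row 149: one Lebowitz-Penrose step with an explicit error, and the tail estimate. -/

set_option autoImplicit false

namespace Crest.Agent.R149

open MeasureTheory Filter Topology Crest.ProbabilityR.Continuum

lemma st_cube_ratio {D ℓ : ℝ} (hD : 0 ≤ D) (hℓ : 0 < ℓ) (hDℓ : D ≤ ℓ) :
    (ℓ + D) ^ 3 ≤ ℓ ^ 3 * (1 + 7 * D / ℓ) := by
  have e : ℓ ^ 3 * (1 + 7 * D / ℓ) = ℓ ^ 3 + 7 * D * ℓ ^ 2 := by field_simp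
  rw [e]
  have h1 : D ^ 2 * ℓ ≤ D * ℓ ^ 2 := by nlinarith [mul_nonneg hD hℓ.le]
  have h2 : D ^ 3 ≤ D * ℓ ^ 2 := by nlinarith [mul_nonneg hD hℓ.le, mul_nonneg hD hD]
  nlinarith

theorem lp_step {Φ g : ℝ → ℝ} {D κ B S a b : ℝ} {ℓ w : ℕ} (hℓ : 1 ≤ ℓ) (hw : 1 ≤ w)
    (hΦm : Measurable Φ) (hss : SStable Φ κ B) (hB : 0 ≤ B) (hκ₁ : 2 * B + 8 ≤ κ)
    (hκ₂ : 16 * a + 2 ≤ κ) (hb : 0 ≤ b) (ha : 0 < a) (hab : a = b * (ℓ : ℝ) ^ 3 * sumUp w)
    (hadm : Adm fun r => Φ r - b * psi (r / ((w : ℝ) * (ℓ : ℝ)))) (hD : 0 < D) (hDℓ : D ≤ ℓ)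
    (hneg : ∀ r, D ≤ r → Φ r ≤ 0)
    (hg0 : ∀ r, 0 ≤ r → 0 ≤ g r) (hg : ∀ r, 0 ≤ r → -g r ≤ Φ r)
    (hS : ∀ (N : ℕ) (x : Fin N → Pt), energy (fun r => (r + 1) * g r) x ≤ S * Qn x Finset.univ)
    (hS0 : 0 ≤ S) (hSℓ : 3 * S ≤ ℓ) (err : ℝ)
    (herr : (3 * S * (33 + 32 * B + 512 * a) + 7) / ℓ + 7 * D / ℓ * Real.exp (32 * a + B) +
      512 * (b * (ℓ : ℝ) ^ 3) * (1 + (2 * (w : ℝ) + 5) ^ 3 * (6 * D / ℓ + 4 / w)) ≤ err) :
    (∀ μ : ℝ, μ ≤ 0 → ∃ h : ℝ, 0 ≤ h ∧ h ≤ 32 * a ∧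
      press D (fun r => Φ r - b * psi (r / ((w : ℝ) * (ℓ : ℝ)))) μ ≤
        press D Φ (μ + h) - h ^ 2 / (2 * a) + err) ∧
    (∀ μ h : ℝ, μ + h ≤ 0 → press D Φ (μ + h) - h ^ 2 / (2 * a) - err ≤
      press D (fun r => Φ r - b * psi (r / ((w : ℝ) * (ℓ : ℝ)))) μ) := by
  have hℓ0 : (0 : ℝ) < ℓ := by exact_mod_cast hℓ
  have hw0 : (0 : ℝ) < w := by exact_mod_cast hw
  have hκ0 : 0 ≤ κ := by linarith
  have hst : Stable Φ B := hss.stable hκ0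
  have hΦ : Adm Φ := ⟨hΦm, B, hst⟩
  have hrat := st_cube_ratio hD.le hℓ0 hDℓ
  set Δ : ℝ := 1 + (2 * (w : ℝ) + 5) ^ 3 * (6 * D / ℓ + 4 / w) with hΔ
  have hΔ0 : 0 ≤ Δ := by positivity
  set e₁ : ℝ := (3 * S * (33 + 32 * B + 512 * a) + 7) / ℓ with he₁
  set e₂ : ℝ := 7 * D / ℓ * Real.exp (32 * a + B) with he₂
  set e₃ : ℝ := 512 * (b * (ℓ : ℝ) ^ 3) * Δ with he₃
  have he₁0 : 0 ≤ e₁ := by positivity
  have he₂0 : 0 ≤ e₂ := by positivity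
  have he₃0 : 0 ≤ e₃ := by positivity
  have hℓ3 : (0 : ℝ) < (ℓ : ℝ) ^ 3 := by positivity
  constructor
  · intro μ hμ
    obtain ⟨n, hn, hP⟩ := slide_upper (Ψ := fun r => b * psi (r / ((w : ℝ) * (ℓ : ℝ)))) (g := g)
      (S := S) (a := a) (μ := μ) hℓ hΦm hss hB hκ₁ hκ₂ ha.le hμ hadm hD
      (fun r hr => by
        have := hneg r hr
        have := mul_nonneg hb (psi_nonneg (r / ((w : ℝ) * (ℓ : ℝ))))
        linarith)
      hg0 hg hS hS0 hSℓ (fun N x o k hk => by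
        rw [energy_const_mul]
        have h1 := mul_le_mul_of_nonneg_left (kac_upper hw hℓ0 x o k hk) hb
        refine h1.trans (le_of_eq ?_)
        rw [hab]; field_simp)
    have hn0 : (0 : ℝ) ≤ n := Nat.cast_nonneg n
    have han := mul_le_mul_of_nonneg_left hn ha.le
    refine ⟨a * n / (ℓ : ℝ) ^ 3, by positivity, ?_, ?_⟩
    · rw [div_le_iff₀ hℓ3]; linarith
    · set h := a * n / (ℓ : ℝ) ^ 3 with hh
      have hh32 : h ≤ 32 * a := by rw [hh, div_le_iff₀ hℓ3]; linarith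
      have h1 := le_press' hΦ hD.le (μ + h) hℓ0 n
      have hP0 := press_nonneg hΦ hD.le (μ + h)
      have hPe : press D Φ (μ + h) ≤ Real.exp (32 * a + B) :=
        (press_le_exp hΦm hst hD.le (μ + h)).trans (Real.exp_le_exp.mpr (by linarith))
      have e1 : μ * n + a * (n : ℝ) ^ 2 / (2 * (ℓ : ℝ) ^ 3) =
          (μ + h) * n - h ^ 2 / (2 * a) * (ℓ : ℝ) ^ 3 := by
        rw [hh]; field_simp; ring
      have h2 : (μ * n + a * (n : ℝ) ^ 2 / (2 * (ℓ : ℝ) ^ 3) + lZ Φ ℓ n) / (ℓ : ℝ) ^ 3 ≤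
          press D Φ (μ + h) - h ^ 2 / (2 * a) + e₂ := by
        rw [div_le_iff₀ hℓ3, e1]
        have h3 : ((ℓ : ℝ) + D) ^ 3 * press D Φ (μ + h) ≤
            (ℓ : ℝ) ^ 3 * (1 + 7 * D / ℓ) * press D Φ (μ + h) :=
          mul_le_mul_of_nonneg_right hrat hP0
        have h4 : 7 * D / ℓ * press D Φ (μ + h) ≤ e₂ :=
          mul_le_mul_of_nonneg_left hPe (by positivity)
        have h5 := mul_le_mul_of_nonneg_left h4 hℓ3.le
        linarith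
      linarith
  · intro μ h hμh
    have hadm0 : Adm fun r => Φ r - (fun _ : ℝ => (0 : ℝ)) r := by simpa using hΦ
    obtain ⟨n, hn, hP⟩ := slide_upper (Ψ := fun _ => 0) (g := g)
      (S := S) (a := 0) (μ := μ + h) hℓ hΦm hss hB hκ₁ (by linarith) le_rfl hμh hadm0 hD
      (fun r hr => by simpa using hneg r hr)
      hg0 hg hS hS0 hSℓ (fun N x o k hk => by simp [energy])
    have hn0 : (0 : ℝ) ≤ n := Nat.cast_nonneg n
    have e0 : (fun r => Φ r - (fun _ : ℝ => (0 : ℝ)) r) = Φ := by funext r; simp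
    rw [e0] at hP
    have hlow := kac_press_lower hΦ hw hℓ0 hb hD hneg hadm μ n
    have hP' := press_nonneg hadm hD.le μ
    have hPe : press D Φ (μ + h) ≤ Real.exp (32 * a + B) :=
      (press_le_exp hΦm hst hD.le (μ + h)).trans (Real.exp_le_exp.mpr (by linarith))
    have he₁' : (3 * S * (33 + 32 * B + 512 * 0) + 7) / ℓ ≤ e₁ := by
      rw [he₁]; gcongr
    set Y : ℝ := press D Φ (μ + h) - h ^ 2 / (2 * a) - e₁ - e₃ with hY
    have hsum := sumUp_sub_sumLo hw hℓ0 hD.le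
    -- numerator bound
    have hnum : (ℓ : ℝ) ^ 3 * Y ≤ μ * n + lZ Φ ℓ n + b * sumLo w ℓ D * (n : ℝ) ^ 2 / 2 := by
      have h1 : (ℓ : ℝ) ^ 3 * (press D Φ (μ + h) - e₁) ≤ (μ + h) * n + lZ Φ ℓ n := by
        have h2 : press D Φ (μ + h) - e₁ ≤ ((μ + h) * n + lZ Φ ℓ n) / (ℓ : ℝ) ^ 3 := by
          simp only [zero_mul, zero_div, add_zero] at hP
          simp only [mul_zero, add_zero] at he₁' hP
          linarith
        rwa [le_div_iff₀ hℓ3, mul_comm] at h2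
      have h3 : h * n - h ^ 2 / (2 * a) * (ℓ : ℝ) ^ 3 ≤ b * sumUp w * (n : ℝ) ^ 2 / 2 := by
        have e2 : b * sumUp w * (n : ℝ) ^ 2 / 2 = a * (n : ℝ) ^ 2 / (2 * (ℓ : ℝ) ^ 3) := by
          rw [hab]; field_simp
        have e3 : a * (n : ℝ) ^ 2 / (2 * (ℓ : ℝ) ^ 3) - (h * n - h ^ 2 / (2 * a) * (ℓ : ℝ) ^ 3) =
            (a * n - h * (ℓ : ℝ) ^ 3) ^ 2 / (2 * a * (ℓ : ℝ) ^ 3) := by
          field_simp; ring
        have : 0 ≤ (a * n - h * (ℓ : ℝ) ^ 3) ^ 2 / (2 * a * (ℓ : ℝ) ^ 3) := by positivity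
        linarith
      have h4 : b * (sumUp w - sumLo w ℓ D) * (n : ℝ) ^ 2 / 2 ≤ (ℓ : ℝ) ^ 3 * e₃ := by
        have h5 : b * (sumUp w - sumLo w ℓ D) ≤ b * Δ := mul_le_mul_of_nonneg_left hsum hb
        have h6 : (n : ℝ) ^ 2 ≤ (32 * (ℓ : ℝ) ^ 3) ^ 2 := by gcongr
        have h7 : b * (sumUp w - sumLo w ℓ D) * (n : ℝ) ^ 2 ≤ b * Δ * (n : ℝ) ^ 2 :=
          mul_le_mul_of_nonneg_right h5 (by positivity)
        have h8 : b * Δ * (n : ℝ) ^ 2 ≤ b * Δ * (32 * (ℓ : ℝ) ^ 3) ^ 2 :=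
          mul_le_mul_of_nonneg_left h6 (by positivity)
        rw [he₃]
        linarith
      rw [hY]
      linarith
    have hℓD : (0 : ℝ) < ((ℓ : ℝ) + D) ^ 3 := by positivity
    by_cases hY0 : Y ≤ 0
    · linarith
    · push Not at hY0
      have hYe : Y ≤ Real.exp (32 * a + B) := by
        have : 0 ≤ h ^ 2 / (2 * a) := by positivity
        linarith
      have h1 : Y - e₂ ≤ (ℓ : ℝ) ^ 3 * Y / ((ℓ : ℝ) + D) ^ 3 := by
        rw [le_div_iff₀ hℓD]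
        have h2 : 7 * D / ℓ * Y ≤ e₂ := mul_le_mul_of_nonneg_left hYe (by positivity)
        by_cases h3 : Y - e₂ ≤ 0
        · have := mul_nonpos_of_nonpos_of_nonneg h3 hℓD.le
          have : 0 ≤ (ℓ : ℝ) ^ 3 * Y := by positivity
          linarith
        · push Not at h3
          have hx : 0 ≤ 7 * D / ℓ := by positivity
          have h4 : (Y - e₂) * ((ℓ : ℝ) + D) ^ 3 ≤ (Y - e₂) * ((ℓ : ℝ) ^ 3 * (1 + 7 * D / ℓ)) :=
            mul_le_mul_of_nonneg_left hrat h3.le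
          have h5 : (Y - e₂) * (1 + 7 * D / ℓ) ≤ Y := by linarith [mul_nonneg hx he₂0]
          have h6 := mul_le_mul_of_nonneg_left h5 hℓ3.le
          linarith
      have h7 : (ℓ : ℝ) ^ 3 * Y / ((ℓ : ℝ) + D) ^ 3 ≤
          (μ * n + lZ Φ ℓ n + b * sumLo w ℓ D * (n : ℝ) ^ 2 / 2) / ((ℓ : ℝ) + D) ^ 3 := by
        gcongr
      linarith

theorem press_tail {Φ Ψ : ℝ → ℝ} {D s B : ℝ} (hΦ : Adm Φ) (hΦ' : Adm fun r => Φ r - Ψ r)
    (h2 : Stable (fun r => Φ r - 2 * chi r) B) (hD : 0 ≤ D) (hs0 : 0 ≤ s) (hs1 : s ≤ 1)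
    (hΨ : ∀ (N : ℕ) (x : Fin N → Pt), energy Ψ x ≤ s * (N + 2 * energy chi x)) (μ : ℝ) :
    press D (fun r => Φ r - Ψ r) μ ≤ press D Φ μ + s * Real.exp (μ + 1 + B) := by
  have hm2 : Measurable fun r => Φ r - 2 * chi r := hΦ.1.sub (measurable_chi.const_mul 2)
  have hadm2 : Adm fun r => Φ r - 2 * chi r := ⟨hm2, B, h2⟩
  have hH := press_holder hΦ hadm2 hD μ (μ + 1) (s := 1 - s) (t := s) (by linarith) hs0 (by ring)
  have hc := hΦ.convex_comb hadm2 (s := 1 - s) (t := s) (by linarith) hs0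
  have h1 : press D (fun r => Φ r - Ψ r) μ ≤
      press D (fun r => (1 - s) * Φ r + s * (Φ r - 2 * chi r)) ((1 - s) * μ + s * (μ + 1)) := by
    refine press_le fun L N hL => le_trans ?_ (le_press hc hD _ hL N)
    have := lZ_le_of_energy hc hΦ' hL N (s * N) fun x _ => by
      rw [energy_add, energy_const_mul, energy_const_mul, energy_sub, energy_sub,
        energy_const_mul]
      have := hΨ N x
      linarith
    have hLD : (0 : ℝ) < (L + D) ^ 3 := by positivity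
    refine div_le_div_of_nonneg_right ?_ hLD.le
    linarith
  have h3 := press_le_exp hm2 h2 hD (μ + 1)
  have h4 := press_nonneg hΦ hD μ
  have h5 := mul_le_mul_of_nonneg_left h3 hs0
  have h6 := mul_nonneg hs0 h4
  linarith

end Crest.Agent.R149
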