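import Crest.Agent.R149.Seq
import Crest.Agent.R149.Step

/-! Row 149: the Lebowitz-Penrose recursion along the sequence of scales. -/

set_option autoImplicit false

namespace Crest.Agent.R149

open MeasureTheory Filter Topology Crest.ProbabilityR.Continuum

noncomputable def Pk (D : ℝ) (φ₀ : ℝ → ℝ) (A : ℝ) (Y k : ℕ) (β μ : ℝ) : ℝ :=
  press D (fun r => β * (φ₀ r - headk A Y k r)) μ

noncomputable def Pinf (D : ℝ) (φ₀ : ℝ → ℝ) (A : ℝ) (Y : ℕ) (β μ : ℝ) : ℝ :=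
  press D (fun r => β * (φ₀ r - tailk A Y 0 r)) μ

lemma energy_chi_nonneg {N : ℕ} (x : Fin N → Pt) : 0 ≤ energy chi x :=
  energy_nonneg (fun r _ => chi_nonneg r) x

lemma Qn_univ_le {N : ℕ} (x : Fin N → Pt) : Qn x Finset.univ ≤ N + 2 * energy chi x := by
  have := Qn_le x Finset.univ
  rwa [Finset.card_univ, Fintype.card_fin, ← energy_eq_EnOn] at this

lemma SStable.sub_of_Qn {φ Ψ : ℝ → ℝ} {κ B s : ℝ} (h : SStable φ κ B) (hs : 0 ≤ s)
    (hΨ : ∀ (N : ℕ) (x : Fin N → Pt), energy Ψ x ≤ s * Qn x Finset.univ) :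
    SStable (fun r => φ r - Ψ r) (κ - 2 * s) (B + s) := by
  intro N x
  rw [energy_sub]
  have h1 := h N x
  have h2 := hΨ N x
  have h3 := mul_le_mul_of_nonneg_left (Qn_univ_le x) hs
  linarith

lemma SStable.scale {φ : ℝ → ℝ} {κ B β : ℝ} (h : SStable φ κ B) (hκ : 0 ≤ κ) (hB : 0 ≤ B)
    (h1 : 1 / 2 ≤ β) (h2 : β ≤ 3 / 2) : SStable (fun r => β * φ r) (κ / 2) (3 / 2 * B) := by
  intro N x
  rw [energy_const_mul]
  have h3 := mul_le_mul_of_nonneg_left (h N x) (show 0 ≤ β by linarith)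
  have h4 := mul_le_mul_of_nonneg_right h1 (mul_nonneg hκ (energy_chi_nonneg x))
  have h5 := mul_le_mul_of_nonneg_right h2 (mul_nonneg hB (Nat.cast_nonneg (α := ℝ) N))
  linarith

lemma Adm.const_mul {φ : ℝ → ℝ} (h : Adm φ) {β : ℝ} (hβ : 0 ≤ β) : Adm fun r => β * φ r := by
  obtain ⟨hm, B, hB⟩ := h
  refine ⟨hm.const_mul β, β * B, fun N x => ?_⟩
  rw [energy_const_mul]
  have := mul_le_mul_of_nonneg_left (hB N x) hβ
  linarith

lemma sst_head {φ₀ : ℝ → ℝ} {κ₀ B₀ A : ℝ} (hss : SStable φ₀ κ₀ B₀) (hA : 0 < A) {Y : ℕ}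
    (hY : 2 ≤ Y) (k : ℕ) :
    SStable (fun r => φ₀ r - headk A Y k r) (κ₀ - 2 * (16000 * A)) (B₀ + 16000 * A) :=
  hss.sub_of_Qn (by positivity) fun _ x => energy_headk_le hA hY k x

lemma sst_tail {φ₀ : ℝ → ℝ} {κ₀ B₀ A : ℝ} (hss : SStable φ₀ κ₀ B₀) (hA : 0 < A) {Y : ℕ}
    (hY : 2 ≤ Y) :
    SStable (fun r => φ₀ r - tailk A Y 0 r) (κ₀ - 2 * (16000 * A)) (B₀ + 16000 * A) :=
  hss.sub_of_Qn (by positivity) fun _ x => by
    have := energy_tailk_le hA hY 0 x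
    rwa [ak_zero A hY] at this

lemma adm_head {φ₀ : ℝ → ℝ} {κ₀ B₀ A : ℝ} (hm : Measurable φ₀) (hss : SStable φ₀ κ₀ B₀)
    (hA : 0 < A) (hκ : 32000 * A ≤ κ₀) {Y : ℕ} (hY : 2 ≤ Y) (k : ℕ) :
    Adm fun r => φ₀ r - headk A Y k r :=
  ⟨hm.sub (continuous_headk A Y k).measurable, _, (sst_head hss hA hY k).stable (by linarith)⟩

lemma adm_tail {φ₀ : ℝ → ℝ} {κ₀ B₀ A : ℝ} (hm : Measurable φ₀) (hss : SStable φ₀ κ₀ B₀)
    (hA : 0 < A) (hκ : 32000 * A ≤ κ₀) {Y : ℕ} (hY : 2 ≤ Y) :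
    Adm fun r => φ₀ r - tailk A Y 0 r :=
  ⟨hm.sub (continuous_tailk hA hY 0).measurable, _, (sst_tail hss hA hY).stable (by linarith)⟩

/-- The numerical error bound of one step. -/
lemma mu_err {y CS B a A D b : ℝ} (hy : 1 ≤ y) (hCS : 0 ≤ CS) (hB : 0 ≤ B) (ha0 : 0 ≤ a)
    (ha : a ≤ 3 / 2 * A) (hD : 0 ≤ D) (_hb0 : 0 ≤ b) (hb : b * y ^ 96 ≤ 192 * A) :
    (3 * (CS * y ^ 16) * (33 + 32 * B + 512 * a) + 7) / y ^ 24 +
        7 * D / y ^ 24 * Real.exp (32 * a + B) +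
        512 * (b * (y ^ 24) ^ 3) * (1 + (2 * y ^ 8 + 5) ^ 3 * (6 * D / y ^ 24 + 4 / y ^ 8)) ≤
      (3 * CS * (33 + 32 * B + 768 * A) + 7 + 7 * D * Real.exp (48 * A + B) +
        512 * (192 * A) * (1 + 343 * (6 * D + 4))) / y ^ 8 := by
  have hy0 : 0 < y := by linarith
  have h8 : 1 ≤ y ^ 8 := one_le_pow₀ hy
  have h16 : 1 ≤ y ^ 16 := one_le_pow₀ hy
  have h824 : y ^ 8 ≤ y ^ 24 := pow_le_pow_right₀ hy (by norm_num)
  have hA : 0 ≤ A := by linarith
  have t1 : (3 * (CS * y ^ 16) * (33 + 32 * B + 512 * a) + 7) / y ^ 24 ≤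
      (3 * CS * (33 + 32 * B + 768 * A) + 7) / y ^ 8 := by
    have e : (3 * CS * (33 + 32 * B + 768 * A) + 7) / y ^ 8 =
        (3 * (CS * y ^ 16) * (33 + 32 * B + 768 * A) + 7 * y ^ 16) / y ^ 24 := by
      field_simp
    rw [e]
    refine div_le_div_of_nonneg_right ?_ (by positivity)
    have := mul_le_mul_of_nonneg_left (show 33 + 32 * B + 512 * a ≤ 33 + 32 * B + 768 * A by linarith)
      (show 0 ≤ 3 * (CS * y ^ 16) by positivity)
    linarith
  have t2 : 7 * D / y ^ 24 * Real.exp (32 * a + B) ≤ 7 * D * Real.exp (48 * A + B) / y ^ 8 := by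
    have e : 7 * D * Real.exp (48 * A + B) / y ^ 8 = 7 * D / y ^ 8 * Real.exp (48 * A + B) := by
      ring
    rw [e]
    exact mul_le_mul (by gcongr) (Real.exp_le_exp.mpr (by linarith)) (by positivity)
      (by positivity)
  have t3 : 512 * (b * (y ^ 24) ^ 3) * (1 + (2 * y ^ 8 + 5) ^ 3 * (6 * D / y ^ 24 + 4 / y ^ 8)) ≤
      512 * (192 * A) * (1 + 343 * (6 * D + 4)) / y ^ 8 := by
    have u1 : (2 * y ^ 8 + 5) ^ 3 ≤ (7 * y ^ 8) ^ 3 := by gcongr; linarith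
    have u2 : 6 * D / y ^ 24 + 4 / y ^ 8 ≤ (6 * D + 4) / y ^ 8 := by
      rw [add_div]; gcongr
    have u3 : (2 * y ^ 8 + 5) ^ 3 * (6 * D / y ^ 24 + 4 / y ^ 8) ≤
        (7 * y ^ 8) ^ 3 * ((6 * D + 4) / y ^ 8) := mul_le_mul u1 u2 (by positivity) (by positivity)
    have u4 : (7 * y ^ 8) ^ 3 * ((6 * D + 4) / y ^ 8) = y ^ 16 * (343 * (6 * D + 4)) := by
      field_simp; norm_num
    have u5 : 1 + (2 * y ^ 8 + 5) ^ 3 * (6 * D / y ^ 24 + 4 / y ^ 8) ≤
        y ^ 16 * (1 + 343 * (6 * D + 4)) := by linarith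
    have u6 : b * (y ^ 24) ^ 3 ≤ 192 * A / y ^ 24 := by
      rw [le_div_iff₀ (by positivity)]; linarith
    calc _ ≤ 512 * (192 * A / y ^ 24) * (y ^ 16 * (1 + 343 * (6 * D + 4))) := by gcongr
      _ = _ := by field_simp
  have e : (3 * CS * (33 + 32 * B + 768 * A) + 7 + 7 * D * Real.exp (48 * A + B) +
        512 * (192 * A) * (1 + 343 * (6 * D + 4))) / y ^ 8 =
      (3 * CS * (33 + 32 * B + 768 * A) + 7) / y ^ 8 + 7 * D * Real.exp (48 * A + B) / y ^ 8 +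
        512 * (192 * A) * (1 + 343 * (6 * D + 4)) / y ^ 8 := by ring
  rw [e]
  exact add_le_add (add_le_add t1 t2) t3

theorem multi_scale {φ₀ : ℝ → ℝ} {D κ₀ B₀ u₀ A : ℝ} (hm : Measurable φ₀)
    (hss : SStable φ₀ κ₀ B₀) (hB₀ : 0 ≤ B₀) (hA : 0 < A) (hu₀ : 0 ≤ u₀) (hD : 0 < D)
    (hκ : 32000 * A + 2 * (3 * (B₀ + 16000 * A) + 24 * A + 10) ≤ κ₀)
    (hlow : ∀ r, 0 ≤ r → -(u₀ * indLe 9 r) ≤ φ₀ r) (hneg : ∀ r, D ≤ r → φ₀ r ≤ 0) :
    ∃ C : ℝ, 0 ≤ C ∧ ∃ Y₀ : ℕ, ∀ Y : ℕ, Y₀ ≤ Y → 2 ≤ Y → ∀ (k : ℕ) (β : ℝ), 1 / 2 ≤ β → β ≤ 3 / 2 →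
      (∀ μ : ℝ, μ ≤ 0 → ∃ h : ℝ, 0 ≤ h ∧ h ≤ 48 * ak A Y k ∧
        Pk D φ₀ A Y (k + 1) β μ ≤ Pk D φ₀ A Y k β (μ + h) - h ^ 2 / (2 * (β * ak A Y k)) +
          C / (Yk Y k : ℝ) ^ 8) ∧
      (∀ μ h : ℝ, μ + h ≤ 0 →
        Pk D φ₀ A Y k β (μ + h) - h ^ 2 / (2 * (β * ak A Y k)) - C / (Yk Y k : ℝ) ^ 8 ≤
          Pk D φ₀ A Y (k + 1) β μ) ∧
      (∀ μ : ℝ, μ ≤ 0 → |Pinf D φ₀ A Y β μ - Pk D φ₀ A Y (k + 1) β μ| ≤ C * ak A Y (k + 1)) := by
  set B : ℝ := 3 / 2 * (B₀ + 16000 * A) with hBdef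
  set CS : ℝ := 3 / 2 * (5 * 21 ^ 3 * u₀ + 32000 * A) with hCS
  set CE : ℝ := 3 * CS * (33 + 32 * B + 768 * A) + 7 + 7 * D * Real.exp (48 * A + B) +
    512 * (192 * A) * (1 + 343 * (6 * D + 4)) with hCE
  have hB : 0 ≤ B := by positivity
  have hCS0 : 0 ≤ CS := by positivity
  have hCE0 : 0 ≤ CE := by positivity
  have hκA : 32000 * A ≤ κ₀ := by nlinarith
  refine ⟨CE + 24000 * Real.exp (1 + B), by positivity, ⌈3 * CS + D + 24000 * A⌉₊,
    fun Y hY₀ hY k β hβ1 hβ2 => ?_⟩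
  have hYr : 3 * CS + D + 24000 * A ≤ Y := (Nat.le_ceil _).trans (by exact_mod_cast hY₀)
  have hβ0 : 0 < β := by linarith
  have hy2 := two_le_Yk hY k
  have hYy : (Y : ℝ) ≤ Yk Y k := by exact_mod_cast le_Yk hY k
  set y : ℝ := (Yk Y k : ℝ) with hy
  have hy1 : 1 ≤ y := by linarith
  have hy8 : y ≤ y ^ 8 := le_self_pow₀ hy1 (by norm_num)
  have hy24 : y ≤ y ^ 24 := le_self_pow₀ hy1 (by norm_num)
  have h16 : 1 ≤ y ^ 16 := one_le_pow₀ hy1
  have hak := ak_pos hA hY k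
  have hakA := ak_le hA hY k
  have hκ' : 0 ≤ κ₀ - 2 * (16000 * A) := by linarith
  have hsst : ∀ j, SStable (fun r => β * (φ₀ r - headk A Y j r)) ((κ₀ - 2 * (16000 * A)) / 2) B :=
    fun j => (sst_head hss hA hY j).scale hκ' (by positivity) hβ1 hβ2
  have hadm : ∀ j, Adm fun r => β * (φ₀ r - headk A Y j r) :=
    fun j => (adm_head hm hss hA hκA hY j).const_mul hβ0.le
  have hsucc : (fun r => β * (φ₀ r - headk A Y (k + 1) r)) = fun r =>
      β * (φ₀ r - headk A Y k r) - β * bk A Y k * psi (r / ((wk Y k : ℝ) * (ellk Y k : ℝ))) := by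
    funext r; rw [headk_succ]; unfold Psi; ring
  have hβa : β * ak A Y k ≤ 3 / 2 * A := mul_le_mul hβ2 hakA hak.le (by norm_num)
  have hstep := lp_step (Φ := fun r => β * (φ₀ r - headk A Y k r))
    (g := fun r => β * (u₀ * indLe 9 r + headk A Y k r)) (D := D)
    (κ := (κ₀ - 2 * (16000 * A)) / 2) (B := B) (S := CS * y ^ 16) (a := β * ak A Y k)
    (b := β * bk A Y k) (one_le_ellk hY k) (one_le_wk hY k) (hadm k).1 (hsst k) hB
    (by rw [hBdef]; linarith) (by linarith) (mul_pos hβ0 (bk_pos hA hY k)).le (mul_pos hβ0 hak)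
    (by rw [ak_eq A hY k]; ring) (by rw [← hsucc]; exact hadm (k + 1)) hD
    (by rw [cast_ellk]; linarith)
    (fun r hr => mul_nonpos_of_nonneg_of_nonpos hβ0.le (by
      have := hneg r hr
      have := headk_nonneg hA hY k r
      linarith))
    (fun r _ => mul_nonneg hβ0.le (add_nonneg (mul_nonneg hu₀ (by unfold indLe; split_ifs <;> norm_num))
      (headk_nonneg hA hY k r)))
    (fun r hr => by
      have := mul_le_mul_of_nonneg_left (hlow r hr) hβ0.le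
      linarith)
    (fun N x => by
      have hQ := Qn_nonneg x Finset.univ
      have e : (fun r => (r + 1) * (β * (u₀ * indLe 9 r + headk A Y k r))) =
          fun r => β * (u₀ * ((r + 1) * indLe 9 r) + (r + 1) * headk A Y k r) := by
        funext r; ring
      rw [e, energy_const_mul, energy_add, energy_const_mul]
      have h1 : energy (fun r => (r + 1) * indLe 9 r) x ≤ energy (fun r => 10 * indLe 9 r) x := by
        refine energy_mono (fun r _ => ?_) x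
        unfold indLe
        split_ifs with h
        · linarith
        · simp
      rw [energy_const_mul, energy_eq_EnOn (indLe 9)] at h1
      have h2 := EnOn_indLe_le (ρ := 9) (by norm_num) x Finset.univ
      have h3 := energy_rheadk_le hA hY k x
      have h4 : energy (fun r => (r + 1) * indLe 9 r) x ≤ 5 * 21 ^ 3 * (y ^ 16 * Qn x Finset.univ) := by
        have := mul_le_mul_of_nonneg_right h16 hQ
        linarith
      have h5 := mul_le_mul_of_nonneg_left h4 hu₀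
      have h6 : u₀ * energy (fun r => (r + 1) * indLe 9 r) x +
          energy (fun r => (r + 1) * headk A Y k r) x ≤
          (5 * 21 ^ 3 * u₀ + 32000 * A) * (y ^ 16 * Qn x Finset.univ) := by linarith
      have h7 := mul_le_mul_of_nonneg_left h6 hβ0.le
      have h8 := mul_le_mul_of_nonneg_right hβ2
        (show 0 ≤ (5 * 21 ^ 3 * u₀ + 32000 * A) * (y ^ 16 * Qn x Finset.univ) by positivity)
      rw [hCS]
      linarith)
    (by positivity)
    (by
      rw [cast_ellk]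
      have h1 : 3 * CS ≤ y ^ 8 := by linarith
      have h2 := mul_le_mul_of_nonneg_right h1 (show 0 ≤ y ^ 16 by positivity)
      linarith)
    ((CE + 24000 * Real.exp (1 + B)) / y ^ 8)
    (by
      rw [cast_ellk, cast_wk]
      refine (mu_err hy1 hCS0 hB (mul_pos hβ0 hak).le hβa hD.le (mul_pos hβ0 (bk_pos hA hY k)).le
        ?_).trans ?_
      · have h1 := mul_le_mul_of_nonneg_left (bk_mul_le hA hY k) hβ0.le
        linarith
      · rw [← hCE]
        gcongr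
        have := Real.exp_pos (1 + B)
        linarith)
  rw [← hsucc] at hstep
  refine ⟨fun μ hμ => ?_, fun μ h hμh => hstep.2 μ h hμh, fun μ hμ => ?_⟩
  · obtain ⟨h, h0, h1, h2⟩ := hstep.1 μ hμ
    refine ⟨h, h0, ?_, h2⟩
    have := mul_le_mul_of_nonneg_right hβ2 hak.le
    linarith
  · have hinf : Adm fun r => β * (φ₀ r - tailk A Y 0 r) :=
      (adm_tail hm hss hA hκA hY).const_mul hβ0.le
    have hak1 := ak_pos hA hY (k + 1)
    have hlo : Pk D φ₀ A Y (k + 1) β μ ≤ Pinf D φ₀ A Y β μ :=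
      press_mono_pot (hadm (k + 1)) hinf hD.le μ fun r _ => by
        have h1 := headk_add_tailk hA hY (k + 1) r
        have h2 := tailk_nonneg hA hY (k + 1) r
        exact mul_le_mul_of_nonneg_left (by linarith) hβ0.le
    have e : (fun r => β * (φ₀ r - tailk A Y 0 r)) =
        fun r => β * (φ₀ r - headk A Y (k + 1) r) - β * tailk A Y (k + 1) r := by
      funext r; rw [← headk_add_tailk hA hY (k + 1) r]; ring
    have hs1 : 24000 * ak A Y (k + 1) ≤ 1 := by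
      rw [ak_succ A hY, ← hy, ← mul_div_assoc, div_le_one (by positivity)]
      nlinarith
    have hup := press_tail (Φ := fun r => β * (φ₀ r - headk A Y (k + 1) r))
      (Ψ := fun r => β * tailk A Y (k + 1) r) (D := D) (s := 24000 * ak A Y (k + 1)) (B := B)
      (hadm (k + 1)) (by rw [← e]; exact hinf)
      (fun N x => by
        rw [energy_sub, energy_const_mul 2]
        have h1 := hsst (k + 1) N x
        have h2 := mul_le_mul_of_nonneg_right
          (show 2 ≤ (κ₀ - 2 * (16000 * A)) / 2 by nlinarith) (energy_chi_nonneg x)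
        linarith)
      hD.le (by positivity) hs1
      (fun N x => by
        rw [energy_const_mul]
        have hQ := Qn_nonneg x Finset.univ
        have h1 := mul_le_mul_of_nonneg_left (energy_tailk_le hA hY (k + 1) x) hβ0.le
        have h2 := mul_le_mul_of_nonneg_right hβ2
          (show 0 ≤ 16000 * ak A Y (k + 1) * Qn x Finset.univ by positivity)
        have h3 := mul_le_mul_of_nonneg_left (Qn_univ_le x)
          (show 0 ≤ 24000 * ak A Y (k + 1) by positivity)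
        linarith) μ
    rw [← e] at hup
    have h3 : Real.exp (μ + 1 + B) ≤ Real.exp (1 + B) := Real.exp_le_exp.mpr (by linarith)
    have h4 := mul_le_mul_of_nonneg_left h3 (show 0 ≤ 24000 * ak A Y (k + 1) by positivity)
    have h5 := mul_nonneg hCE0 hak1.le
    rw [abs_of_nonneg (by linarith)]
    unfold Pinf Pk
    linarith

end Crest.Agent.R149
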