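import Crest.Agent.R149.Fill

/-! Row 149: the thermodynamic limit of the canonical free energy. -/

set_option autoImplicit false

namespace Crest.Agent.R149

open MeasureTheory Filter Topology Crest.ProbabilityR.Continuum

lemma th_sum_three (K q : ℕ) (hq : q < K) (A B C : ℝ) :
    ∑ i : Fin K, (if (i : ℕ) < q then A else if (i : ℕ) = q then B else C) =
      q * A + B + ((K : ℝ) - q - 1) * C := by
  rw [Fin.sum_univ_eq_sum_range (fun i => if i < q then A else if i = q then B else C) K]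
  obtain ⟨t, rfl⟩ := Nat.exists_eq_add_of_lt hq
  rw [show q + t + 1 = (q + 1) + t by ring, Finset.sum_range_add, Finset.sum_range_succ]
  have h1 : ∑ i ∈ Finset.range q, (if i < q then A else if i = q then B else C) = q * A := by
    rw [Finset.sum_congr rfl (g := fun _ => A)]
    · simp
    · intro i hi
      rw [if_pos (Finset.mem_range.mp hi)]
  have h2 : ∑ i ∈ Finset.range t,
      (if q + 1 + i < q then A else if q + 1 + i = q then B else C) = t * C := by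
    rw [Finset.sum_congr rfl (g := fun _ => C)]
    · simp
    · intro i _
      rw [if_neg (by omega), if_neg (by omega)]
  rw [h1, h2]
  simp only [lt_irrefl, if_false, if_true]
  push_cast
  ring

/-- Mixing two occupation numbers in a grid of equal cells. -/
lemma th_mix {Φ : ℝ → ℝ} (hΦ : Adm Φ) {D : ℝ} (hD : 0 < D) (hneg : ∀ r, D ≤ r → Φ r ≤ 0)
    {ℓ : ℝ} (hℓ : 0 < ℓ) {n₁ n₂ : ℕ} (hn : n₁ < n₂) :
    ∃ C : ℝ, ∀ (L : ℝ) (m N : ℕ), m * (ℓ + D) ≤ L → n₁ * m ^ 3 ≤ N → N < n₂ * m ^ 3 →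
      (m : ℝ) ^ 3 * lZ Φ ℓ n₁ +
        ((N : ℝ) - n₁ * (m : ℝ) ^ 3) * ((lZ Φ ℓ n₂ - lZ Φ ℓ n₁) / ((n₂ : ℝ) - n₁)) - C ≤
        lZ Φ L N := by
  obtain ⟨k, rfl⟩ := Nat.exists_eq_add_of_le hn.le
  have hk : 0 < k := by omega
  have hkR : (0 : ℝ) < k := by exact_mod_cast hk
  set a₁ := lZ Φ ℓ n₁ with ha₁
  set a₂ := lZ Φ ℓ (n₁ + k) with ha₂
  set σ := (a₂ - a₁) / k with hσ
  obtain ⟨C, hC⟩ : ∃ C : ℝ, ∀ r < k, -C ≤ lZ Φ ℓ (n₁ + r) - a₁ - r * σ := by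
    refine ⟨∑ r ∈ Finset.range k, |lZ Φ ℓ (n₁ + r) - a₁ - r * σ|, fun r hr => ?_⟩
    have h1 := Finset.single_le_sum (f := fun r : ℕ => |lZ Φ ℓ (n₁ + r) - a₁ - r * σ|)
      (fun _ _ => abs_nonneg _) (Finset.mem_range.mpr hr)
    have h2 := neg_abs_le (lZ Φ ℓ (n₁ + r) - a₁ - r * σ)
    linarith
  refine ⟨C, fun L m N hL h1 h2 => ?_⟩
  obtain ⟨T, rfl⟩ := Nat.exists_eq_add_of_le h1
  set q := T / k with hq
  set r := T % k with hr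
  have hT : T = q * k + r := by rw [hq, hr, mul_comm]; exact (Nat.div_add_mod T k).symm
  have hrk : r < k := Nat.mod_lt _ hk
  have hqK : q < m ^ 3 := by
    rw [hq, Nat.div_lt_iff_lt_mul hk]
    nlinarith
  have hcard : Fintype.card (Fin 3 → Fin m) = m ^ 3 := by simp
  let e := Fintype.equivFinOfCardEq hcard
  let n : (Fin 3 → Fin m) → ℕ := fun c =>
    if (e c : ℕ) < q then n₁ + k else if (e c : ℕ) = q then n₁ + r else n₁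
  have hsum : ∀ f : ℕ → ℝ, ∑ c, f (n c) =
      q * f (n₁ + k) + f (n₁ + r) + (((m ^ 3 : ℕ) : ℝ) - q - 1) * f n₁ := by
    intro f
    rw [← th_sum_three (m ^ 3) q hqK]
    refine Fintype.sum_equiv e _ _ fun c => ?_
    simp only [n]
    split_ifs <;> rfl
  have hN : ∑ c, n c = n₁ * m ^ 3 + T := by
    have h := hsum (fun j => (j : ℝ))
    have h' : ((∑ c, n c : ℕ) : ℝ) = ((n₁ * m ^ 3 + T : ℕ) : ℝ) := by
      rw [Nat.cast_sum, h, hT]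
      push_cast
      ring
    exact_mod_cast h'
  have hfill := fill_grid hΦ hD hneg hℓ hL n _ hN
  rw [hsum (fun j => lZ Φ ℓ j)] at hfill
  have hC' := hC r hrk
  have hkσ : (k : ℝ) * σ = a₂ - a₁ := by rw [hσ]; field_simp
  have e1 : ((n₁ + k : ℕ) : ℝ) - n₁ = k := by push_cast; ring
  rw [e1, ← hσ]
  have e2 : ((n₁ * m ^ 3 + T : ℕ) : ℝ) - n₁ * (m : ℝ) ^ 3 = q * k + r := by
    rw [hT]; push_cast; ring
  rw [e2]
  push_cast at hfill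
  have e3 : ((q : ℝ) * k + r) * σ = q * (a₂ - a₁) + r * σ := by rw [← hkσ]; ring
  rw [e3]
  linarith

lemma th_floor_cube {s : ℝ} (hs : 0 < s) :
    Tendsto (fun L : ℝ => ((⌊s⁻¹ * L⌋₊ : ℕ) : ℝ) ^ 3 / L ^ 3) atTop (𝓝 (1 / s ^ 3)) := by
  have h := (tendsto_nat_floor_mul_div_atTop (R := ℝ) (inv_nonneg.mpr hs.le)).pow 3
  simpa [div_pow] using h

lemma th_floor_le {s : ℝ} (hs : 0 < s) {L : ℝ} (hL : 0 ≤ L) : ((⌊s⁻¹ * L⌋₊ : ℕ) : ℝ) * s ≤ L := by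
  have h := Nat.floor_le (mul_nonneg (inv_nonneg.mpr hs.le) hL)
  have h2 := mul_le_mul_of_nonneg_right h hs.le
  have e : s⁻¹ * L * s = L := by field_simp
  rwa [e] at h2

lemma th_floor_rho {ρ : ℝ} (hρ : 0 ≤ ρ) :
    Tendsto (fun L : ℝ => ((⌊ρ * L ^ 3⌋₊ : ℕ) : ℝ) / L ^ 3) atTop (𝓝 ρ) :=
  (tendsto_nat_floor_mul_div_atTop (R := ℝ) hρ).comp (tendsto_pow_atTop (by norm_num))

lemma th_ratio (D : ℝ) : Tendsto (fun L : ℝ => (L + D) ^ 3 / L ^ 3) atTop (𝓝 1) := by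
  have h1 : Tendsto (fun L : ℝ => (1 + D * L⁻¹) ^ 3) atTop (𝓝 ((1 + D * 0) ^ 3)) :=
    ((tendsto_inv_atTop_zero.const_mul D).const_add 1).pow 3
  simp only [mul_zero, add_zero, one_pow] at h1
  refine h1.congr' ?_
  filter_upwards [eventually_gt_atTop (0 : ℝ)] with L hL
  field_simp

/-- The chord through two points of one common side is a lower bound. -/
lemma th_chord_same {Φ : ℝ → ℝ} (hΦ : Adm Φ) {D : ℝ} (hD : 0 < D) (hneg : ∀ r, D ≤ r → Φ r ≤ 0)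
    {ρ : ℝ} (hρ : 0 < ρ) {ℓ : ℝ} (hℓ : 0 < ℓ) {n₁ n₂ : ℕ}
    (h₁ : (n₁ : ℝ) / (ℓ + D) ^ 3 < ρ) (h₂ : ρ < (n₂ : ℝ) / (ℓ + D) ^ 3) {g : ℝ}
    (hg : g * ((n₂ : ℝ) / (ℓ + D) ^ 3 - (n₁ : ℝ) / (ℓ + D) ^ 3) <
      lZ Φ ℓ n₁ / (ℓ + D) ^ 3 * ((n₂ : ℝ) / (ℓ + D) ^ 3 - ρ) +
        lZ Φ ℓ n₂ / (ℓ + D) ^ 3 * (ρ - (n₁ : ℝ) / (ℓ + D) ^ 3)) :
    ∀ᶠ L : ℝ in atTop, g < lZ Φ L ⌊ρ * L ^ 3⌋₊ / L ^ 3 := by
  have hs : 0 < ℓ + D := add_pos hℓ hD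
  set s := ℓ + D with hsdef
  have hs3 : 0 < s ^ 3 := pow_pos hs 3
  have hnR : (n₁ : ℝ) < n₂ := by
    have := h₁.trans h₂
    rwa [div_lt_div_iff_of_pos_right hs3] at this
  have hn : n₁ < n₂ := by exact_mod_cast hnR
  obtain ⟨C, hC⟩ := th_mix hΦ hD hneg hℓ hn
  set a₁ := lZ Φ ℓ n₁ with ha₁
  set a₂ := lZ Φ ℓ n₂ with ha₂
  set σ := (a₂ - a₁) / ((n₂ : ℝ) - n₁) with hσ
  have hM := th_floor_cube hs
  have hN := th_floor_rho hρ.le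
  have hinv : Tendsto (fun L : ℝ => C / L ^ 3) atTop (𝓝 0) :=
    tendsto_const_nhds.div_atTop (tendsto_pow_atTop (by norm_num))
  have hlim := ((hM.mul_const a₁).add ((hN.sub (hM.const_mul (n₁ : ℝ))).mul_const σ)).sub hinv
  have hval : g < 1 / s ^ 3 * a₁ + (ρ - n₁ * (1 / s ^ 3)) * σ - 0 := by
    have hk : (0 : ℝ) < (n₂ : ℝ) - n₁ := sub_pos.mpr hnR
    have hd : (0 : ℝ) < (n₂ : ℝ) / s ^ 3 - (n₁ : ℝ) / s ^ 3 := by linarith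
    refine lt_of_mul_lt_mul_right (hg.trans_eq ?_) hd.le
    rw [hσ]
    field_simp
    ring
  have hlo : ∀ᶠ L : ℝ in atTop,
      (n₁ : ℝ) * (((⌊s⁻¹ * L⌋₊ : ℕ) : ℝ) ^ 3 / L ^ 3) < ((⌊ρ * L ^ 3⌋₊ : ℕ) : ℝ) / L ^ 3 :=
    (hM.const_mul (n₁ : ℝ)).eventually_lt hN (by rwa [mul_one_div])
  have hhi : ∀ᶠ L : ℝ in atTop,
      ((⌊ρ * L ^ 3⌋₊ : ℕ) : ℝ) / L ^ 3 < (n₂ : ℝ) * (((⌊s⁻¹ * L⌋₊ : ℕ) : ℝ) ^ 3 / L ^ 3) :=
    hN.eventually_lt (hM.const_mul (n₂ : ℝ)) (by rwa [mul_one_div])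
  filter_upwards [hlim.eventually (lt_mem_nhds hval), hlo, hhi, eventually_gt_atTop (0 : ℝ)]
    with L h1 h2 h3 hL
  have hL3 : 0 < L ^ 3 := pow_pos hL 3
  rw [← mul_div_assoc, div_lt_div_iff_of_pos_right hL3] at h2 h3
  have h4 := hC L ⌊s⁻¹ * L⌋₊ ⌊ρ * L ^ 3⌋₊ (th_floor_le hs hL.le) (by exact_mod_cast h2.le)
    (by exact_mod_cast h3)
  refine h1.trans_le ?_
  rw [le_div_iff₀ hL3]
  refine le_trans (le_of_eq ?_) h4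
  field_simp

/-- The chord through two arbitrary points is a lower bound. -/
lemma th_chord {Φ : ℝ → ℝ} (hΦ : Adm Φ) {D : ℝ} (hD : 0 < D) (hneg : ∀ r, D ≤ r → Φ r ≤ 0)
    {ρ : ℝ} (hρ : 0 < ρ) {L₁ L₂ : ℝ} (hL₁ : 0 < L₁) (hL₂ : 0 < L₂) {N₁ N₂ : ℕ}
    (h₁ : (N₁ : ℝ) / (L₁ + D) ^ 3 < ρ) (h₂ : ρ < (N₂ : ℝ) / (L₂ + D) ^ 3) {g : ℝ}
    (hg : g * ((N₂ : ℝ) / (L₂ + D) ^ 3 - (N₁ : ℝ) / (L₁ + D) ^ 3) <
      lZ Φ L₁ N₁ / (L₁ + D) ^ 3 * ((N₂ : ℝ) / (L₂ + D) ^ 3 - ρ) +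
        lZ Φ L₂ N₂ / (L₂ + D) ^ 3 * (ρ - (N₁ : ℝ) / (L₁ + D) ^ 3)) :
    ∀ᶠ L : ℝ in atTop, g < lZ Φ L ⌊ρ * L ^ 3⌋₊ / L ^ 3 := by
  have key : ∀ {s : ℝ}, 0 < s → ∀ t : ℝ,
      Tendsto (fun ℓ : ℝ => ((⌊s⁻¹ * ℓ⌋₊ : ℕ) : ℝ) ^ 3 * t / (ℓ + D) ^ 3) atTop
        (𝓝 (t / s ^ 3)) := by
    intro s hs t
    have h := ((th_floor_cube hs).div (th_ratio D) one_ne_zero).mul_const t
    have e : 1 / s ^ 3 / 1 * t = t / s ^ 3 := by ring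
    rw [e] at h
    refine h.congr' ?_
    filter_upwards [eventually_gt_atTop (0 : ℝ)] with ℓ hℓ
    have : 0 < ℓ + D := add_pos hℓ hD
    simp only [Pi.div_apply]
    field_simp
  have hs₁ : 0 < L₁ + D := add_pos hL₁ hD
  have hs₂ : 0 < L₂ + D := add_pos hL₂ hD
  have x₁ := key hs₁ (N₁ : ℝ)
  have x₂ := key hs₂ (N₂ : ℝ)
  have y₁ := key hs₁ (lZ Φ L₁ N₁)
  have y₂ := key hs₂ (lZ Φ L₂ N₂)
  have e₁ := x₁.eventually (gt_mem_nhds h₁)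
  have e₂ := x₂.eventually (lt_mem_nhds h₂)
  have e₃ := ((x₂.sub x₁).const_mul g).eventually_lt
    ((y₁.mul (x₂.sub_const ρ)).add (y₂.mul (x₁.const_sub ρ))) hg
  obtain ⟨ℓ, ⟨⟨f₁, f₂⟩, f₃⟩, hℓ⟩ := (((e₁.and e₂).and e₃).and (eventually_gt_atTop (0 : ℝ))).exists
  have hs : 0 < (ℓ + D) ^ 3 := pow_pos (add_pos hℓ hD) 3
  have g₁ := th_fill_const hΦ hD hneg hL₁ (th_floor_le hs₁ hℓ.le) N₁
  have g₂ := th_fill_const hΦ hD hneg hL₂ (th_floor_le hs₂ hℓ.le) N₂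
  refine th_chord_same hΦ hD hneg hρ hℓ (n₁ := ⌊(L₁ + D)⁻¹ * ℓ⌋₊ ^ 3 * N₁)
    (n₂ := ⌊(L₂ + D)⁻¹ * ℓ⌋₊ ^ 3 * N₂) (by push_cast; exact f₁) (by push_cast; exact f₂) ?_
  push_cast
  refine f₃.trans_le (add_le_add ?_ ?_)
  · exact mul_le_mul_of_nonneg_right (div_le_div_of_nonneg_right g₁ hs.le) (sub_nonneg.mpr f₂.le)
  · exact mul_le_mul_of_nonneg_right (div_le_div_of_nonneg_right g₂ hs.le) (sub_nonneg.mpr f₁.le)

/-- Duality: if all chords at `ρ` lie below `g`, some chemical potential has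
`press μ - μ ρ ≤ g`. -/
lemma th_dual {Φ : ℝ → ℝ} (hΦ : Adm Φ) {D : ℝ} (hD : 0 < D) {ρ : ℝ} (hρ : 0 < ρ) {g : ℝ}
    (h : ∀ (L₁ L₂ : ℝ) (N₁ N₂ : ℕ), 0 < L₁ → 0 < L₂ → (N₁ : ℝ) / (L₁ + D) ^ 3 < ρ →
      ρ < (N₂ : ℝ) / (L₂ + D) ^ 3 →
      lZ Φ L₁ N₁ / (L₁ + D) ^ 3 * ((N₂ : ℝ) / (L₂ + D) ^ 3 - ρ) +
        lZ Φ L₂ N₂ / (L₂ + D) ^ 3 * (ρ - (N₁ : ℝ) / (L₁ + D) ^ 3) ≤
        g * ((N₂ : ℝ) / (L₂ + D) ^ 3 - (N₁ : ℝ) / (L₁ + D) ^ 3)) :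
    ∃ μ : ℝ, press D Φ μ - μ * ρ ≤ g := by
  let S : Set ℝ := {t | ∃ (L : ℝ) (N : ℕ), 0 < L ∧ (N : ℝ) / (L + D) ^ 3 < ρ ∧
    t = (lZ Φ L N / (L + D) ^ 3 - g) / (ρ - (N : ℝ) / (L + D) ^ 3)}
  have hne : S.Nonempty := ⟨_, 1, 0, one_pos, by simpa using hρ, rfl⟩
  have hub : ∀ (L : ℝ) (N : ℕ), 0 < L → ρ < (N : ℝ) / (L + D) ^ 3 →
      (g - lZ Φ L N / (L + D) ^ 3) / ((N : ℝ) / (L + D) ^ 3 - ρ) ∈ upperBounds S := by
    rintro L₂ N₂ hL₂ h₂ t ⟨L₁, N₁, hL₁, h₁, rfl⟩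
    have := h L₁ L₂ N₁ N₂ hL₁ hL₂ h₁ h₂
    rw [div_le_div_iff₀ (sub_pos.mpr h₁) (sub_pos.mpr h₂)]
    linarith
  have hbdd : BddAbove S := by
    obtain ⟨N, hN⟩ := exists_nat_gt (ρ * (1 + D) ^ 3)
    exact ⟨_, hub 1 N one_pos (by rwa [lt_div_iff₀ (by positivity)])⟩
  refine ⟨sSup S, ?_⟩
  set μ := sSup S with hμ
  have hlt : ∀ (L : ℝ) (N : ℕ), 0 < L → (N : ℝ) / (L + D) ^ 3 < ρ →
      (μ * N + lZ Φ L N) / (L + D) ^ 3 ≤ g + μ * ρ := by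
    intro L N hL h₁
    have h2 : (lZ Φ L N / (L + D) ^ 3 - g) / (ρ - (N : ℝ) / (L + D) ^ 3) ≤ μ :=
      le_csSup hbdd ⟨L, N, hL, h₁, rfl⟩
    rw [div_le_iff₀ (sub_pos.mpr h₁)] at h2
    rw [add_div, mul_div_assoc]
    linarith
  rw [sub_le_iff_le_add]
  refine press_le fun L N hL => ?_
  rcases lt_trichotomy ((N : ℝ) / (L + D) ^ 3) ρ with h₁ | h₁ | h₁
  · exact hlt L N hL h₁
  · have hs : 0 < L + D := add_pos hL hD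
    have hNpos : (0 : ℝ) < N := by
      have : 0 < (N : ℝ) / (L + D) ^ 3 := by rw [h₁]; exact hρ
      exact (div_pos_iff_of_pos_right (pow_pos hs 3)).mp this
    have hcont : Tendsto (fun L' : ℝ => (μ * N + lZ Φ L N) / (L' + D) ^ 3) (𝓝[>] L)
        (𝓝 ((μ * N + lZ Φ L N) / (L + D) ^ 3)) := by
      refine Tendsto.mono_left ?_ nhdsWithin_le_nhds
      exact tendsto_const_nhds.div ((tendsto_id.add_const D).pow 3) (pow_pos hs 3).ne'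
    refine le_of_tendsto hcont ?_
    filter_upwards [self_mem_nhdsWithin] with L' hL'
    have hLL : L < L' := hL'
    have hL'0 : 0 < L' := hL.trans hLL
    have hs' : 0 < L' + D := add_pos hL'0 hD
    have h3 : (N : ℝ) / (L' + D) ^ 3 < ρ := by
      rw [← h₁]
      exact div_lt_div_of_pos_left hNpos (pow_pos hs 3)
        (pow_lt_pow_left₀ (by linarith) hs.le (by norm_num))
    refine le_trans ?_ (hlt L' N hL'0 h3)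
    exact div_le_div_of_nonneg_right (by linarith [lZ_mono_len hΦ hL hLL.le N])
      (pow_pos hs' 3).le
  · have h2 : μ ≤ (g - lZ Φ L N / (L + D) ^ 3) / ((N : ℝ) / (L + D) ^ 3 - ρ) :=
      csSup_le hne (hub L N hL h₁)
    rw [le_div_iff₀ (sub_pos.mpr h₁)] at h2
    rw [add_div, mul_div_assoc]
    linarith

theorem thermo_limit {Φ : ℝ → ℝ} (hΦ : Adm Φ) {D : ℝ} (hD : 0 < D)
    (hneg : ∀ r, D ≤ r → Φ r ≤ 0) {ρ : ℝ} (hρ : 0 < ρ) :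
    BddBelow (Set.range fun μ : ℝ => press D Φ μ - μ * ρ) ∧
      Tendsto (fun L : ℝ => lZ Φ L ⌊ρ * L ^ 3⌋₊ / L ^ 3) atTop
        (𝓝 (⨅ μ : ℝ, (press D Φ μ - μ * ρ))) := by
  have hbdd : BddBelow (Set.range fun μ : ℝ => press D Φ μ - μ * ρ) := by
    obtain ⟨N, hN⟩ := exists_nat_gt (ρ * (1 + D) ^ 3)
    have hN' : ρ < (N : ℝ) / (1 + D) ^ 3 := by rwa [lt_div_iff₀ (by positivity)]
    refine ⟨min 0 (lZ Φ 1 N / (1 + D) ^ 3), ?_⟩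
    rintro _ ⟨μ, rfl⟩
    rcases le_total μ 0 with hμ | hμ
    · refine (min_le_left _ _).trans ?_
      have h1 := press_nonneg hΦ hD.le μ
      have h2 := mul_nonpos_of_nonpos_of_nonneg hμ hρ.le
      simp only
      linarith
    · refine (min_le_right _ _).trans ?_
      have h1 := le_press hΦ hD.le μ one_pos N
      rw [add_div, mul_div_assoc] at h1
      have h2 := mul_le_mul_of_nonneg_left hN'.le hμ
      simp only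
      linarith
  refine ⟨hbdd, tendsto_order.2 ⟨fun g hg => ?_, fun g hg => ?_⟩⟩
  · by_contra hcon
    obtain ⟨μ, hμ⟩ := th_dual hΦ hD hρ (g := g) fun L₁ L₂ N₁ N₂ hL₁ hL₂ h₁ h₂ => by
      by_contra hlt
      exact hcon (th_chord hΦ hD hneg hρ hL₁ hL₂ h₁ h₂ (not_le.mp hlt))
    have := ciInf_le hbdd μ
    linarith
  · obtain ⟨μ, hμ⟩ := exists_lt_of_ciInf_lt hg
    have hlim := ((th_ratio D).mul_const (press D Φ μ)).sub ((th_floor_rho hρ.le).const_mul μ)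
    rw [one_mul] at hlim
    filter_upwards [hlim.eventually (gt_mem_nhds hμ), eventually_gt_atTop (0 : ℝ)] with L h1 hL
    refine lt_of_le_of_lt ?_ h1
    have hL3 : 0 < L ^ 3 := pow_pos hL 3
    have h2 := le_press' hΦ hD.le μ hL ⌊ρ * L ^ 3⌋₊
    rw [div_le_iff₀ hL3]
    have e : ((L + D) ^ 3 / L ^ 3 * press D Φ μ - μ * (((⌊ρ * L ^ 3⌋₊ : ℕ) : ℝ) / L ^ 3)) * L ^ 3 =
        (L + D) ^ 3 * press D Φ μ - μ * ((⌊ρ * L ^ 3⌋₊ : ℕ) : ℝ) := by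
      field_simp
    rw [e]
    linarith

end Crest.Agent.R149
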