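import Crest.Agent.R149.BaseNorm
import Crest.Agent.R149.Convex
import Crest.Agent.R149.Kink
import Crest.Agent.R149.Multi
import Crest.Agent.R149.Thermo

/-! Row 149: assembly. -/

set_option autoImplicit false

namespace Crest.Agent.R149

open MeasureTheory Filter Topology Crest.ProbabilityR.Continuum

lemma mn_convex {φ : ℝ → ℝ} (hφ : Adm φ) {D c lam d : ℝ} (hD : 0 ≤ D) (hc : 0 ≤ c) :
    ConvexOn ℝ (Set.Ioi 0 ×ˢ Set.univ)
      fun z : ℝ × ℝ => c * press D (fun r => z.1 * φ r) (lam * (z.2 - d)) := by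
  refine ⟨(convex_Ioi 0).prod convex_univ, fun z hz z' hz' s t hs ht hst => ?_⟩
  have h := press_holder (hφ.const_mul (le_of_lt hz.1)) (hφ.const_mul (le_of_lt hz'.1)) hD
    (lam * (z.2 - d)) (lam * (z'.2 - d)) hs ht hst
  have e1 : (fun r => (s • z + t • z').1 * φ r) = fun r => s * (z.1 * φ r) + t * (z'.1 * φ r) := by
    funext r; simp only [Prod.fst_add, Prod.smul_fst, smul_eq_mul]; ring
  have e2 : lam * ((s • z + t • z').2 - d) = s * (lam * (z.2 - d)) + t * (lam * (z'.2 - d)) := by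
    simp only [Prod.snd_add, Prod.smul_snd, smul_eq_mul]
    have : d = (s + t) * d := by rw [hst, one_mul]
    linear_combination (-lam) * this
  simp only [e1, e2, smul_eq_mul]
  have := mul_le_mul_of_nonneg_left h hc
  linarith

lemma mn_box {z : ℝ × ℝ} {θ : ℝ} (hθ : θ ≤ 1 / 2) (hz : dist z (1, 0) ≤ θ) :
    1 / 2 ≤ z.1 ∧ z.1 ≤ 3 / 2 ∧ z.2 ≤ θ := by
  rw [Prod.dist_eq, max_le_iff, Real.dist_eq, Real.dist_eq, abs_le, abs_le] at hz
  obtain ⟨⟨h1, h2⟩, h3, h4⟩ := hz
  simp only at h1 h2 h3 h4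
  exact ⟨by linarith, by linarith, by linarith⟩

lemma ak_mul (c A : ℝ) (Y k : ℕ) : ak (c * A) Y k = c * ak A Y k := by
  unfold ak; ring

theorem main_stmt {σ : ℝ → ℝ} (hσm : Measurable σ) (hσ0 : ∀ r, 0 ≤ σ r)
    (hσ1 : ∀ r, 1 ≤ r → σ r = 0) : MainStmt σ := by
  obtain ⟨p, hp1, hp⟩ := pack_limit
  obtain ⟨n, hn, hbase⟩ := base_norm hσm hσ0 hσ1 hp1 hp
  have hn' : (2 : ℝ) ≤ n := by exact_mod_cast hn
  obtain ⟨θ, hθ0, hθ1, htrip⟩ := triple_point (n : ℝ) hn'
  obtain ⟨α₀, hα₀, hα₀1, hα₀2⟩ : ∃ α₀ : ℝ, 0 < α₀ ∧ α₀ ≤ θ ^ 2 ∧ α₀ ≤ θ / (15 * n) :=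
    ⟨min (θ ^ 2) (θ / (15 * n)), by positivity, min_le_left _ _, min_le_right _ _⟩
  have hα₀3 : α₀ ≤ 1 := by nlinarith
  obtain ⟨D, lam, hD1, hlam1, hcore⟩ := hbase (θ * α₀ / 2) (by positivity)
  have hD : 0 < D := by linarith
  have hlam : 0 < lam := by linarith
  have hp0 : 0 < p := by linarith
  set q : ℝ := lam * D ^ 3 / p with hq
  have hq0 : 0 < q := by positivity
  set A : ℝ := q * α₀ with hAdef
  have hA : 0 < A := by positivity
  set κ₀ : ℝ := 32000 * A + 2 * (3 * (lam + 16000 * A) + 24 * A + 10) with hκ₀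
  obtain ⟨φb, hcont, ⟨M, hM⟩, hfar, ⟨r₁, r₂, a, hr₁, hr₁₂, ha, hatt⟩, hss, hlow, hU1, hU2⟩ :=
    hcore κ₀ (by positivity)
  have hm : Measurable fun r => φb r + σ r := hcont.measurable.add hσm
  have hneg : ∀ r, D ≤ r → φb r + σ r ≤ 0 := fun r hr => by
    rw [hfar r hr, hσ1 r (hD1.trans hr)]; simp
  obtain ⟨C, hC, Y₀, hms⟩ := multi_scale (D := D) (u₀ := lam) hm hss hlam.le hA hlam.le hD
    le_rfl hlow hneg
  set c : ℝ := D ^ 3 / (lam * p) with hc
  have hc0 : 0 < c := by positivity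
  obtain ⟨Y, hY₀, hY, hYθ⟩ : ∃ Y : ℕ, Y₀ ≤ Y ∧ 2 ≤ Y ∧
      1 + 48 * D ^ 3 + 2 * c * C / α₀ ≤ θ * Y := by
    refine ⟨max (max Y₀ 2) ⌈(1 + 48 * D ^ 3 + 2 * c * C / α₀) / θ⌉₊,
      (le_max_left _ _).trans (le_max_left _ _), (le_max_right _ _).trans (le_max_left _ _), ?_⟩
    rw [← div_le_iff₀' hθ0]
    exact (Nat.le_ceil _).trans (by exact_mod_cast le_max_right _ _)
  have hκA : 32000 * A ≤ κ₀ := by rw [hκ₀]; nlinarith
  have hms' := hms Y hY₀ hY
  have hakA : ∀ k, ak A Y k = q * ak α₀ Y k := fun k => ak_mul q α₀ Y k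
  have hαpos : ∀ k, 0 < ak α₀ Y k := ak_pos hα₀ hY
  have hY2 : (2 : ℝ) ≤ Y := by exact_mod_cast hY
  have hYy : ∀ k, (Y : ℝ) ≤ Yk Y k := fun k => by exact_mod_cast le_Yk hY k
  have hy2 : ∀ k, (2 : ℝ) ^ (k + 1) ≤ Yk Y k := fun k => by exact_mod_cast two_pow_le_Yk hY k
  have hD3 : 0 < D ^ 3 := by positivity
  have hcC : 0 ≤ 2 * c * C / α₀ := by positivity
  have hinv : ∀ k, ak α₀ Y (k + 1) * Y ≤ ak α₀ Y k := fun k => by
    have h1 := hYy k
    have hy0 : (0 : ℝ) < Yk Y k := by linarith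
    rw [ak_succ α₀ hY, div_mul_eq_mul_div, div_le_iff₀ (by positivity)]
    exact mul_le_mul_of_nonneg_left (by nlinarith) (hαpos k).le
  -- the data of the convex-analysis theorem
  let δ : ℕ → ℝ := fun k => Nat.casesOn k (θ * α₀ / 2) fun j => c * (C / (Yk Y j : ℝ) ^ 8)
  let H : ℕ → ℝ := fun k => Nat.casesOn k (3 * (2 * n + 1) * α₀)
    fun j => 48 * D ^ 3 * ak α₀ Y (j + 1)
  have hδ0 : ∀ k, 0 ≤ δ k := fun k => by
    cases k with
    | zero => change 0 ≤ θ * α₀ / 2; positivity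
    | succ j => change 0 ≤ c * (C / (Yk Y j : ℝ) ^ 8); positivity
  have hδα : ∀ k, δ k / ak α₀ Y k ≤ θ / 2 / 2 ^ k := fun k => by
    cases k with
    | zero =>
      change θ * α₀ / 2 / ak α₀ Y 0 ≤ _
      rw [ak_zero α₀ hY]; apply le_of_eq; field_simp
    | succ j =>
      change c * (C / (Yk Y j : ℝ) ^ 8) / ak α₀ Y (j + 1) ≤ _
      have h1 := hYy j
      have h2 := hy2 j
      have hy0 : (0 : ℝ) < Yk Y j := by linarith
      have e : c * (C / (Yk Y j : ℝ) ^ 8) / ak α₀ Y (j + 1) =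
          (2 * c * C / α₀) / (Y : ℝ) ^ 2 / 2 / (Yk Y j : ℝ) ^ 4 := by
        unfold ak; rw [Yk_succ]; push_cast; field_simp
      rw [e]
      have h3 : (2 * c * C / α₀) / (Y : ℝ) ^ 2 ≤ θ := by
        rw [div_le_iff₀ (by positivity)]
        have : θ * Y ≤ θ * (Y : ℝ) ^ 2 := mul_le_mul_of_nonneg_left (by nlinarith) hθ0.le
        linarith
      have h4 : (2 : ℝ) ^ (j + 1) ≤ (Yk Y j : ℝ) ^ 4 :=
        h2.trans (le_self_pow₀ (by linarith) (by norm_num))
      gcongr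
  have hP0 : ∀ β μ, Pk D (fun r => φb r + σ r) A Y 0 β μ =
      press D (fun r => β * (φb r + σ r)) μ := fun β μ => by simp [Pk, headk]
  have hquad : ∀ (k : ℕ) (β h : ℝ), 0 < β →
      c * ((lam * h) ^ 2 / (2 * (β * ak A Y k))) = h ^ 2 / (2 * β * ak α₀ Y k) := by
    intro k β h hβ
    have := hαpos k
    rw [hakA, hc, hq]; field_simp
  obtain ⟨z, hz, hsub⟩ := htrip
    (fun k z => c * Pk D (fun r => φb r + σ r) A Y k z.1 (lam * (z.2 - 1)))
    (fun z => c * Pinf D (fun r => φb r + σ r) A Y z.1 (lam * (z.2 - 1)))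
    (ak α₀ Y) δ H (fun k => c * (C * ak A Y (k + 1)))
    (fun k => mn_convex (adm_head hm hss hA hκA hY k) hD.le hc0.le)
    (mn_convex (adm_tail hm hss hA hκA hY) hD.le hc0.le)
    hαpos hδ0 (by rw [ak_zero α₀ hY]; exact hα₀1)
    (fun k => by
      have h1 := hinv k
      have h2 := hαpos (k + 1)
      have h3 : ak α₀ Y (k + 1) * 1 ≤ ak α₀ Y (k + 1) * (θ * Y) :=
        mul_le_mul_of_nonneg_left (by linarith) h2.le
      have h4 := mul_le_mul_of_nonneg_left h1 hθ0.le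
      linarith)
    (by
      change 3 * (2 * (n : ℝ) + 1) * α₀ ≤ θ / 2
      rw [le_div_iff₀ (by positivity)] at hα₀2
      nlinarith)
    (fun k => by
      change 48 * D ^ 3 * ak α₀ Y (k + 1) ≤ _
      have h1 := hinv k
      have h2 := hαpos (k + 1)
      have h3 : ak α₀ Y (k + 1) * (48 * D ^ 3) ≤ ak α₀ Y (k + 1) * (θ * Y) :=
        mul_le_mul_of_nonneg_left (by linarith) h2.le
      have h4 := mul_le_mul_of_nonneg_left h1 hθ0.le
      linarith)
    (fun K => (Finset.sum_le_sum fun k _ => hδα k).trans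
      (sum_le_hasSum _ (fun k _ => by positivity) (hasSum_geometric_two' θ)))
    (fun z hz => by
      rw [hP0]
      exact hU1 z (hz.trans hθ1))
    (fun k z hz => by
      obtain ⟨hz1, hz2, hz3⟩ := mn_box hθ1 hz
      have hβ : 0 < z.1 := by linarith
      obtain ⟨h', h0, h1, h2⟩ := (hms' k z.1 hz1 hz2).1 (lam * (z.2 - 1))
        (mul_nonpos_of_nonneg_of_nonpos hlam.le (by linarith))
      obtain ⟨h, rfl⟩ : ∃ h, h' = lam * h := ⟨h' / lam, by field_simp⟩
      have hh0 : 0 ≤ h := (mul_nonneg_iff_of_pos_left hlam).mp h0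
      have hh1 : h ≤ 48 * D ^ 3 * ak α₀ Y k := by
        rw [hakA, hq] at h1
        have h3 : lam * D ^ 3 / p ≤ lam * D ^ 3 := div_le_self (by positivity) hp1
        have h4 := mul_le_mul_of_nonneg_right h3 (hαpos k).le
        have h5 : lam * h ≤ lam * (48 * D ^ 3 * ak α₀ Y k) := by linarith
        exact le_of_mul_le_mul_left h5 hlam
      have h3 := mul_le_mul_of_nonneg_left h2 hc0.le
      rw [mul_add c, mul_sub c, hquad k z.1 h hβ,
        show lam * (z.2 - 1) + lam * h = lam * (z.2 + h - 1) by ring] at h3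
      cases k with
      | succ j => exact ⟨h, by rw [abs_of_nonneg hh0]; exact hh1, h3⟩
      | zero =>
        by_cases hH : h ≤ 3 * (2 * n + 1) * α₀
        · exact ⟨h, by rw [abs_of_nonneg hh0]; exact hH, h3⟩
        · push Not at hH
          refine ⟨0, by change |(0 : ℝ)| ≤ 3 * (2 * n + 1) * α₀; rw [abs_zero]; positivity, ?_⟩
          rw [ak_zero α₀ hY] at hh1 h3 ⊢
          rw [hP0] at h3 ⊢
          have h4 := hU2 z (hz.trans hθ1) h hh0 (by nlinarith)
          have h5 := (abs_le.mp (hU1 z (hz.trans hθ1))).1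
          have h6 : (2 * n + 1) * h ≤ h ^ 2 / (2 * z.1 * α₀) := by
            rw [le_div_iff₀ (by positivity)]
            have h7 : (2 * n + 1) * (2 * z.1 * α₀) ≤ h := by
              have : (2 * n + 1) * α₀ * (2 * z.1) ≤ (2 * n + 1) * α₀ * 3 :=
                mul_le_mul_of_nonneg_left (by linarith) (by positivity)
              linarith
            have := mul_le_mul_of_nonneg_left h7 hh0
            linarith
          have h8 : θ * α₀ ≤ h := by
            have : θ * α₀ ≤ 3 * (2 * n + 1) * α₀ :=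
              mul_le_mul_of_nonneg_right (by linarith) hα₀.le
            linarith
          change c * _ ≤ c * _ - _ + c * (C / (Yk Y 0 : ℝ) ^ 8)
          simp only [add_zero, ne_eq, OfNat.ofNat_ne_zero, not_false_eq_true, zero_pow, zero_div,
            sub_zero]
          linarith)
    (fun k z hz h hh => by
      obtain ⟨hz1, hz2, hz3⟩ := mn_box hθ1 hz
      have hβ : 0 < z.1 := by linarith
      have hh' := (abs_le.mp hh).2
      have h2 := (hms' k z.1 hz1 hz2).2.1 (lam * (z.2 - 1)) (lam * h) (by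
        have : lam * (z.2 + h - 1) ≤ 0 := mul_nonpos_of_nonneg_of_nonpos hlam.le (by linarith)
        linarith)
      have h3 := mul_le_mul_of_nonneg_left h2 hc0.le
      rw [mul_sub c, mul_sub c, hquad k z.1 h hβ,
        show lam * (z.2 - 1) + lam * h = lam * (z.2 + h - 1) by ring] at h3
      exact h3)
    (fun k z hz => by
      obtain ⟨hz1, hz2, hz3⟩ := mn_box hθ1 hz
      have h2 := (hms' k z.1 hz1 hz2).2.2 (lam * (z.2 - 1))
        (mul_nonpos_of_nonneg_of_nonpos hlam.le (by linarith))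
      rw [← mul_sub, abs_mul, abs_of_pos hc0]
      exact mul_le_mul_of_nonneg_left h2 hc0.le)
    (by
      have hlim : Tendsto (fun k : ℕ => (c * C * q + θ + 1) * (1 / 2 : ℝ) ^ k) atTop
          (𝓝 ((c * C * q + θ + 1) * 0)) :=
        (tendsto_pow_atTop_nhds_zero_of_lt_one (by norm_num) (by norm_num)).const_mul _
      rw [mul_zero] at hlim
      refine squeeze_zero (fun k => ?_) (fun k => ?_) hlim
      · have := hαpos k
        have := hαpos (k + 1)
        have := hδ0 (k + 1)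
        have := ak_pos hA hY (k + 1)
        positivity
      · have h1 := hαpos k
        have h2 := hαpos (k + 1)
        have h3 : δ (k + 1) ≤ θ * ak α₀ Y (k + 1) := by
          have h4 := hδα (k + 1)
          rw [div_le_iff₀ h2] at h4
          have h5 : θ / 2 / 2 ^ (k + 1) ≤ θ := by
            rw [div_div]
            exact div_le_self hθ0.le (by
              have : (1 : ℝ) ≤ 2 ^ (k + 1) := one_le_pow₀ (by norm_num)
              linarith)
          exact h4.trans (mul_le_mul_of_nonneg_right h5 h2.le)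
        have h6 : ak α₀ Y (k + 1) ≤ (1 / 2 : ℝ) ^ k * ak α₀ Y k := by
          have h7 := hy2 k
          have h8 : (2 : ℝ) ^ k ≤ (Yk Y k : ℝ) ^ 2 := by
            have h9 : (1 : ℝ) ≤ 2 ^ k := one_le_pow₀ (by norm_num)
            rw [pow_succ] at h7
            nlinarith
          rw [ak_succ α₀ hY, one_div, inv_pow, ← div_eq_inv_mul]
          gcongr
        rw [div_le_iff₀ h1, hakA]
        have h10 := mul_le_mul_of_nonneg_left h6 (show 0 ≤ c * C * q + θ + 1 by positivity)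
        linarith)
  obtain ⟨hz1, -, -⟩ := mn_box hθ1 hz
  have hzpos : 0 < z.1 := by linarith
  have hadm := adm_tail hm hss hA hκA hY
  have hneg' : ∀ β : ℝ, 0 < β → ∀ r, D ≤ r → β * (φb r + σ r - tailk A Y 0 r) ≤ 0 :=
    fun β hβ r hr => mul_nonpos_of_nonneg_of_nonpos hβ.le (by
      have := hneg r hr
      have := tailk_nonneg hA hY 0 r
      linarith)
  have hth := fun (β ρ : ℝ) (hβ : 0 < β) (hρ : 0 < ρ) =>
    thermo_limit (hadm.const_mul hβ.le) hD (hneg' β hβ) hρ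
  obtain ⟨ρ₁, ρ₂, hρ₁, hρ₁₂, hkink⟩ := kink_of_triple
    (P := Pinf D (fun r => φb r + σ r) A Y) hc0 hlam hn'
    (by simpa [Pinf] using mn_convex (c := 1) (lam := 1) (d := 0) hadm hD.le zero_le_one)
    (fun β ρ hβ hρ => (hth β ρ hβ hρ).1) z hzpos hsub
  have hM0 : 0 ≤ M := (abs_nonneg _).trans (hM 0)
  have e : ∀ r, φb r - tailk A Y 0 r + σ r = φb r + σ r - tailk A Y 0 r := fun r => by ring
  refine ⟨fun r => φb r - tailk A Y 0 r, hcont.sub (continuous_tailk hA hY 0),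
    ⟨M + 256 * ak A Y 0, fun r => ?_⟩,
    ⟨M * D ^ (3 + 1 / 32 : ℝ) + 128 * A * (Y : ℝ) ^ 2, fun r hr => ?_⟩,
    ⟨r₁, r₂, a, hr₁, hr₁₂, ha, fun r h1 h2 => ?_⟩, by simpa only [e] using hadm,
    fun β ρ => ⨅ μ : ℝ, (Pinf D (fun r => φb r + σ r) A Y β μ - μ * ρ),
    fun β ρ hβ hρ => by simpa only [e, Pinf] using (hth β ρ hβ hρ).2,
    z.1, ρ₁, ρ₂, hzpos, hρ₁, hρ₁₂, hkink⟩
  · have h1 := hM r
    have h2 := tailk_nonneg hA hY 0 r
    have h3 := tailk_le hA hY 0 r
    rw [abs_le] at h1 ⊢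
    constructor <;> linarith [h1.1, h1.2]
  · have hr0 : 0 < r := by linarith
    have h2 := tailk_nonneg hA hY 0 r
    have h3 := tailk_decay hA hY hr
    have hrp : 0 < r ^ (-(3 + 1 / 32 : ℝ)) := Real.rpow_pos_of_pos hr0 _
    have h4 : |φb r| ≤ M * D ^ (3 + 1 / 32 : ℝ) * r ^ (-(3 + 1 / 32 : ℝ)) := by
      by_cases h : D ≤ r
      · rw [hfar r h, abs_zero]; positivity
      · push Not at h
        have h5 : 1 ≤ D ^ (3 + 1 / 32 : ℝ) * r ^ (-(3 + 1 / 32 : ℝ)) := by
          rw [Real.rpow_neg hr0.le, ← div_eq_mul_inv, le_div_iff₀ (Real.rpow_pos_of_pos hr0 _),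
            one_mul]
          exact Real.rpow_le_rpow hr0.le h.le (by norm_num)
        have h6 := mul_le_mul_of_nonneg_left h5 hM0
        linarith [hM r]
    rw [abs_le] at h4 ⊢
    constructor <;> linarith [h4.1, h4.2]
  · have := hatt r h1 h2
    have := tailk_nonneg hA hY 0 r
    linarith

end Crest.Agent.R149
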