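import Crest.Agent.R149.Kac

/-! Row 149: the sequence of scales and the Kac attractions attached to them. -/

set_option autoImplicit false

namespace Crest.Agent.R149

open MeasureTheory Filter Topology Crest.ProbabilityR.Continuum

def Yk (Y k : ℕ) : ℕ := Y ^ (2 ^ k)

def ellk (Y k : ℕ) : ℕ := Yk Y k ^ 24

def wk (Y k : ℕ) : ℕ := Yk Y k ^ 8

noncomputable def ak (A : ℝ) (Y k : ℕ) : ℝ := A * ((Y : ℝ) / (Yk Y k : ℝ)) ^ 2

noncomputable def bk (A : ℝ) (Y k : ℕ) : ℝ := ak A Y k / ((ellk Y k : ℝ) ^ 3 * sumUp (wk Y k))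

noncomputable def Psi (A : ℝ) (Y k : ℕ) (r : ℝ) : ℝ :=
  bk A Y k * psi (r / ((wk Y k : ℝ) * (ellk Y k : ℝ)))

noncomputable def headk (A : ℝ) (Y k : ℕ) (r : ℝ) : ℝ := ∑ j ∈ Finset.range k, Psi A Y j r

noncomputable def tailk (A : ℝ) (Y k : ℕ) (r : ℝ) : ℝ := ∑' j, Psi A Y (j + k) r

lemma Yk_zero (Y : ℕ) : Yk Y 0 = Y := by simp [Yk]

lemma Yk_succ (Y k : ℕ) : Yk Y (k + 1) = Yk Y k ^ 2 := by
  simp only [Yk]; rw [pow_succ, pow_mul]

lemma le_Yk {Y : ℕ} (_hY : 2 ≤ Y) (k : ℕ) : Y ≤ Yk Y k := by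
  unfold Yk
  exact Nat.le_self_pow (by positivity) Y

lemma two_pow_le_Yk {Y : ℕ} (hY : 2 ≤ Y) (k : ℕ) : 2 ^ (k + 1) ≤ Yk Y k := by
  induction k with
  | zero => simpa [Yk_zero] using hY
  | succ k ih =>
    rw [Yk_succ]
    calc 2 ^ (k + 1 + 1) ≤ 2 ^ ((k + 1) * 2) := Nat.pow_le_pow_right (by norm_num) (by omega)
      _ = (2 ^ (k + 1)) ^ 2 := by rw [pow_mul]
      _ ≤ Yk Y k ^ 2 := Nat.pow_le_pow_left ih 2

lemma two_le_Yk {Y : ℕ} (hY : 2 ≤ Y) (k : ℕ) : (2 : ℝ) ≤ Yk Y k := by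
  exact_mod_cast hY.trans (le_Yk hY k)

lemma one_le_ellk {Y : ℕ} (hY : 2 ≤ Y) (k : ℕ) : 1 ≤ ellk Y k :=
  Nat.one_le_pow _ _ (by have := hY.trans (le_Yk hY k); omega)

lemma one_le_wk {Y : ℕ} (hY : 2 ≤ Y) (k : ℕ) : 1 ≤ wk Y k :=
  Nat.one_le_pow _ _ (by have := hY.trans (le_Yk hY k); omega)

lemma cast_ellk (Y k : ℕ) : (ellk Y k : ℝ) = (Yk Y k : ℝ) ^ 24 := by simp [ellk]

lemma cast_wk (Y k : ℕ) : (wk Y k : ℝ) = (Yk Y k : ℝ) ^ 8 := by simp [wk]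

lemma wk_mul_ellk (Y k : ℕ) : (wk Y k : ℝ) * (ellk Y k : ℝ) = (Yk Y k : ℝ) ^ 32 := by
  rw [cast_ellk, cast_wk]; ring

lemma ak_zero (A : ℝ) {Y : ℕ} (hY : 2 ≤ Y) : ak A Y 0 = A := by
  have : (Y : ℝ) ≠ 0 := by positivity
  simp [ak, Yk_zero, this]

lemma ak_pos {A : ℝ} (hA : 0 < A) {Y : ℕ} (hY : 2 ≤ Y) (k : ℕ) : 0 < ak A Y k := by
  have h1 := two_le_Yk hY k
  have : (0 : ℝ) < Y := by positivity
  unfold ak; positivity

lemma ak_succ (A : ℝ) {Y : ℕ} (hY : 2 ≤ Y) (k : ℕ) :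
    ak A Y (k + 1) = ak A Y k / (Yk Y k : ℝ) ^ 2 := by
  have h1 := two_le_Yk hY k
  unfold ak
  rw [Yk_succ]; push_cast; field_simp

lemma ak_add_le {A : ℝ} (hA : 0 < A) {Y : ℕ} (hY : 2 ≤ Y) (k j : ℕ) :
    ak A Y (j + k) ≤ ak A Y k / 2 ^ j := by
  induction j with
  | zero => simp
  | succ j ih =>
    have h1 := two_le_Yk hY (j + k)
    have h2 := ak_pos hA hY (j + k)
    rw [show j + 1 + k = (j + k) + 1 by ring, ak_succ A hY, pow_succ (2 : ℝ) j, ← div_div]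
    calc ak A Y (j + k) / (Yk Y (j + k) : ℝ) ^ 2 ≤ ak A Y (j + k) / 2 := by
          gcongr; nlinarith
      _ ≤ _ := by gcongr

lemma ak_le {A : ℝ} (hA : 0 < A) {Y : ℕ} (hY : 2 ≤ Y) (k : ℕ) : ak A Y k ≤ A := by
  have h := ak_add_le hA hY 0 k
  rw [add_zero, ak_zero A hY] at h
  exact h.trans (div_le_self hA.le (one_le_pow₀ (by norm_num)))

lemma sumUp_wk_pos {Y : ℕ} (hY : 2 ≤ Y) (k : ℕ) : 0 < sumUp (wk Y k) := by
  have h := sumUp_ge (one_le_wk hY k)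
  have h1 := two_le_Yk hY k
  rw [cast_wk] at h
  exact lt_of_lt_of_le (by positivity) h

lemma bk_pos {A : ℝ} (hA : 0 < A) {Y : ℕ} (hY : 2 ≤ Y) (k : ℕ) : 0 < bk A Y k := by
  have h1 := two_le_Yk hY k
  have h2 := ak_pos hA hY k
  have h3 := sumUp_wk_pos hY k
  unfold bk; rw [cast_ellk]; positivity

lemma ak_eq (A : ℝ) {Y : ℕ} (hY : 2 ≤ Y) (k : ℕ) :
    ak A Y k = bk A Y k * (ellk Y k : ℝ) ^ 3 * sumUp (wk Y k) := by
  have h1 := two_le_Yk hY k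
  have h3 := sumUp_wk_pos hY k
  unfold bk; rw [cast_ellk]; field_simp

lemma bk_mul_le {A : ℝ} (hA : 0 < A) {Y : ℕ} (hY : 2 ≤ Y) (k : ℕ) :
    bk A Y k * (Yk Y k : ℝ) ^ 96 ≤ 128 * ak A Y k := by
  have h := sumUp_ge (one_le_wk hY k)
  have h1 := two_le_Yk hY k
  have h2 := bk_pos hA hY k
  rw [ak_eq A hY k, cast_ellk]
  rw [cast_wk] at h
  have h3 := mul_le_mul_of_nonneg_left h (show 0 ≤ bk A Y k * ((Yk Y k : ℝ) ^ 24) ^ 3 by positivity)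
  linarith

lemma bk_le {A : ℝ} (hA : 0 < A) {Y : ℕ} (hY : 2 ≤ Y) (k : ℕ) : bk A Y k ≤ 128 * ak A Y k := by
  have h := bk_mul_le hA hY k
  have h1 := two_le_Yk hY k
  have h2 := bk_pos hA hY k
  have h3 : (1 : ℝ) ≤ (Yk Y k : ℝ) ^ 96 := one_le_pow₀ (by linarith)
  nlinarith

lemma Psi_nonneg {A : ℝ} (hA : 0 < A) {Y : ℕ} (hY : 2 ≤ Y) (k : ℕ) (r : ℝ) : 0 ≤ Psi A Y k r :=
  mul_nonneg (bk_pos hA hY k).le (psi_nonneg _)

lemma Psi_le_bk {A : ℝ} (hA : 0 < A) {Y : ℕ} (hY : 2 ≤ Y) (k : ℕ) (r : ℝ) :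
    Psi A Y k r ≤ bk A Y k :=
  mul_le_of_le_one_right (bk_pos hA hY k).le (psi_le_one _)

lemma Psi_eq_zero (A : ℝ) {Y : ℕ} (hY : 2 ≤ Y) (k : ℕ) {r : ℝ} (hr : (Yk Y k : ℝ) ^ 32 ≤ r) :
    Psi A Y k r = 0 := by
  have h1 := two_le_Yk hY k
  unfold Psi
  rw [wk_mul_ellk, psi_eq_zero, mul_zero]
  rw [le_div_iff₀ (by positivity)]; linarith

lemma Psi_le_ind {A : ℝ} (hA : 0 < A) {Y : ℕ} (hY : 2 ≤ Y) (k : ℕ) (r : ℝ) :
    Psi A Y k r ≤ bk A Y k * indLe ((Yk Y k : ℝ) ^ 32) r := by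
  unfold indLe
  split_ifs with h
  · rw [mul_one]; exact Psi_le_bk hA hY k r
  · rw [mul_zero, Psi_eq_zero A hY k (not_le.mp h).le]

lemma continuous_Psi (A : ℝ) (Y k : ℕ) : Continuous (Psi A Y k) := by
  unfold Psi
  exact continuous_const.mul (continuous_psi.comp (continuous_id.div_const _))

lemma energy_ind_le {A : ℝ} (hA : 0 < A) {Y : ℕ} (hY : 2 ≤ Y) (k : ℕ) {N : ℕ} (x : Fin N → Pt) :
    energy (fun r => bk A Y k * indLe ((Yk Y k : ℝ) ^ 32) r) x ≤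
      8000 * ak A Y k * Qn x Finset.univ := by
  have h1 := two_le_Yk hY k
  have h2 := bk_pos hA hY k
  have hQ := Qn_nonneg x Finset.univ
  rw [energy_const_mul, energy_eq_EnOn]
  have h3 := EnOn_indLe_le (ρ := (Yk Y k : ℝ) ^ 32) (by positivity) x Finset.univ
  have h4 : (1 : ℝ) ≤ (Yk Y k : ℝ) ^ 32 := one_le_pow₀ (by linarith)
  have h5 : (2 * (Yk Y k : ℝ) ^ 32 + 3) ^ 3 ≤ (5 * (Yk Y k : ℝ) ^ 32) ^ 3 := by
    gcongr; linarith
  have h6 := bk_mul_le hA hY k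
  have h7 : bk A Y k * ((2 * (Yk Y k : ℝ) ^ 32 + 3) ^ 3 / 2) ≤ 8000 * ak A Y k := by
    have := mul_le_mul_of_nonneg_left h5 h2.le
    linarith
  calc _ ≤ bk A Y k * ((2 * (Yk Y k : ℝ) ^ 32 + 3) ^ 3 / 2 * Qn x Finset.univ) :=
        mul_le_mul_of_nonneg_left h3 h2.le
    _ = bk A Y k * ((2 * (Yk Y k : ℝ) ^ 32 + 3) ^ 3 / 2) * Qn x Finset.univ := by ring
    _ ≤ _ := mul_le_mul_of_nonneg_right h7 hQ

lemma energy_Psi_le {A : ℝ} (hA : 0 < A) {Y : ℕ} (hY : 2 ≤ Y) (k : ℕ) {N : ℕ} (x : Fin N → Pt) :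
    energy (Psi A Y k) x ≤ 8000 * ak A Y k * Qn x Finset.univ :=
  (energy_mono (fun r _ => Psi_le_ind hA hY k r) x).trans (energy_ind_le hA hY k x)

lemma energy_rPsi_le {A : ℝ} (hA : 0 < A) {Y : ℕ} (hY : 2 ≤ Y) (k : ℕ) {N : ℕ} (x : Fin N → Pt) :
    energy (fun r => (r + 1) * Psi A Y k r) x ≤
      16000 * A * (Yk Y k : ℝ) ^ 32 * Qn x Finset.univ := by
  have h1 := two_le_Yk hY k
  have h2 := bk_pos hA hY k
  have hQ := Qn_nonneg x Finset.univ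
  have h4 : (1 : ℝ) ≤ (Yk Y k : ℝ) ^ 32 := one_le_pow₀ (by linarith)
  have h5 : energy (fun r => (r + 1) * Psi A Y k r) x ≤
      energy (fun r => (2 * (Yk Y k : ℝ) ^ 32) * (bk A Y k * indLe ((Yk Y k : ℝ) ^ 32) r)) x := by
    refine energy_mono (fun r hr => ?_) x
    by_cases h : r ≤ (Yk Y k : ℝ) ^ 32
    · exact mul_le_mul (by linarith) (Psi_le_ind hA hY k r) (Psi_nonneg hA hY k r) (by positivity)
    · rw [Psi_eq_zero A hY k (not_le.mp h).le]; simp [indLe, h]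
  rw [energy_const_mul] at h5
  have h6 := mul_le_mul_of_nonneg_left (energy_ind_le hA hY k x)
    (show 0 ≤ 2 * (Yk Y k : ℝ) ^ 32 by positivity)
  have h7 := mul_le_mul_of_nonneg_right (ak_le hA hY k)
    (show 0 ≤ 16000 * (Yk Y k : ℝ) ^ 32 * Qn x Finset.univ by positivity)
  linarith

lemma Psi_add_le {A : ℝ} (hA : 0 < A) {Y : ℕ} (hY : 2 ≤ Y) (k j : ℕ) (r : ℝ) :
    Psi A Y (j + k) r ≤ 256 * ak A Y k / 2 / 2 ^ j := by
  have h1 := Psi_le_bk hA hY (j + k) r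
  have h2 := bk_le hA hY (j + k)
  have h3 := ak_add_le hA hY k j
  have e : 256 * ak A Y k / 2 / 2 ^ j = 128 * (ak A Y k / 2 ^ j) := by ring
  linarith

lemma summable_Psi {A : ℝ} (hA : 0 < A) {Y : ℕ} (hY : 2 ≤ Y) (k : ℕ) (r : ℝ) :
    Summable fun j => Psi A Y (j + k) r :=
  Summable.of_nonneg_of_le (fun _ => Psi_nonneg hA hY _ r) (fun j => Psi_add_le hA hY k j r)
    (summable_geometric_two' _)

lemma tailk_nonneg {A : ℝ} (hA : 0 < A) {Y : ℕ} (hY : 2 ≤ Y) (k : ℕ) (r : ℝ) :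
    0 ≤ tailk A Y k r := tsum_nonneg fun _ => Psi_nonneg hA hY _ r

lemma tailk_le {A : ℝ} (hA : 0 < A) {Y : ℕ} (hY : 2 ≤ Y) (k : ℕ) (r : ℝ) :
    tailk A Y k r ≤ 256 * ak A Y k :=
  hasSum_le (fun j => Psi_add_le hA hY k j r) (summable_Psi hA hY k r).hasSum
    (hasSum_geometric_two' _)

lemma headk_nonneg {A : ℝ} (hA : 0 < A) {Y : ℕ} (hY : 2 ≤ Y) (k : ℕ) (r : ℝ) :
    0 ≤ headk A Y k r := Finset.sum_nonneg fun _ _ => Psi_nonneg hA hY _ r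

lemma headk_add_tailk {A : ℝ} (hA : 0 < A) {Y : ℕ} (hY : 2 ≤ Y) (k : ℕ) (r : ℝ) :
    headk A Y k r + tailk A Y k r = tailk A Y 0 r := by
  have h := summable_Psi hA hY 0 r
  simp only [add_zero] at h
  unfold headk tailk
  simp only [add_zero]
  exact h.sum_add_tsum_nat_add k

lemma headk_succ (A : ℝ) (Y k : ℕ) (r : ℝ) : headk A Y (k + 1) r = headk A Y k r + Psi A Y k r := by
  simp [headk, Finset.sum_range_succ]

lemma continuous_headk (A : ℝ) (Y k : ℕ) : Continuous (headk A Y k) := by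
  unfold headk
  exact continuous_finsetSum _ fun j _ => continuous_Psi A Y j

lemma continuous_tailk {A : ℝ} (hA : 0 < A) {Y : ℕ} (hY : 2 ≤ Y) (k : ℕ) :
    Continuous (tailk A Y k) := by
  unfold tailk
  refine continuous_tsum (fun j => continuous_Psi A Y (j + k))
    (summable_geometric_two' (256 * ak A Y k)) fun j r => ?_
  rw [Real.norm_eq_abs, abs_of_nonneg (Psi_nonneg hA hY _ r)]
  exact Psi_add_le hA hY k j r

lemma energy_tailk_le {A : ℝ} (hA : 0 < A) {Y : ℕ} (hY : 2 ≤ Y) (k : ℕ) {N : ℕ}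
    (x : Fin N → Pt) : energy (tailk A Y k) x ≤ 16000 * ak A Y k * Qn x Finset.univ := by
  have hQ := Qn_nonneg x Finset.univ
  have h1 : HasSum (fun j => energy (Psi A Y (j + k)) x) (energy (tailk A Y k) x) := by
    unfold energy
    exact hasSum_sum fun p _ => (summable_Psi hA hY k _).hasSum
  refine hasSum_le (fun j => ?_) h1 (hasSum_geometric_two' _)
  have h2 := energy_Psi_le hA hY (j + k) x
  have h3 := mul_le_mul_of_nonneg_right (ak_add_le hA hY k j)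
    (show 0 ≤ 8000 * Qn x Finset.univ by positivity)
  have e : 16000 * ak A Y k * Qn x Finset.univ / 2 / 2 ^ j =
      ak A Y k / 2 ^ j * (8000 * Qn x Finset.univ) := by ring
  linarith

lemma energy_headk_le {A : ℝ} (hA : 0 < A) {Y : ℕ} (hY : 2 ≤ Y) (k : ℕ) {N : ℕ}
    (x : Fin N → Pt) : energy (headk A Y k) x ≤ 16000 * A * Qn x Finset.univ := by
  have h := energy_tailk_le hA hY 0 x
  rw [ak_zero A hY] at h
  refine le_trans (energy_mono (fun r _ => ?_) x) h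
  have := headk_add_tailk hA hY k r
  have := tailk_nonneg hA hY k r
  linarith

lemma energy_rheadk_le {A : ℝ} (hA : 0 < A) {Y : ℕ} (hY : 2 ≤ Y) (k : ℕ) {N : ℕ}
    (x : Fin N → Pt) : energy (fun r => (r + 1) * headk A Y k r) x ≤
      32000 * A * (Yk Y k : ℝ) ^ 16 * Qn x Finset.univ := by
  have hQ := Qn_nonneg x Finset.univ
  induction k with
  | zero =>
    have : (fun r => (r + 1) * headk A Y 0 r) = fun _ => 0 := by funext r; simp [headk]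
    rw [this]
    have h0 : energy (fun _ => (0 : ℝ)) x = 0 := by simp [energy]
    rw [h0]; positivity
  | succ k ih =>
    have : (fun r => (r + 1) * headk A Y (k + 1) r) =
        fun r => (r + 1) * headk A Y k r + (r + 1) * Psi A Y k r := by
      funext r; rw [headk_succ]; ring
    rw [this, energy_add, Yk_succ]
    have h1 := energy_rPsi_le hA hY k x
    have h2 := two_le_Yk hY k
    have h3 : (2 : ℝ) ≤ (Yk Y k : ℝ) ^ 16 := h2.trans (le_self_pow₀ (by linarith) (by norm_num))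
    have h4 : 2 * (Yk Y k : ℝ) ^ 16 ≤ (Yk Y k : ℝ) ^ 32 := by nlinarith
    have h5 := mul_le_mul_of_nonneg_left h4 (show 0 ≤ 16000 * A * Qn x Finset.univ by positivity)
    push_cast
    linarith

lemma tailk_decay {A : ℝ} (hA : 0 < A) {Y : ℕ} (hY : 2 ≤ Y) {r : ℝ} (hr : 1 ≤ r) :
    tailk A Y 0 r ≤ 128 * A * (Y : ℝ) ^ 2 * r ^ (-(3 + 1 / 32 : ℝ)) := by
  refine hasSum_le (fun j => ?_) (summable_Psi hA hY 0 r).hasSum (hasSum_geometric_two' _)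
  simp only [add_zero]
  have h1 := two_le_Yk hY j
  have hr0 : 0 < r := by linarith
  have hrp : 0 < r ^ (-(3 + 1 / 32 : ℝ)) := Real.rpow_pos_of_pos hr0 _
  by_cases h : (Yk Y j : ℝ) ^ 32 ≤ r
  · rw [Psi_eq_zero A hY j h]; positivity
  · push Not at h
    have h2 := Psi_le_bk hA hY j r
    have h3 := bk_mul_le hA hY j
    have h4 : ((2 : ℝ) ^ (j + 1)) ≤ Yk Y j := by exact_mod_cast two_pow_le_Yk hY j
    -- r^(97/32) ≤ y^97
    have h5 : ((Yk Y j : ℝ) ^ 97)⁻¹ ≤ r ^ (-(3 + 1 / 32 : ℝ)) := by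
      rw [Real.rpow_neg hr0.le]
      refine inv_anti₀ (Real.rpow_pos_of_pos hr0 _) ?_
      calc r ^ (3 + 1 / 32 : ℝ) ≤ ((Yk Y j : ℝ) ^ 32) ^ (3 + 1 / 32 : ℝ) :=
            Real.rpow_le_rpow hr0.le h.le (by norm_num)
        _ = (Yk Y j : ℝ) ^ 97 := by
            rw [← Real.rpow_natCast, ← Real.rpow_mul (by positivity), ← Real.rpow_natCast]
            norm_num
    have h6 : bk A Y j ≤ 128 * A * (Y : ℝ) ^ 2 * ((Yk Y j : ℝ) ^ 97)⁻¹ / (Yk Y j : ℝ) := by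
      have e : 128 * A * (Y : ℝ) ^ 2 * ((Yk Y j : ℝ) ^ 97)⁻¹ / (Yk Y j : ℝ) =
          128 * ak A Y j / (Yk Y j : ℝ) ^ 96 := by
        unfold ak; field_simp
      rw [e, le_div_iff₀ (by positivity)]
      exact h3
    have h7 : 128 * A * (Y : ℝ) ^ 2 * ((Yk Y j : ℝ) ^ 97)⁻¹ / (Yk Y j : ℝ) ≤
        128 * A * (Y : ℝ) ^ 2 * r ^ (-(3 + 1 / 32 : ℝ)) / 2 ^ (j + 1) := by
      gcongr
    have e : 128 * A * (Y : ℝ) ^ 2 * r ^ (-(3 + 1 / 32 : ℝ)) / 2 / 2 ^ j =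
        128 * A * (Y : ℝ) ^ 2 * r ^ (-(3 + 1 / 32 : ℝ)) / 2 ^ (j + 1) := by
      rw [pow_succ (2 : ℝ) j]; field_simp
    linarith

end Crest.Agent.R149
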